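import Vale.Agent.P366C.ChD
import Vale.Agent.P366W.Brg0

/-!
# P366C: null sets, and the locality of the bad points
-/

open MeasureTheory Metric Filter Topology Set
open scoped ContDiff RealInnerProductSpace NNReal
open Vale.Agent.P366.Stmt Vale.Agent.P366Z Vale.Agent.P366W
open Vale.Agent.P366D (snc ini Null)
open Vale.Agent.P366L (Bad)
open Fin (last)

noncomputable section

namespace Vale.Agent.P366C

section Null

variable {n : ℕ} {d : ℝ} {A B : Set (E n)}

theorem null_mono (h : Null d B) (hAB : A ⊆ B) : Null d A := fun K hK δ hδ =>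
  let ⟨s, a, b, c⟩ := h K hK δ hδ
  ⟨s, a, (inter_subset_inter_left _ hAB).trans b, c⟩

theorem null_empty : Null d (∅ : Set (E n)) := fun _ _ δ hδ =>
  ⟨∅, by simp, by simp, by simpa using hδ.le⟩

theorem null_union (hA : Null d A) (hB : Null d B) : Null d (A ∪ B) := fun K hK δ hδ => by
  classical
  obtain ⟨s, a1, a2, a3⟩ := hA K hK (δ / 2) (half_pos hδ)
  obtain ⟨t, b1, b2, b3⟩ := hB K hK (δ / 2) (half_pos hδ)
  refine ⟨s ∪ t, fun p hp => (Finset.mem_union.1 hp).elim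
    (fun k => ⟨(a1 p k).1, by linarith [(a1 p k).2]⟩)
    fun k => ⟨(b1 p k).1, by linarith [(b1 p k).2]⟩, ?_, ?_⟩
  · rw [Finset.set_biUnion_union, union_inter_distrib_right]
    exact union_subset_union a2 b2
  · have := Finset.sum_union_inter (s₁ := s) (s₂ := t) (f := fun p => p.2 ^ d)
    have h0 : 0 ≤ ∑ p ∈ s ∩ t, p.2 ^ d := Finset.sum_nonneg fun p hp =>
      Real.rpow_nonneg (a1 p (Finset.mem_inter.1 hp).1).1.le _
    linarith

theorem null_biUnion {ι : Type} (s : Finset ι) {A : ι → Set (E n)} (h : ∀ i, Null d (A i)) :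
    Null d (⋃ i ∈ s, A i) := by
  classical
  induction s using Finset.induction_on with
  | empty => simpa using null_empty
  | insert i s _ ih => rw [Finset.set_biUnion_insert]; exact null_union (h i) ih

theorem null_of_loc (h : ∀ y, ∃ V ∈ 𝓝 y, Null d (A ∩ V)) : Null d A := fun K hK δ hδ => by
  have : Null d (A ∩ K) := hK.induction_on (p := fun s => Null d (A ∩ s))
    (by simpa using null_empty) (fun s t hst k => null_mono k (inter_subset_inter_right _ hst))
    (fun s t a b => by rw [inter_union_distrib_left]; exact null_union a b)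
    fun y _ => let ⟨V, a, b⟩ := h y; ⟨V, mem_nhdsWithin_of_mem_nhds a, b⟩
  simpa only [inter_assoc, inter_self] using this K hK δ hδ

/-- closures of Lipschitz images -/
theorem null_img (h : Null d A) {K : Set (E n)} (hK : IsCompact K) (hA : A ⊆ K) {τ : E n → E n}
    {L : ℝ≥0} (hτ : LipschitzOnWith L τ A) : Null d (closure (τ '' A)) := fun K' _ δ hδ => by
  classical
  obtain ⟨c, hc⟩ : ∃ c : ℝ, c = 2 * L + 1 := ⟨_, rfl⟩
  have c0 : 0 < c := by rw [hc]; positivity
  have c1 := Real.rpow_pos_of_pos c0 d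
  obtain ⟨s, a1, a2, a3⟩ := h K hK (min (δ / c) (δ / c ^ d)) (by positivity)
  have : ∀ p : E n × ℝ, ∃ a : E n, (A ∩ ball p.1 p.2).Nonempty → a ∈ A ∩ ball p.1 p.2 := fun p => by
    by_cases k : (A ∩ ball p.1 p.2).Nonempty
    · exact ⟨k.some, fun _ => k.some_mem⟩
    · exact ⟨0, fun k' => absurd k' k⟩
  choose a ha using this
  refine ⟨s.image fun p => (τ (a p), c * p.2), fun q hq => ?_, inter_subset_left.trans ?_, ?_⟩
  · obtain ⟨p, hp, rfl⟩ := Finset.mem_image.1 hq
    exact ⟨mul_pos c0 (a1 p hp).1, (le_div_iff₀' c0).1 ((a1 p hp).2.trans (min_le_left _ _))⟩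
  · refine (closure_minimal (t := ⋃ p ∈ s, closedBall (τ (a p)) (2 * L * p.2)) ?_
      (isClosed_biUnion_finset fun _ _ => isClosed_closedBall)).trans ?_
    · rintro _ ⟨z, hz, rfl⟩
      obtain ⟨p, hp, k⟩ := mem_iUnion₂.1 (a2 ⟨hz, hA hz⟩)
      obtain ⟨k1, k2⟩ := ha p ⟨z, hz, k⟩
      refine mem_iUnion₂.2 ⟨p, hp, (hτ.dist_le_mul z hz _ k1).trans ?_⟩
      have := dist_triangle_right z (a p) p.1
      rw [mem_ball] at k k2
      nlinarith [L.coe_nonneg]
    · refine iUnion₂_subset fun p hp => subset_iUnion₂_of_subset _ (Finset.mem_image_of_mem _ hp)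
        (closedBall_subset_ball ?_)
      simp only [hc]
      linarith [(a1 p hp).1]
  · refine (Finset.sum_image_le_of_nonneg fun q hq => ?_).trans ?_
    · obtain ⟨p, hp, rfl⟩ := Finset.mem_image.1 hq
      exact Real.rpow_nonneg (mul_pos c0 (a1 p hp).1).le _
    · rw [Finset.sum_congr rfl fun p hp => Real.mul_rpow c0.le (a1 p hp).1.le, ← Finset.mul_sum]
      exact (le_div_iff₀' c1).1 (a3.trans (min_le_right _ _))

end Null

variable {n : ℕ} {I : Type} {𝒰 : Ultrafilter I} {G : Field n} {φ : E n → ℝ} {u u' : I → E n → ℝ}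
  {p : E n} {z ε ρ : ℝ}

theorem cs_eq (G : Field n) (φ u : E n → ℝ) : cs G φ u = P366W.cs G φ u := rfl

theorem coer {M : E n →L[ℝ] E n} (h : ∀ v, v ≠ 0 → 0 < ⟪M v, v⟫) :
    ∃ c > (0 : ℝ), ∀ v, c * ‖v‖ ^ 2 ≤ ⟪M v, v⟫ := by
  obtain ⟨c, c0, hc⟩ := (isCompact_sphere (0 : E n) 1).exists_forall_le'
    (f := fun v => ⟪M v, v⟫) (by fun_prop) (a := 0) fun v hv => h v (ne_zero_of_mem_unit_sphere ⟨v, hv⟩)
  refine ⟨c, c0, fun v => ?_⟩
  rcases eq_or_ne v 0 with rfl | hv
  · simp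
  have v0 := norm_pos_iff.2 hv
  have := hc (‖v‖⁻¹ • v) (by simp [norm_smul, v0.ne'])
  simp only [map_smul, real_inner_smul_left, real_inner_smul_right] at this
  rwa [← mul_assoc, ← mul_inv, ← sq, ← div_eq_inv_mul, le_div_iff₀ (by positivity)] at this

/-- at small scales the density ratio only sees a small ball -/
theorem th_loc (hG : Met G) (hφ : Smooth φ) (x : E (n + 1)) (hρ : 0 < ρ) :
    ∀ᶠ l in 𝓝[>] (0 : ℝ), ∃ ψ : E (n + 1) → ℝ, (∀ y, ρ ≤ ‖y - x‖ → ψ y = 0) ∧ ∃ D : ℝ,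
      ∀ v : E n → ℝ, Smooth v → (cs G φ v).th x l = (∫ y, ψ (snc y (v y)) * (a1 G φ (snc y (v y)) *
        √⟪el n - Lz n (gradient v y), B1 G (snc y (v y)) (el n - Lz n (gradient v y))⟫)) / D := by
  have ok := cs_ok hG hφ (u := fun _ => 0) contDiff_const
  obtain ⟨c, c0, hc⟩ := coer (M := (B1 G x).inverse) fun v hv => by
    have k := ok.BA x v
    have k1 := ok.pos x (Surf.A _ x v) fun k' => hv (by rw [← k, k', map_zero])
    rwa [k] at k1
  have : Tendsto (fun l : ℝ => l ^ 2) (𝓝[>] 0) (𝓝 (0 ^ 2)) :=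
    ((continuous_pow 2).tendsto 0).mono_left nhdsWithin_le_nhds
  filter_upwards [this.eventually (gt_mem_nhds (show (0 : ℝ) ^ 2 < c * ρ ^ 2 by
    rw [zero_pow two_ne_zero]; positivity)), self_mem_nhdsWithin] with l h1 h2
  have l0 : 0 < l := h2
  refine ⟨fun y => ph (⟪(B1 G x).inverse (y - x), y - x⟫ / l ^ 2), fun y hy => ph_zero ?_,
    cm n * l ^ n * (a1 G φ x * √(B1 G x).det), fun v hv => ?_⟩
  · rw [le_div_iff₀ (by positivity), one_mul]
    exact (h1.le.trans (mul_le_mul_of_nonneg_left (pow_le_pow_left₀ hρ.le hy 2) c0.le)).trans (hc _)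
  · rw [cs_eq, Surf.th, P366W.cs, integral_gsurf (hv.of_le (by simp)) (sm_B1 hG).continuous
      (sm_a1 hG hφ).continuous (fun x => (a1_pos hG φ x).le)
      (Continuous.measurable (by have := continuous_ph; fun_prop))]
    simp only [Lz_add]
    rfl

theorem norm_ini_le (x : E (n + 1)) : ‖ini x‖ ≤ ‖x‖ := by
  rw [← adj_Lz]
  exact (ContinuousLinearMap.le_opNorm _ _).trans (mul_le_of_le_one_left (norm_nonneg _) (by
    rw [adj, ContinuousLinearMap.adjoint.norm_map]
    exact (Lz n).norm_toContinuousLinearMap_le))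

theorem snc_near {y : E n} {s : ℝ} (h : ‖snc y s - snc p z‖ < ρ) : y ∈ ball p ρ ∧ |s - z| < ρ := by
  constructor
  · have := norm_ini_le (snc y s - snc p z)
    rw [← adj_Lz, map_sub, adj_Lz, adj_Lz, P366P.ini_snc, P366P.ini_snc] at this
    exact mem_ball_iff_norm.2 (this.trans_lt h)
  · have := PiLp.norm_apply_le (snc y s - snc p z) (last n)
    rw [PiLp.sub_apply, P366P.snc_last, P366P.snc_last] at this
    exact this.trans_lt h

theorem bad_congr (hG : Met G) (hφ : Smooth φ) (hu : ∀ i, Smooth (u i)) (hu' : ∀ i, Smooth (u' i))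
    (hρ : 0 < ρ) (e : ∀ᶠ i in (𝒰 : Filter I), ∀ y ∈ ball p ρ, u i y = u' i y)
    (h : snc p z ∈ Bad 𝒰 (fun i => cs G φ (u i)) ε) :
    snc p z ∈ Bad 𝒰 (fun i => cs G φ (u' i)) ε := by
  refine (Frequently.and_eventually h (th_loc hG hφ (snc p z) hρ)).mono ?_
  rintro l ⟨h1, ψ, h2, D, h3⟩
  filter_upwards [h1, e] with i k1 k2
  rw [h3 _ (hu i)] at k1
  rw [h3 _ (hu' i)]
  refine k1.trans_eq (congrArg (· / D) (integral_congr_ae (Eventually.of_forall fun y => ?_)))
  by_cases hy : y ∈ ball p ρ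
  · have : u i =ᶠ[𝓝 y] u' i := Eventually.mono (isOpen_ball.mem_nhds hy) k2
    simp only [this.gradient_eq, k2 y hy]
  · simp only [h2 _ (not_lt.1 fun k => hy (snc_near k).1), zero_mul]

theorem not_bad_far (hG : Met G) (hφ : Smooth φ) (hu : ∀ i, Smooth (u i)) (hρ : 0 < ρ) (hε : 0 ≤ ε)
    (e : ∀ᶠ i in (𝒰 : Filter I), ∀ y ∈ ball p ρ, ρ ≤ |u i y - z|) :
    snc p z ∉ Bad 𝒰 (fun i => cs G φ (u i)) ε := fun h => by
  obtain ⟨l, h1, ψ, h2, D, h3⟩ := (Frequently.and_eventually h (th_loc hG hφ (snc p z) hρ)).exists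
  obtain ⟨i, k1, k2⟩ := (h1.and e).exists
  rw [h3 _ (hu i), integral_congr_ae (g := fun _ => 0) (Eventually.of_forall fun y => by
    simp only [h2 _ (not_lt.1 fun k => (k2 y (snc_near k).1).not_gt (snc_near k).2), zero_mul]),
    integral_zero, zero_div] at k1
  linarith

end Vale.Agent.P366C
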