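import Vale.Agent.P366C.Ana2
import Vale.Agent.P366C.Nul0
import Vale.Agent.P366M.Map

/-!
# P366C: the row NUL (the singular set is small)
-/

open MeasureTheory Metric Filter Topology Set
open scoped ContDiff MatrixOrder
open Vale.Agent.P366 hiding E
open Vale.Agent.P366.Stmt Vale.Agent.P366Z
open Vale.Agent.P366D (snc Null)
open Vale.Agent.P366M.Gr Vale.Agent.P366M.Y.C
open Vale.Agent.P366C
open Vale.Agent.P366L (Bad)

noncomputable section

namespace Vale.Agent.P366M.An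

namespace NulH

variable {n : ℕ} {X : Type} [Mf0 n X] {g : Fld n X} {f : X → ℝ}

/-- a chart in which the metric is Euclidean at the point -/
theorem exists_on (hg : Met g) (x : X) : ∃ e ∈ At X, e.symm 0 = x ∧
    Stmt.mat (rep e g) 0 = 1 := by
  have p := (hg.inv_pos x).posSemidef
  obtain ⟨S, s1, s2⟩ : ∃ S : Matrix (Fin n) (Fin n) ℝ, S.transpose = S ∧ S * S = (mat g x)⁻¹ :=
    ⟨CFC.sqrt (mat g x)⁻¹, (Matrix.nonneg_iff_posSemidef.1 (CFC.sqrt_nonneg _)).1,
      CFC.sqrt_mul_sqrt_self _ p.nonneg⟩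
  have s3 : S * (S * mat g x) = 1 := by
    rw [← Matrix.mul_assoc, s2]
    exact Matrix.nonsing_inv_mul _ (isUnit_iff_ne_zero.2 (hg.det_pos x).ne')
  have s4 : S * mat g x * S = 1 := mul_eq_one_comm.1 s3
  let T : E n →ₗ[ℝ] E n := Matrix.toEuclideanLin S
  have t4 : Function.Injective T := Function.LeftInverse.injective
    (g := Matrix.toEuclideanLin (S * mat g x)) fun v => by
      ext i
      change ((S * mat g x).mulVec (S.mulVec v.ofLp)) i = _
      rw [Matrix.mulVec_mulVec, s4, Matrix.one_mulVec]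
  obtain ⟨e, he, h1, -⟩ := exists_affine (ch_mem x) (pt x)
    (LinearEquiv.ofInjectiveEndo T t4).toContinuousLinearEquiv
  have h2 : e.symm 0 = x := by rw [h1, map_zero, add_zero, symm_pt]
  refine ⟨e, he, h2, ?_⟩
  have h3 : J e 0 = S := by
    have : tm e (ch x) = fun z => pt x +
        (LinearEquiv.ofInjectiveEndo T t4).toContinuousLinearEquiv z :=
      funext fun z => by rw [tm, h1, right_inv (ch_mem x)]
    ext k i
    have d := ((LinearEquiv.ofInjectiveEndo T t4).toContinuousLinearEquiv.hasFDerivAt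
      (x := 0)).const_add (pt x)
    rw [J, h2, this, jac_eq d.differentiableAt, d.fderiv]
    change (S.mulVec _) k = _
    simp
  rw [mat_rep, h3, h2, s1, s4]

/-- a normalised chart -/
theorem exists_nm (hg : Met g) (hf : Smooth f) (x : X) : ∃ e ∈ At X, e.symm 0 = x ∧ ∃ κ : ℝ,
    ∀ ε > (0 : ℝ), ∀ᶠ y in 𝓝 0, Nm (rep e g) (fun y => loc e f y + κ) ε y := by
  obtain ⟨e, he, h1, h2⟩ := exists_on hg x
  have hG := hg.rep he
  refine ⟨e, he, h1, -f x, fun ε ε0 => Eventually.and ?_ ?_⟩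
  · refine ((P366W.sm_B0 hG).continuous.sub continuous_const).norm.continuousAt.eventually
      (gt_mem_nhds (lt_of_eq_of_lt (norm_eq_zero.2 (sub_eq_zero.2 ?_)) ε0))
    ext v i
    simp [P366W.B0_apply, Stmt.up, h2, Matrix.one_apply]
  · refine ((((hf e he).continuous.add continuous_const).rexp.mul hG.sm_dens.cont).sub
      continuous_const).abs.continuousAt.eventually
      (gt_mem_nhds (lt_of_eq_of_lt (abs_eq_zero.2 (sub_eq_zero.2 ?_)) ε0))
    simp [loc, h1, P366Z.dens, h2]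

end NulH

variable {n : ℕ} {X : Type} [Mf0 n X] {I : Type} {F : Fd X I} {g : Fld n X} {f θ : X → ℝ}
  {U : Set X} {v₀ : ℝ} {e : Ch n X} {K O : Set (E n)}

/-- a branch in a chart is a family of capillary graphs -/
theorem Fd.Ok.cf (hF : F.Ok g f v₀) (he : e ∈ At X) (κ : ℝ) (hθ : Lft F.Θ θ U) (hK : IsCompact K)
    (hU : ∀ y ∈ K, e.symm y ∈ U) (hO : IsOpen O) (hOK : O ⊆ K) : ∃ H Λ,
      Cf F.𝒰 (rep e g) (fun y => loc e f y + κ) H (fun i => loc e (F.br θ i)) F.c F.ε O (F.S + 2)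
        Λ ∧ ∀ y ∈ K, H y = F.H (e.symm y) (θ (e.symm y)) := by
  have hG := hF.met.rep he
  obtain ⟨H, sH, eH⟩ := exists_smooth (u := fun y => F.H y (θ y)) (cpt_image he hK) (by
    rintro _ ⟨y, hy, rfl⟩
    exact Eventually.mono (hθ.opn.mem_nhds (hU y hy)) (hF.smH θ U hθ))
  obtain ⟨Λ, hΛ⟩ := hF.hb
  have sf : Smooth fun x => f x + κ := CD.add hF.smf cd_const
  have e1 : ∀ i y, P366P.hw (rep e g) (fun y => loc e f y + κ) (loc e (F.br θ i)) y =
      hw g f (F.br θ i) (e.symm y) := fun i y => by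
    rw [← hw_add_w g f _ κ]
    exact (congrFun (loc_hw hF.met he sf (hF.sm_br hθ.sm i)) y).symm
  have e2 : ∀ y ∈ K, loc e H y = F.H (e.symm y) (θ (e.symm y)) := fun y hy =>
    (eH _ ⟨y, hy, rfl⟩).self_of_nhds
  refine ⟨loc e H, Λ, ⟨hG, sf e he, sH e he, hO, fun i => hF.sm_br hθ.sm i e he, hF.c0, hF.ε0,
    hF.εp, hΛ.mono fun i hi y hy => e1 i y ▸ hi θ U hθ _ (hU y (hOK hy)),
    hF.eq.mono fun i hi y hy k => ?_, ?_⟩, e2⟩
  · rw [e1, e2 y (hOK hy)]
    exact hi θ U hθ _ (hU y (hOK hy)) k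
  · obtain ⟨c, c0, hc⟩ := hK.exists_forall_le' hG.sm_dens.cont.continuousOn (a := 0)
      fun y _ => hG.dens_pos y
    have t := ENNReal.Tendsto.const_mul (a := (ENNReal.ofReal c)⁻¹) hF.vol
      (Or.inr (ENNReal.inv_ne_top.2 (ENNReal.ofReal_pos.2 c0).ne'))
    rw [mul_zero] at t
    refine tendsto_of_tendsto_of_tendsto_of_le_of_le' tendsto_const_nhds t
      (Eventually.of_forall fun _ => bot_le) ?_
    filter_upwards [hF.lam.eventually (eventually_gt_atTop 0)] with i hi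
    have mB : MeasurableSet {y | y ∈ O ∧ |loc e (F.br θ i) y| < F.S + 2} :=
      (hO.inter (isOpen_lt (hF.sm_br hθ.sm i e he).continuous.abs continuous_const)).measurableSet
    rw [← ENNReal.div_eq_inv_mul, ENNReal.le_div_iff_mul_le (Or.inl (ENNReal.ofReal_pos.2 c0).ne')
      (Or.inl ENNReal.ofReal_ne_top), mul_comm, ← setLIntegral_const]
    refine (setLIntegral_mono' mB fun y hy => ENNReal.ofReal_le_ofReal (hc y (hOK hy.1))).trans ?_
    rw [← vol_image hF.met he mB]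
    refine measure_mono ?_
    rintro _ ⟨y, hy, rfl⟩
    exact (Fd.abs_u_le hθ (hU y (hOK hy.1)) hi).trans_lt hy.2

/-- only finitely many branches meet a slab -/
theorem Fd.Ok.far (hF : F.Ok g f v₀) (hθ : Smooth θ) {A : Set X} (hA : IsCompact A) (T : ℝ) :
    ∃ N : ℤ, ∀ᶠ i in (F.𝒰 : Filter I), ∀ m : ℤ, m ∉ Finset.Icc (-N) N → ∀ x ∈ A,
      T ≤ |F.br (fun y => θ y + m) i x| := by
  obtain ⟨C, hC⟩ := hF.bd
  obtain ⟨D, hD⟩ := hA.exists_bound_of_continuousOn hθ.cont.continuousOn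
  refine ⟨⌈C + D + 1⌉, ?_⟩
  filter_upwards [hC, hF.lam.eventually (eventually_ge_atTop (max T 0))] with i h1 h2 m hm x hx
  rw [max_le_iff] at h2
  have k1 : C + D + 1 ≤ |(m : ℝ)| := by
    rw [Finset.mem_Icc, ← abs_le, not_le] at hm
    exact (Int.le_ceil _).trans (by exact_mod_cast hm.le)
  have k2 : |θ x| ≤ D := hD x hx
  have k3 := abs_sub_abs_le_abs_sub (m : ℝ) (-θ x)
  have k4 := abs_sub_abs_le_abs_sub (F.lam i * (θ x + m)) (F.v i x)
  rw [abs_neg, sub_neg_eq_add, add_comm] at k3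
  rw [abs_mul, abs_of_nonneg h2.2, abs_sub_comm] at k4
  have k5 := mul_le_mul_of_nonneg_left (show C + 1 ≤ |θ x + m| by linarith) h2.2
  unfold Fd.br
  linarith [h1 x]

theorem nul_of (h0 : NUL0) : NUL := by
  intro k X _ _ I F g f v₀ ε₀ hF ε0 ε1 e he
  refine null_of_loc fun y => ?_
  obtain ⟨e', he', x0, κ, hN⟩ := NulH.exists_nm hF.met hF.smf (e.symm y)
  obtain ⟨θ, U, hθ, hU⟩ := hF.cir (e.symm y)
  have hs : e'.symm 0 ∈ e.source := x0 ▸ symm_mem he y
  obtain ⟨L, t, ht, hL⟩ := ((tm_cd he' he hs).of_le one_le_oo).exists_lipschitzOnWith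
  obtain ⟨r, r0, hr⟩ := nhds_basis_closedBall.eventually_iff.1 (((hN ε₀ ε0).and ht).and
    ((ev_iff he').1 (x0 ▸ hθ.opn.mem_nhds hU)))
  have cK := isCompact_closedBall (0 : E (k + 1))
  have sub : closedBall (0 : E (k + 1)) (r / 2) ⊆ ball 0 r := closedBall_subset_ball (by linarith)
  have hG := hF.met.rep he'
  have sφ : Stmt.Smooth fun y => loc e' f y + κ := ContDiff.add (hF.smf e' he') contDiff_const
  obtain ⟨N, hN'⟩ := hF.far hθ.sm (cpt_image he' (cK r)) (F.S + 1 + r / 2)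
  have n1 := null_biUnion (Finset.Icc (-N) N) fun m : ℤ => by
    obtain ⟨H, Λ, c, -⟩ := hF.cf he' κ (hθ.add m) (cK r) (fun z hz => (hr hz).2) isOpen_ball
      ball_subset_closedBall
    exact h0 k I _ _ _ _ _ _ _ _ _ _ (F.S + 1) ε₀ c (fun p hp => by
      have := (hr (ball_subset_closedBall hp)).1.1
      exact ⟨this.1.trans_le ε1, this.2.trans_le ε1⟩) (by linarith) ε0 _ (cK (r / 2)) sub
  have n2 : Null ((k : ℝ) - 15 / 4) {z ∈ closedBall 0 (r / 2) | ¬F.Good g f ε₀ (e'.symm z)} := by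
    refine null_mono n1 fun z ⟨hz, hb⟩ => ?_
    have z1 := hr (ball_subset_closedBall (sub hz))
    simp only [Fd.Good, not_exists, not_and, not_forall, not_not] at hb
    obtain ⟨θ', U', h1, h2, s, h3, h4⟩ := hb e' he' (symm_mem he' z) κ
      (by rw [right_inv he']; exact z1.1.1)
    rw [right_inv he'] at h4
    obtain ⟨m, hm⟩ := hθ.ev h1 z1.2 h2
    obtain ⟨ρ, ρ0, hρ⟩ := nhds_basis_ball.eventually_iff.1 ((ev_iff he').1 hm)
    have h5 := bad_congr hG sφ (fun i => hF.sm_br h1.sm i e' he')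
      (fun i => hF.sm_br (hθ.add m).sm i e' he') ρ0 (Eventually.of_forall fun i w hw => by
        simp only [loc, Fd.br, hρ hw]) h4
    refine mem_iUnion₂.2 ⟨m, by_contra fun hm' => ?_, hz, s, h3, h5⟩
    refine not_bad_far hG sφ (fun i => hF.sm_br (hθ.add m).sm i e' he') (half_pos r0) ε0.le
      (hN'.mono fun i hi w hw => ?_) h5
    have k1 := hi m hm' _ ⟨w, by
      rw [mem_closedBall] at hz ⊢
      linarith [dist_triangle w z 0, mem_ball.1 hw], rfl⟩
    have k2 := abs_sub_abs_le_abs_sub (F.br (fun y => θ y + m) i (e'.symm w)) s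
    rw [loc_apply]
    linarith
  have n3 := null_img n2 (cK (r / 2)) (fun z hz => hz.1)
    (hL.mono fun z hz => (hr (ball_subset_closedBall (sub hz.1))).1.2)
  have hs' : e.symm y ∈ e'.source := x0 ▸ symm_mem he' 0
  have v1 : ∀ᶠ w in 𝓝 y, tm e e' w ∈ closedBall 0 (r / 2) :=
    (tm_cd he he' hs').continuousAt.eventually (closedBall_mem_nhds_of_mem (by
      rw [tm, ← x0, right_inv he']; exact mem_ball_self (half_pos r0)))
  obtain ⟨V, hV, oV, yV⟩ := _root_.mem_nhds_iff.1 (v1.and (ev_src he hs'))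
  refine ⟨V, oV.mem_nhds yV, null_mono n3 ?_⟩
  rw [Fd.Sg, (openEmb_symm he).isOpenMap.preimage_closure_eq_closure_preimage (cont_symm he)]
  refine oV.closure_inter.trans (closure_mono fun w ⟨a, b⟩ => ⟨tm e e' w, ⟨(hV b).1, ?_⟩, ?_⟩)
  · rwa [symm_tm (hV b).2]
  · rw [tm, symm_tm (hV b).2, right_inv he]

end Vale.Agent.P366M.An
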