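import Vale.Agent.P366C.ChD

/-!
# P366C: comparison of the mean curvatures at a point of contact
-/

open MeasureTheory Metric Filter Topology Set
open scoped ContDiff RealInnerProductSpace
open Vale.Agent.P366.Stmt Vale.Agent.P366W Vale.Agent.P366R

noncomputable section

namespace Vale.Agent.P366C

namespace Tch

variable {N : ℕ}

theorem neg_ev {g : ℝ → ℝ} (hg : ContDiff ℝ 2 g) (h0 : g 0 = 0) (h1 : deriv g 0 = 0)
    (h2 : deriv (deriv g) 0 < 0) : ∀ᶠ t in 𝓝[≠] (0 : ℝ), g t < 0 := by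
  set δ := -deriv (deriv g) 0 / 4 with hδ
  have d1 := hg.differentiable two_ne_zero
  have d2 : Differentiable ℝ (deriv g) :=
    ((contDiff_succ_iff_deriv (n := 1)).1 hg).2.2.differentiable one_ne_zero
  have e1 : deriv (fun t => g t + δ * t ^ 2) = fun t => deriv g t + δ * (2 * t) := funext fun t =>
    ((d1 t).hasDerivAt.add (((hasDerivAt_id' t).pow 2).const_mul δ)).deriv.trans (by simp)
  have e2 := ((d2 0).hasDerivAt.add (((hasDerivAt_id' (0 : ℝ)).const_mul 2).const_mul δ)).deriv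
  have m := isLocalMax_of_deriv_deriv_neg (f := fun t => g t + δ * t ^ 2) (x₀ := 0)
    (by rw [e1]; exact e2.trans_lt (by linarith)) (by rw [e1]; simp [h1])
    (hg.continuous.add (by fun_prop)).continuousAt
  filter_upwards [nhdsWithin_le_nhds m, self_mem_nhdsWithin] with t ht t0
  have := mul_pos (show 0 < δ by linarith) (sq_pos_of_ne_zero (show t ≠ 0 from t0))
  simp only [h0] at ht
  linarith

theorem curve {Φ : E N → ℝ} (hΦ : ContDiff ℝ ∞ Φ) (x v w : E N) :
    deriv (fun t : ℝ => Φ (x + t • v + t ^ 2 • w)) 0 = ⟪gradient Φ x, v⟫ ∧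
    deriv (deriv fun t : ℝ => Φ (x + t • v + t ^ 2 • w)) 0 =
      ⟪fderiv ℝ (gradient Φ) x v, v⟫ + 2 * ⟪gradient Φ x, w⟫ := by
  have c : ∀ t : ℝ, HasDerivAt (fun t : ℝ => x + t • v + t ^ 2 • w) (v + (2 * t) • w) t := fun t =>
    ((((hasDerivAt_id' t).smul_const v).const_add x).add
      (((hasDerivAt_id' t).pow 2).smul_const w)).congr_deriv (by simp)
  have e1 : deriv (fun t : ℝ => Φ (x + t • v + t ^ 2 • w)) =
      fun t => ⟪gradient Φ (x + t • v + t ^ 2 • w), v + (2 * t) • w⟫ := funext fun t => by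
    rw [inner_grad]
    exact ((hΦ.differentiable (by simp) _).hasFDerivAt.comp_hasDerivAt t (c t)).deriv
  have d := (((smooth_gradient hΦ).differentiable (by simp) _).hasFDerivAt.comp_hasDerivAt 0
    (c 0)).inner ℝ ((((hasDerivAt_id' (0 : ℝ)).const_mul 2).smul_const w).const_add v)
  rw [e1]
  refine ⟨by simp, d.deriv.trans ?_⟩
  simp [inner_smul_right, add_comm]

theorem jet2 {Φ Φ' : E N → ℝ} {x : E N} (hΦ : ContDiff ℝ ∞ Φ) (hΦ' : ContDiff ℝ ∞ Φ')
    (h0 : Φ x = 0) (h0' : Φ' x = 0) (h : ∀ᶠ y in 𝓝 x, Φ y < 0 → Φ' y ≤ 0) {v w : E N}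
    (hv : ⟪gradient Φ x, v⟫ = 0) (hv' : ⟪gradient Φ' x, v⟫ = 0)
    (k : ⟪fderiv ℝ (gradient Φ) x v, v⟫ + 2 * ⟪gradient Φ x, w⟫ < 0) :
    ⟪fderiv ℝ (gradient Φ') x v, v⟫ + 2 * ⟪gradient Φ' x, w⟫ ≤ 0 := by
  by_contra! k'
  have c : ContDiff ℝ 2 fun t : ℝ => x + t • v + t ^ 2 • w := by fun_prop
  obtain ⟨a1, a2⟩ := curve hΦ x v w
  obtain ⟨b1, b2⟩ := curve hΦ' x v w
  have e1 := neg_ev ((hΦ.of_le two_le_inf).comp c) (by simpa using h0) (a1.trans hv)
    (a2.trans_lt k)
  have e2 := neg_ev ((hΦ'.of_le two_le_inf).comp c).neg (by simpa using h0')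
    (by rw [deriv.fun_neg, neg_eq_zero]; exact b1.trans hv')
    (by rw [deriv.fun_neg', deriv.fun_neg, neg_lt_zero]; exact k'.trans_eq b2.symm)
  have e3 := (c.continuous.tendsto' 0 x (by simp)).eventually h
  obtain ⟨t, t1, t2, t3⟩ := (e1.and (e2.and (nhdsWithin_le_nhds e3))).exists
  exact absurd (t3 t1) (not_le.2 (neg_lt_zero.1 t2))

theorem le_of {A B C D : ℝ} (hC : 0 < C) (h : ∀ c, A + c * C < 0 → B + c * D ≤ 0) :
    B * C ≤ A * D := by
  have c : Continuous fun s : ℝ => B + (-A / C - s) * D := by fun_prop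
  have := le_of_tendsto (c.tendsto' 0 _ rfl |>.mono_left (nhdsWithin_le_nhds (s := Ioi 0)))
    (eventually_of_mem self_mem_nhdsWithin fun s hs => h _ (by
      rw [sub_mul, div_mul_cancel₀ _ hC.ne']; linarith [mul_pos (show 0 < s from hs) hC]))
  have e : (B + (-A / C - 0) * D) * C = B * C - A * D := by field_simp; ring
  linarith [mul_le_mul_of_nonneg_right this hC.le]

theorem par {a b : E N} (ha : a ≠ 0) (hb : b ≠ 0) (h : ∀ w, ⟪a, w⟫ < 0 → ⟪b, w⟫ ≤ 0) :
    ∃ l > (0 : ℝ), b = l • a := by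
  have a0 : 0 < ⟪a, a⟫ := real_inner_self_pos.2 ha
  set l := ⟪a, b⟫ / ⟪a, a⟫ with hl
  have u0 : ⟪a, b - l • a⟫ = 0 := by
    rw [inner_sub_right, real_inner_smul_right, hl, div_mul_cancel₀ _ a0.ne', sub_self]
  have u1 := le_of (A := ⟪a, b - l • a⟫) (B := ⟪b, b - l • a⟫) (D := ⟪b, a⟫) a0 fun c hc => by
    simpa only [inner_add_right, real_inner_smul_right] using h (b - l • a + c • a)
      (by simpa only [inner_add_right, real_inner_smul_right] using hc)
  have u2 : ⟪b - l • a, b - l • a⟫ ≤ 0 := by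
    rw [inner_sub_left, real_inner_smul_left, u0]
    rw [u0] at u1
    nlinarith
  have e : b = l • a := sub_eq_zero.1 (real_inner_self_nonpos.1 u2)
  have l0 : 0 ≤ l := by
    have := h (-a) (by rw [inner_neg_right]; linarith)
    rw [inner_neg_right, real_inner_comm] at this
    exact div_nonneg (by linarith) a0.le
  exact ⟨l, l0.lt_of_ne fun k => hb (by rw [e, ← k, zero_smul]), e⟩

theorem trc_nonneg {B M : En N} (hs : ∀ v w, ⟪B v, w⟫ = ⟪v, B w⟫) (hp : ∀ v, 0 ≤ ⟪v, B v⟫)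
    (hM : ∀ v, 0 ≤ ⟪v, M v⟫) : 0 ≤ trc (B ∘L M) := by
  have hB : (B : E N →ₗ[ℝ] E N).IsSymmetric := hs
  have hn : Module.finrank ℝ (E N) = N := by simp
  rw [trc_eq_trace, LinearMap.trace_eq_sum_inner _ (hB.eigenvectorBasis hn)]
  refine Finset.sum_nonneg fun i _ => ?_
  have he : B (hB.eigenvectorBasis hn i) = hB.eigenvalues hn i • hB.eigenvectorBasis hn i :=
    hB.apply_eigenvectorBasis hn i
  have h1 := hp (hB.eigenvectorBasis hn i)
  rw [he, real_inner_smul_right, real_inner_self_eq_norm_sq,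
    (hB.eigenvectorBasis hn).orthonormal.1 i] at h1
  change 0 ≤ ⟪_, B (M _)⟫
  rw [← hs, he, real_inner_smul_left]
  exact mul_nonneg (by simpa using h1) (hM _)

theorem dn_eq {S : Surf N} (h : S.Ok) (x u : E N) : fderiv ℝ S.n x u =
    (S.W x)⁻¹ • (fderiv ℝ (gradient S.Φ) x u - ⟪S.ν x, fderiv ℝ (gradient S.Φ) x u⟫ • S.n x) -
      (⟪S.n x, fderiv ℝ S.B x u (S.n x)⟫ / 2) • S.n x := by
  have W0 := (h.W_pos x).ne'
  have d1 : DifferentiableAt ℝ (fun y => (S.W y)⁻¹) x :=
    (h.smW.differentiable (by simp) x).inv W0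
  have d2 : fderiv ℝ S.n x u = (S.W x)⁻¹ • fderiv ℝ (gradient S.Φ) x u +
      (fderiv ℝ (fun y => (S.W y)⁻¹) x u * S.W x) • S.n x := by
    rw [show S.n = fun y => (S.W y)⁻¹ • gradient S.Φ y from rfl,
      fderiv_fun_smul d1 ((smooth_gradient h.smΦ).differentiable (by simp) x)]
    simp [smul_smul, W0]
  have d3 := h.ν_dn x u
  rw [d2, inner_add_right, real_inner_smul_right, real_inner_smul_right, real_inner_comm (S.n x),
    h.nν] at d3
  rw [d2, show fderiv ℝ (fun y => (S.W y)⁻¹) x u * S.W x = -((S.W x)⁻¹ *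
    ⟪S.ν x, fderiv ℝ (gradient S.Φ) x u⟫) - ⟪S.n x, fderiv ℝ S.B x u (S.n x)⟫ / 2 by linarith]
  module

end Tch

open Tch

/-- **TOUCH** -/
theorem touch : TOUCH := by
  intro N T T' x h h' eB ea h0 h0' hs
  obtain ⟨l, l0, e⟩ := par (h.reg x) (h'.reg x) fun w hw => by
    have := jet2 h.smΦ h'.smΦ h0 h0' hs (v := 0) (w := w) (by simp) (by simp)
      (by rw [inner_zero_right]; linarith)
    rw [inner_zero_right] at this
    linarith
  have W0 := h.W_pos x
  have W1 := h'.W_pos x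
  have eW : T'.W x = l * T.W x := by
    rw [Surf.W, Surf.W, e, eB, map_smul, real_inner_smul_left, real_inner_smul_right, ← mul_assoc,
      Real.sqrt_mul (by positivity), Real.sqrt_mul_self l0.le]
  have en : T'.n x = T.n x := by
    rw [Surf.n, Surf.n, eW, e, smul_smul]; congr 1; field_simp
  have eν : T'.ν x = T.ν x := by rw [Surf.ν, Surf.ν, en, eB]
  have eP : T'.P x = T.P x := by rw [Surf.P, Surf.P, en, eν]
  set Q := (T.W x)⁻¹ • fderiv ℝ (gradient T.Φ) x - (T'.W x)⁻¹ • fderiv ℝ (gradient T'.Φ) x with hQ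
  set Pa := ContinuousLinearMap.id ℝ (E N) - (innerSL ℝ (T.ν x)).smulRight (T.n x) with hPa
  have e1 : sh T x - sh T' x = T.B x ∘L (Pa ∘L Q ∘L T.P x) := by
    ext1 v
    simp only [sh, sub_apply, ContinuousLinearMap.comp_apply, h.fderiv_ν,
      h'.fderiv_ν, dn_eq h, dn_eq h', eP, en, eν, eB, hQ, hPa, smul_apply,
      ContinuousLinearMap.id_apply, ContinuousLinearMap.smulRight_apply, innerSL_apply_apply,
      map_sub, map_smul]
    module
  have e2 := trc_nonneg (h.sym x) (h.B_nonneg x) (M := Pa ∘L Q ∘L T.P x) fun v => by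
    have t0 : ⟪T.n x, T.P x v⟫ = 0 := by
      rw [Surf.P_apply, inner_sub_right, real_inner_smul_right, h.nν]; ring
    have t1 : ⟪v, (Pa ∘L Q ∘L T.P x) v⟫ = ⟪Q (T.P x v), T.P x v⟫ := by
      simp only [ContinuousLinearMap.comp_apply]
      generalize Q (T.P x v) = z
      simp only [hPa, Surf.P_apply, sub_apply, ContinuousLinearMap.id_apply,
        ContinuousLinearMap.smulRight_apply, innerSL_apply_apply, inner_sub_right,
        real_inner_smul_right]
      rw [real_inner_comm v z, real_inner_comm v (T.n x), real_inner_comm z (T.ν x)]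
      ring
    have t2 := le_of (A := ⟪fderiv ℝ (gradient T.Φ) x (T.P x v), T.P x v⟫) (D := T'.W x)
      (B := ⟪fderiv ℝ (gradient T'.Φ) x (T.P x v), T.P x v⟫) W0 fun c hc => by
      have := jet2 h.smΦ h'.smΦ h0 h0' hs (v := T.P x v) (w := (c / 2) • T.ν x)
        (by rw [h.grad_eq, real_inner_smul_left, t0, mul_zero])
        (by rw [h'.grad_eq, real_inner_smul_left, en, t0, mul_zero])
        (by rw [h.grad_eq, real_inner_smul_left, real_inner_smul_right, h.nν]; linarith)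
      rw [h'.grad_eq, real_inner_smul_left, real_inner_smul_right, en, h.nν] at this
      linarith
    rw [t1, hQ, sub_apply, inner_sub_left, smul_apply,
      smul_apply, real_inner_smul_left, real_inner_smul_left, sub_nonneg,
      ← div_eq_inv_mul, ← div_eq_inv_mul, div_le_div_iff₀ W1 W0]
    exact t2
  rw [← e1, trc_sub] at e2
  rw [H_sh h, H_sh h', en, eν, eB, ea]
  linarith

end Vale.Agent.P366C
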