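import Vale.Agent.P366C.Ana2
import Vale.Agent.P366C.Touch
import Vale.Agent.P366W.Brg0

/-!
# P366C: the structure of the limit at the regular points
-/

open MeasureTheory Metric Filter Topology Set
open scoped ContDiff RealInnerProductSpace
open Vale.Agent.P366.Stmt
open Vale.Agent.P366D (snc ini Par)
open Vale.Agent.P366P (ini_snc snc_last snc_ini sm_ini cont_snc Cy)
open Vale.Agent.P366W (Fr adj cyl cap)
open Vale.Agent.P366R (gs gs_pt isOpen_cyl self_mem_cyl cyl_mono dec')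
open Fin (last)

noncomputable section

namespace Vale.Agent.P366C

variable {k : ℕ} {I : Type} {𝒰 : Ultrafilter I} {G : P366.Stmt.Field (k + 1)}
  {φ H H' : E (k + 1) → ℝ} {u u' W W' : I → E (k + 1) → ℝ} {T r r' s z : ℝ} {p e e' : E (k + 1)}
  {L L' : E k →ₗᵢ[ℝ] E (k + 1)} {w w' : E k → ℝ} {y : E k}

theorem Rc.w0 (h : Rc 𝒰 G φ H u T p e L r w W) : w 0 = 0 := by
  simpa using h.lip 0 (by simpa using h.r0)

theorem Rc.wr (h : Rc 𝒰 G φ H u T p e L r w W) (hy : ‖y‖ < r) : |w y| < r := by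
  linarith [h.lip y hy, norm_nonneg y]

theorem Rc.lim (h : Rc 𝒰 G φ H u T p e L r w W) {x : E (k + 1)} (hx : ‖ini x‖ < r)
    (hz : |x (last k)| < T) : Tendsto (fun q : I × E (k + 1) => W q.1 q.2)
      ((𝒰 : Filter I) ×ˢ 𝓝 x) (𝓝 (w (ini x))) :=
  ((continuous_eval_const (fun _ : Fin 0 => (0 : E (k + 1)))).tendsto _).comp
    (h.cv x hx hz 0 (by norm_num))

theorem Rc.lim' (h : Rc 𝒰 G φ H u T p e L r w W) (hy : ‖y‖ < r) (hz : |z| < T) :
    Tendsto (fun i => W i (snc y z)) 𝒰 (𝓝 (w y)) := by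
  have := (h.lim (x := snc y z) (by rwa [ini_snc]) (by rwa [snc_last])).comp
    (tendsto_id.prodMk tendsto_const_nhds)
  rwa [ini_snc] at this

theorem ok_gs (hG : P366Z.Met G) (hφ : Smooth φ) (hF : Fr e L) (hw : Smooth w) :
    (gs p e L w (B0 G) (a0 G φ)).Ok :=
  cap k e L _ _ _ hF (contDiff_const.add (hw.comp (contDiff_id.sub contDiff_const)))
    (P366W.sm_B0 hG) (ContDiff.mul (ContDiff.exp hφ) hG.sm_dens) (P366W.B0_sym hG)
    (fun x _ => P366W.B0_pos hG x) fun x => mul_pos (Real.exp_pos _) (hG.dens_pos x)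

/-- two ordered families of regraphings through the same point -/
theorem Rc.H_le (hT : TOUCH) (hG : P366Z.Met G) (hφ : Smooth φ) (T0 : 0 < T)
    (h : Rc 𝒰 G φ H u T p e L r w W) (h' : Rc 𝒰 G φ H' u' T p e' L' r' w' W')
    (hu : ∀ᶠ i in (𝒰 : Filter I), ∀ x, u' i x ≤ u i x) : H' p ≤ H p := by
  have z0 : |(0 : ℝ)| < T := by rwa [abs_zero]
  have a := h.mc 0 (by simpa using h.r0)
  have a' := h'.mc 0 (by simpa using h'.r0)
  have b := gs_pt (p := p) (B := B0 G) (a := a0 G φ) h.fr w 0 0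
  have b' := gs_pt (p := p) (B := B0 G) (a := a0 G φ) h'.fr w' 0 0
  simp only [h.w0, h'.w0, map_zero, zero_smul, add_zero, sub_zero] at a a' b b'
  rw [← a, ← a']
  refine hT _ _ _ p (ok_gs hG hφ h.fr h.smw) (ok_gs hG hφ h'.fr h'.smw) rfl rfl b b' ?_
  filter_upwards [(isOpen_cyl h.fr).mem_nhds (self_mem_cyl (p := p) h.r0),
    (isOpen_cyl h'.fr).mem_nhds (self_mem_cyl (p := p) h'.r0)]
  rintro _ ⟨y, s, h1, h2, rfl⟩ ⟨y', s', h1', h2', e1⟩ c
  rw [gs_pt h.fr, sub_neg] at c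
  rw [e1, gs_pt h'.fr, sub_nonpos]
  refine ge_of_tendsto (h'.lim' h1' z0) ?_
  filter_upwards [h.gr, h'.gr, hu, (h.lim' h1 z0).eventually (lt_mem_nhds c)] with i g1 g2 g3 g4
  exact ((g2 y' s' 0 h1' h2' z0).1.1 (e1 ▸ (g3 _).trans_lt ((g1 y s 0 h1 h2 z0).1.2 g4))).le

theorem itd_eq {V : Type} [NormedAddCommGroup V] [NormedSpace ℝ V] {A : V → V} {f : V → ℝ}
    {c x : V} (hA : ContDiff ℝ ∞ A) (hf : ContDiffAt ℝ ∞ f (x - c)) (v : V) (j : ℕ) :
    iteratedFDeriv ℝ j (fun y => A y + f (y - c) • v) x = iteratedFDeriv ℝ j A x +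
      ContinuousLinearMap.compContinuousMultilinearMapL ℝ _ _ _
        (ContinuousLinearMap.toSpanSingleton ℝ v) (iteratedFDeriv ℝ j f (x - c)) := by
  have hj : (j : WithTop ℕ∞) ≤ ∞ := by exact_mod_cast le_top
  have h1 : ContDiffAt ℝ ∞ (fun y => f (y - c)) x := hf.comp x (by fun_prop)
  rw [fun_iteratedFDeriv_add_apply (g := fun y => f (y - c) • v) (hA.of_le hj).contDiffAt
    ((h1.smul contDiffAt_const).of_le hj), ← iteratedFDeriv_comp_sub]
  exact congrArg _ ((ContinuousLinearMap.toSpanSingleton ℝ v).iteratedFDeriv_comp_left h1 hj)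

end Vale.Agent.P366C

namespace Vale.Agent.P366M.An

open P366C Gr

variable {k : ℕ} {X : Type} [Mf0 (k + 1) X] {I : Type} {𝒰 : Ultrafilter I}
  {G : P366.Stmt.Field (k + 1)} {φ H : E (k + 1) → ℝ} {u' W : I → E (k + 1) → ℝ} {S r : ℝ}
  {q v : E (k + 1)} {L : E k →ₗᵢ[ℝ] E (k + 1)} {w : E k → ℝ} {u : I → X → ℝ} {e : Ch (k + 1) X}
  {O : Set (E (k + 1))}

/-- the limit set is the graph -/
theorem la_iff (he : e ∈ At X) (S0 : 0 < S) (h : Rc 𝒰 G φ H u' S q v L r w W) (hO : IsOpen O)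
    (key : ∀ᶠ i in (𝒰 : Filter I), ∀ x ∈ O, |u i (e.symm x)| ≤ S ∨ |u' i x| ≤ S →
      u i (e.symm x) = u' i x) {y : E k} {s : ℝ} (hy : ‖y‖ < r) (hs : |s| < r)
    (hx : q + L y + s • v ∈ O) : e.symm (q + L y + s • v) ∈ La 𝒰 u ↔ s = w y := by
  have z0 : |(0 : ℝ)| < S := by rwa [abs_zero]
  refine ⟨fun a => by_contra fun b => ?_, fun a V hV r' r0 => ?_⟩
  · set x := q + L y + s • v with hxd
    have e1 : adj L (x - q) = y := by rw [hxd, add_assoc, add_sub_cancel_left, h.fr.adj_pt]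
    have e2 : ⟪v, x - q⟫ = s := by rw [hxd, add_assoc, add_sub_cancel_left, h.fr.e_pt]
    have c1 : Continuous fun a : E (k + 1) × ℝ => snc (adj L (a.1 - q)) a.2 :=
      cont_snc.comp (f := fun a : E (k + 1) × ℝ => (adj L (a.1 - q), a.2)) (by fun_prop)
    have c2 : Continuous fun a : E (k + 1) × ℝ => ⟪v, a.1 - q⟫ := by fun_prop
    have t := ((h.lim (x := snc y 0) (by rwa [ini_snc]) (by rwa [snc_last])).comp
      (tendsto_fst.prodMk ((c1.tendsto' (x, 0) _ (by simp only [e1])).comp tendsto_snd))).sub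
        ((c2.tendsto' (x, 0) _ e2).comp tendsto_snd)
    obtain ⟨pa, ha, pb, hb, H⟩ := eventually_prod_iff.1 (t.eventually_ne (b₂ := 0)
      (by rw [ini_snc]; exact sub_ne_zero.2 (Ne.symm b)))
    obtain ⟨V, hV, J, hJ, hb⟩ := mem_nhds_prod_iff.1 hb
    obtain ⟨δ, δ0, hδ⟩ := Metric.mem_nhds_iff.1 hJ
    obtain ⟨i, ⟨_, ⟨x', ⟨b1, b2, y', s', b3, b4, rfl⟩, rfl⟩, a1⟩, a2, a3, a4⟩ :=
      ((a _ ((openEmb_symm he).image_mem_nhds.2 (inter_mem hV (inter_mem (hO.mem_nhds hx)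
        ((isOpen_cyl h.fr).mem_nhds ⟨y, s, hy, hs, rfl⟩)))) _ (lt_min δ0 S0)).and
          (key.and (h.gr.and ha))).exists
    have a5 := a1.trans_le (min_le_right _ _)
    refine H a4 (hb (mk_mem_prod b1 (hδ (by
      simpa using a1.trans_le (min_le_left _ _) : u i _ ∈ ball 0 δ)))) ?_
    have a6 := (a3 y' s' _ b3 b4 a5).2.1 (a2 _ b2 (.inl a5.le)).symm
    generalize u i _ = z at a6 ⊢
    simp only [Function.comp, add_assoc, add_sub_cancel_left, h.fr.adj_pt, h.fr.e_pt]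
    exact sub_eq_zero.2 a6.symm
  · subst a
    have l := h.lim' hy z0
    have t := (l.smul_const v).const_add (q + L y)
    filter_upwards [key, h.gr, t.eventually (hO.mem_nhds hx), l.abs.eventually (gt_mem_nhds hs),
      (((cont_symm he).tendsto _).comp t).eventually hV] with i a1 a2 a3 a4 a5
    have a6 := (a2 y _ 0 hy a4 z0).2.2 rfl
    refine ⟨_, a5, ?_⟩
    rwa [Function.comp, a1 _ a3 (.inr (by rw [a6]; exact z0.le)), a6, abs_zero]

/-- the parametrisations of the limit and of the slabs -/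
theorem str_loc (he : e ∈ At X) (S0 : 0 < S) (h : Rc 𝒰 G φ H u' (S + 1) q v L r w W)
    (hO : IsOpen O) (hq : q ∈ O) (key : ∀ᶠ i in (𝒰 : Filter I), ∀ x ∈ O,
      |u i (e.symm x)| ≤ S + 1 ∨ |u' i x| ≤ S + 1 → u i (e.symm x) = u' i x) {D : Set X}
    (hD : IsClosed D) (hq' : e.symm q ∉ D) : ∃ ψ π y₀ r Ψ V, Par (La 𝒰 u \ D) e ψ π y₀ ∧
      e.symm (ψ y₀) = e.symm q ∧ RgX (𝒰 : Filter I) u S e ψ π y₀ r Ψ V := by
  set y₀ := adj L q with hy₀
  set c := snc y₀ 0 with hc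
  have i1 : ∀ x, ini (x - c) = ini x - y₀ := fun x => by
    rw [← ini_snc y₀ 0]; rfl
  have i2 : ∀ x, (x - c) (last k) = x (last k) := fun x => by
    rw [PiLp.sub_apply, hc, snc_last, sub_zero]
  have i3 : ∀ x, x - c = snc (ini x - y₀) (x (last k)) := fun x => by
    rw [← i1, ← i2, snc_ini]
  have pr : ∀ y (s : ℝ), adj L (q + L (y - y₀) + s • v) = y := fun y s => by
    rw [add_assoc, map_add, h.fr.adj_pt, ← hy₀, add_sub_cancel]
  have sL : ContDiff ℝ ∞ fun y => q + L (y - y₀) :=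
    contDiff_const.add (L.toContinuousLinearMap.contDiff.comp (contDiff_id.sub contDiff_const))
  have sψ : ContDiff ℝ ∞ fun y => q + L (y - y₀) + w (y - y₀) • v :=
    sL.add ((h.smw.comp (contDiff_id.sub contDiff_const)).smul contDiff_const)
  have e0 : q + L (y₀ - y₀) + w (y₀ - y₀) • v = q := by simp [h.w0]
  obtain ⟨r', r0, hr⟩ := nhds_basis_closedBall.eventually_iff.1
    (((sψ.continuous.tendsto' y₀ q e0).eventually (hO.mem_nhds hq)).and (ball_mem_nhds y₀ h.r0))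
  have near : ∀ x ∈ Cy (closedBall y₀ r') S, ‖ini (x - c)‖ < r ∧ |(x - c) (last k)| < S + 1 :=
    fun x hx => ⟨by rw [i1]; exact mem_ball_iff_norm.1 (hr hx.1).2,
      by rw [i2]; exact hx.2.trans_lt (lt_add_one S)⟩
  have tr : ∀ x, Tendsto (fun a : I × E (k + 1) => (a.1, a.2 - c)) ((𝒰 : Filter I) ×ˢ 𝓝 x)
      ((𝒰 : Filter I) ×ˢ 𝓝 (x - c)) := fun x =>
    tendsto_fst.prodMk (tendsto_snd.sub_const c)
  have evn : ∀ x ∈ Cy (closedBall y₀ r') S, ∀ᶠ a in (𝒰 : Filter I) ×ˢ 𝓝 x,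
      ‖ini (a.2 - c)‖ < r ∧ |(a.2 - c) (last k)| < S + 1 := fun x hx => by
    have c1 : Continuous fun y => ‖ini (y - c)‖ := (sm_ini.continuous.comp (by fun_prop)).norm
    have c2 : Continuous fun y : E (k + 1) => |(y - c) (last k)| := by fun_prop
    exact tendsto_snd.eventually ((c1.continuousAt.eventually (gt_mem_nhds (near x hx).1)).and
      (c2.continuousAt.eventually (gt_mem_nhds (near x hx).2)))
  refine ⟨fun y => q + L (y - y₀) + w (y - y₀) • v, adj L, y₀, r',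
    fun i x => q + L (ini x - y₀) + W i (x - c) • v, e.symm '' (O ∩ cyl q v L (min r r')),
    ⟨he, sψ, fun y => pr y _, ?_⟩, congrArg _ e0, he, r0, sψ, (adj L).contDiff, fun y => pr y _,
    fun i x => pr _ _, ?_, fun x hx => ?_, fun x hx j hj => ?_, ?_⟩
  · rw [e0]
    filter_upwards [hO.mem_nhds hq, (isOpen_cyl h.fr).mem_nhds (self_mem_cyl (p := q) h.r0),
      ((cont_symm he).tendsto q).eventually (hD.isOpen_compl.mem_nhds hq')]
    rintro _ a ⟨y, s, h1, h2, rfl⟩ b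
    have e1 : adj L (q + L y + s • v) - y₀ = y := by
      rw [add_assoc, map_add, h.fr.adj_pt, ← hy₀, add_sub_cancel_left]
    rw [Set.mem_sdiff, and_iff_left b, la_iff he (by linarith) h hO key h1 h2 a, e1, add_right_inj]
    exact ⟨fun k => by rw [k], fun k => smul_left_injective ℝ
      (norm_ne_zero_iff.1 (by rw [h.fr.one]; exact one_ne_zero)) k⟩
  · rw [e0]
    exact (openEmb_symm he).image_mem_nhds.2 (inter_mem (hO.mem_nhds hq)
      ((isOpen_cyl h.fr).mem_nhds (self_mem_cyl (lt_min h.r0 r0))))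
  · have l := (h.lim (near x hx).1 (near x hx).2).comp (tr x)
    have t := (((sL.comp sm_ini).continuous.tendsto x).comp tendsto_snd).add (l.smul_const v)
    filter_upwards [tendsto_fst.eventually key, tendsto_fst.eventually h.gr,
      tendsto_fst.eventually h.sm, evn x hx,
      t.eventually (hO.mem_nhds (by rw [i1]; exact (hr hx.1).1)),
      l.abs.eventually (gt_mem_nhds (h.wr (near x hx).1))] with a a1 a2 a3 a4 a5 a6
    refine ⟨(sL.comp sm_ini).contDiffAt.add (((a3 _ a4.1 a4.2).comp a.2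
      (contDiffAt_id.sub contDiffAt_const)).smul contDiffAt_const), ?_⟩
    rw [i1, i2] at a4
    have a7 := (a2 _ _ _ a4.1 a6 a4.2).2.2 (congrArg _ (i3 _))
    exact (a1 _ a5 (.inr (le_of_eq_of_le (congrArg _ a7) a4.2.le))).trans a7
  · have e1 : (fun z => q + L (ini z - y₀) + w (ini z - y₀) • v) =
        fun z => q + L (ini z - y₀) + (fun y => w (ini y)) (z - c) • v := by simp only [i1]
    rw [e1, itd_eq (A := fun z => q + L (ini z - y₀)) (f := fun y => w (ini y)) (sL.comp sm_ini)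
      (h.smw.comp sm_ini).contDiffAt]
    refine (((((sL.comp sm_ini).continuous_iteratedFDeriv (m := j)
      (by exact_mod_cast le_top)).tendsto x).comp tendsto_snd).add
      (((ContinuousLinearMap.continuous _).tendsto _).comp
        ((h.cv _ (near x hx).1 (near x hx).2 j hj).comp (tr x)))).congr' ?_
    filter_upwards [tendsto_fst.eventually h.sm, evn x hx] with a a1 a2
    exact (itd_eq (sL.comp sm_ini) (a1 _ a2.1 a2.2) v j).symm
  · filter_upwards [key, h.gr] with i a1 a2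
    rintro _ ⟨_, ⟨b1, y, s, b2, b3, rfl⟩, rfl⟩ b4
    have b5 := b4.trans_lt (lt_add_one S)
    have b6 := (a2 y s _ (b2.trans_le (min_le_left _ _)) (b3.trans_le (min_le_left _ _)) b5).2.1
      (a1 _ b1 (.inl b5.le)).symm
    refine ⟨_, ⟨snc (y + y₀) (u i (e.symm (q + L y + s • v))), ⟨?_, by rwa [snc_last]⟩, rfl⟩, ?_⟩
    · rw [ini_snc, mem_closedBall_iff_norm, add_sub_cancel_right]
      exact (b2.trans_le (min_le_right _ _)).le
    · simp only [i3, ini_snc, snc_last, add_sub_cancel_right, ← b6]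

variable {n : ℕ} {Y : Type} [Mf0 n Y] {F : Fd Y I} {g : Fld n Y} {f θ : Y → ℝ} {v₀ : ℝ}
  {U : Set Y}

/-- a branch is a family of capillary graphs in a chart -/
theorem cf_of (hF : F.Ok g f v₀) {e : Ch n Y} (he : e ∈ At Y) (hθ : Lft F.Θ θ U) {q : E n}
    (hq : e.symm q ∈ U) (κ : ℝ) : ∃ H O Λ, Cf F.𝒰 (rep e g) (fun y => loc e f y + κ) H
      (fun i => loc e (F.br θ i)) F.c F.ε O (F.S + 2) Λ ∧ q ∈ O ∧
        ∀ y ∈ O, e.symm y ∈ U ∧ H y = F.H (e.symm y) (θ (e.symm y)) := by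
  obtain ⟨δ, δ0, hδ⟩ := nhds_basis_closedBall.eventually_iff.1
    (((cont_symm he).tendsto q).eventually (hθ.opn.mem_nhds hq))
  have hb : ∀ y ∈ ball q δ, e.symm y ∈ U := fun y hy => hδ (ball_subset_closedBall hy)
  obtain ⟨H, sH, hH⟩ := exists_smooth (u := fun y => F.H y (θ y))
    ((isCompact_closedBall q δ).image (cont_symm he)) (by
      rintro _ ⟨y, hy, rfl⟩
      exact eventually_of_mem (hθ.opn.mem_nhds (hδ hy)) (hF.smH θ U hθ))
  have eH : ∀ y ∈ ball q δ, loc e H y = F.H (e.symm y) (θ (e.symm y)) := fun y hy =>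
    (hH _ ⟨y, ball_subset_closedBall hy, rfl⟩).self_of_nhds
  have sf : Smooth fun x => f x + κ := CD.add hF.smf cd_const
  have e1 : ∀ i y, P366P.hw (rep e g) (fun y => loc e f y + κ) (loc e (F.br θ i)) y =
      hw g f (F.br θ i) (e.symm y) := fun i y => by
    rw [← hw_add_w g f _ κ]
    exact (congrFun (loc_hw hF.met he sf (hF.sm_br hθ.sm i)) y).symm
  obtain ⟨Λ, hΛ⟩ := hF.hb
  obtain ⟨c, c0, hc⟩ := (isCompact_closedBall q δ).exists_forall_le'
    (hF.met.rep he).sm_dens.cont.continuousOn fun y _ => (hF.met.rep he).dens_pos y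
  refine ⟨loc e H, ball q δ, Λ, ⟨hF.met.rep he, sf e he, sH e he, isOpen_ball,
    fun i => hF.sm_br hθ.sm i e he, hF.c0, hF.ε0, hF.εp,
    hΛ.mono fun i hi y hy => e1 i y ▸ hi θ U hθ _ (hb y hy),
    hF.eq.mono fun i hi y hy k => by rw [e1, eH y hy]; exact hi θ U hθ _ (hb y hy) k, ?_⟩,
    mem_ball_self δ0, fun y hy => ⟨hb y hy, eH y hy⟩⟩
  have c1 : ENNReal.ofReal c ≠ 0 := by simpa using c0
  have t := ENNReal.Tendsto.const_mul (a := (ENNReal.ofReal c)⁻¹) hF.vol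
    (.inr (ENNReal.inv_ne_top.2 c1))
  rw [mul_zero] at t
  refine tendsto_of_tendsto_of_tendsto_of_le_of_le' tendsto_const_nhds t
    (.of_forall fun _ => zero_le) ?_
  filter_upwards [hF.lam.eventually (eventually_gt_atTop 0)] with i hi
  have m : MeasurableSet {x | x ∈ ball q δ ∧ |loc e (F.br θ i) x| < F.S + 2} :=
    (isOpen_ball.inter (isOpen_lt (hF.sm_br hθ.sm i e he).continuous.abs
      continuous_const)).measurableSet
  rw [← ENNReal.div_eq_inv_mul, ENNReal.le_div_iff_mul_le (.inl c1) (.inl ENNReal.ofReal_ne_top),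
    mul_comm, ← setLIntegral_const]
  refine (setLIntegral_mono' m fun y hy => ENNReal.ofReal_le_ofReal
    (hc y (ball_subset_closedBall hy.1))).trans ?_
  rw [← vol_image hF.met he m]
  refine measure_mono ?_
  rintro _ ⟨y, hy, rfl⟩
  exact (Fd.abs_u_le hθ (hb y hy.1) hi).trans_lt hy.2

/-- only finitely many branches matter -/
theorem fin_br [CompactSpace Y] (hF : F.Ok g f v₀) (hθ : Lft F.Θ θ U) : ∃ N : ℤ,
    ∀ᶠ i in (F.𝒰 : Filter I), ∀ x ∈ U, ∃ m ∈ Icc (-N) N,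
      F.u i x = F.br (fun y => θ y + m) i x := by
  obtain ⟨C, hC⟩ := hF.bd
  obtain ⟨C', hC'⟩ := isCompact_univ.exists_bound_of_continuousOn hθ.sm.cont.continuousOn
  refine ⟨⌈C + C' + 1⌉, ?_⟩
  filter_upwards [hC, hF.lam.eventually (eventually_gt_atTop 0)] with i h1 h2 x hx
  obtain ⟨m, hm⟩ := Fd.u_br (i := i) hθ hx h2.ne'
  refine ⟨m, abs_le.1 ?_, hm⟩
  have h3 : |F.u i x| ≤ F.lam i / 2 := abs_ub_half h2 _
  have h4 : F.lam i * |θ x + m| ≤ F.lam i * (C + 1 / 2) := by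
    have := abs_sub (F.v i x) (F.u i x)
    rw [show F.v i x - F.u i x = F.lam i * (θ x + m) by rw [hm, Fd.br, sub_sub_cancel], abs_mul,
      abs_of_pos h2] at this
    linarith [h1 x]
  have h5 := abs_sub (θ x + m) (θ x)
  rw [add_sub_cancel_left, ← Int.cast_abs] at h5
  have h6 : ((|m| : ℤ) : ℝ) ≤ ⌈C + C' + 1⌉ := by
    linarith [le_of_mul_le_mul_left h4 h2, Int.le_ceil (C + C' + 1), Real.norm_eq_abs (θ x),
      hC' x trivial]
  exact_mod_cast h6

/-- **STR** -/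
theorem str_of (h₁ : RGC) (h₂ : TOUCH) : STR := by
  intro k
  obtain ⟨ε₀, ε0, ε1, h₁⟩ := h₁ k
  refine ⟨ε₀, ε0, ε1, fun X _ _ I F g f v₀ hF p hp => ?_⟩
  obtain ⟨e, he, pe, κ, nm, gd⟩ : F.Good g f ε₀ p := by_contra fun k => hp.2 (subset_closure k)
  obtain ⟨θ, U, hθ, pU⟩ := hF.cir p
  have ep : e.symm (e p) = p := e.left_inv pe
  have S0 := hF.S0
  choose H O Λ cf qO hO using fun m : ℤ => cf_of hF he (hθ.add m) (q := e p) (by rwa [ep]) κ
  have alt := fun m : ℤ => h₁ I F.𝒰 _ _ _ _ _ _ _ _ _ (F.S + 1) (e p) (cf m) (qO m) nm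
    (by linarith) (by linarith) (gd _ U (hθ.add m) pU)
  obtain ⟨N, hN⟩ := fin_br hF hθ
  have away : ∀ s : Set ℤ, s.Finite → (∀ m ∈ s, ∃ V ∈ 𝓝 (e p), ∀ᶠ i in (F.𝒰 : Filter I), ∀ x ∈ V,
      F.S + 1 < |loc e (F.br (fun y => θ y + m) i) x|) → ∃ V ∈ 𝓝 (e p), ∀ᶠ i in (F.𝒰 : Filter I),
      ∀ m ∈ s, ∀ x ∈ V, F.S + 1 < |F.br (fun y => θ y + m) i (e.symm x)| := fun s hs h => by
    choose! V h1 h2 using h
    exact ⟨_, (biInter_mem hs).2 h1, ((eventually_all_finite hs).2 h2).mono fun i hi m hm x hx =>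
      hi m hm x (mem_iInter₂.1 hx m hm)⟩
  obtain ⟨m, v, L, r, w, W, rc⟩ : ∃ m : ℤ, ∃ v L r w W, Rc F.𝒰 (rep e g) (fun y => loc e f y + κ)
      (H m) (fun i => loc e (F.br (fun y => θ y + m) i)) (F.S + 1) (e p) v L r w W := by
    by_contra! c
    obtain ⟨V, hV, h⟩ := away _ (finite_Icc (-N) N) fun m _ =>
      (alt m).resolve_right fun ⟨v, L, r, w, W, k⟩ => c m v L r w W k
    obtain ⟨i, ⟨_, ⟨x, ⟨a1, a2⟩, rfl⟩, a3⟩, a4, a5⟩ := ((hp.1 _ (ep ▸
      (openEmb_symm he).image_mem_nhds.2 (inter_mem hV ((cf 0).opn.mem_nhds (qO 0)))) _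
        (show 0 < F.S + 1 by linarith)).and (h.and hN)).exists
    obtain ⟨m, b1, b2⟩ := a5 _ (hO 0 x a2).1
    exact lt_asymm a3 (b2 ▸ a4 m b1 x a1)
  have mono : ∀ a b : ℤ, a < b → ∀ {v L r w W v' L' r' w' W'},
      Rc F.𝒰 (rep e g) (fun y => loc e f y + κ) (H a)
        (fun i => loc e (F.br (fun y => θ y + a) i)) (F.S + 1) (e p) v L r w W →
      ¬Rc F.𝒰 (rep e g) (fun y => loc e f y + κ) (H b)
        (fun i => loc e (F.br (fun y => θ y + b) i)) (F.S + 1) (e p) v' L' r' w' W' := by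
    intro a b ab _ _ _ _ _ _ _ _ _ _ ra rb
    have ab' : (a : ℝ) < b := by exact_mod_cast ab
    have := Rc.H_le h₂ (cf a).met (cf a).smφ (by linarith) ra rb
      ((hF.lam.eventually (eventually_ge_atTop 0)).mono fun i hi x => by
        simp only [loc, Fd.br_add]
        linarith [mul_le_mul_of_nonneg_left ab'.le hi])
    rw [(hO a _ (qO a)).2, (hO b _ (qO b)).2] at this
    exact absurd this (not_le.2 (hF.mono _ (by linarith)))
  obtain ⟨V, hV, h⟩ := away _ ((finite_Icc (-N) N).sdiff (t := {m})) fun m' hm' =>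
    (alt m').resolve_right fun ⟨_, _, _, _, _, k⟩ =>
      (lt_or_gt_of_ne hm'.2).elim (fun c => mono _ _ c k rc) fun c => mono _ _ c rc k
  obtain ⟨ψ, π, y₀, r', Ψ, V', a, b, c⟩ := str_loc (u := F.u) he S0 rc
    (isOpen_interior.inter (cf m).opn) ⟨mem_interior_iff_mem_nhds.2 hV, qO m⟩ (by
      filter_upwards [h, hN, hF.lam.eventually (eventually_gt_atTop (2 * (F.S + 1)))]
        with i a1 a2 a3 x hx c
      have xU := (hO m x hx.2).1
      rcases c with c | c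
      · obtain ⟨m', b1, b2⟩ := a2 _ xU
        rcases eq_or_ne m' m with rfl | b3
        · exact b2
        · exact absurd c (not_le.2 (b2 ▸ a1 m' ⟨b1, b3⟩ x (interior_subset hx.1)))
      · exact Fd.u_of (hθ.add m) xU (c.trans_lt (by linarith)))
    (isClosed_closure (s := {x | ¬F.Good g f ε₀ x})) (ep.symm ▸ hp.2)
  exact ⟨e, ψ, π, y₀, r', Ψ, V', a, b.trans ep, c⟩

end Vale.Agent.P366M.An
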