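import Vale.Agent.P366C.Grd
import Vale.Agent.P366M.Calc2

/-!
# P366C: the height estimate for capillary graphs
-/

open MeasureTheory Metric Filter Topology Set
open scoped ContDiff
open Vale.Agent.P366 hiding E
open Vale.Agent.P366.Stmt Vale.Agent.P366Z
open Vale.Agent.P366M.Gr Vale.Agent.P366M.Y.C

noncomputable section

namespace Vale.Agent.P366M.An

variable {n : ℕ} {X : Type} [Mf0 n X] {Θ θ : X → ℝ} {U : Set X} {x : X}
  {g : Fld n X} {f u z : X → ℝ} {l : ℝ}

theorem tr_gm (hg : Met g) (u : X → ℝ) (T : Fld n X) (x : X) :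
    tr (gb g 1 u) T x = tr g T x - b2 g T u u x / ww g 1 u x ^ 2 := by
  simp only [tr, GbH.up_gb hg, b2, Finset.sum_div, ← Finset.sum_sub_distrib, Pi.one_apply]
  exact Finset.sum_congr rfl fun _ _ => Finset.sum_congr rfl fun _ _ => by ring

theorem dv_nvm (hg : Met g) (hu : Smooth u) (x : X) :
    dv g (nv g u) x = tr (gb g 1 u) (hess g u) x / ww g 1 u x := by
  have he := ch_mem x
  have h1 := P366P.dv_nv (hg.loc' x) (hu _ he) (pt x)
  rw [← repV_nv he g hu, ← rep_hess hg he hu.two, b2_pt, ww_pt' ] at h1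
  rw [tr_gm hg, ← hg.lap_eq_tr (hu.c2 x)]
  exact h1
where ww_pt' : P366Y.C.ww (rep (ch x) g) 1 (loc (ch x) u) (pt x) = ww g 1 u x := ww_pt g 1 u x

/-- the mean curvature of the branch at a critical point of `z` -/
theorem hw_br (hg : Met g) (hz : Smooth z) (hθ : Smooth θ) (h0 : ∀ i, pd i z x = 0) :
    |hw g f (fun y => z y - l * θ y) x -
      lap (gb g 1 fun y => z y - l * θ y) z x / ww g 1 (fun y => z y - l * θ y) x| ≤
      |l| * (|lap g θ x| + √(normSq g (hess g θ) x)) + gn g f x := by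
  have sl : Smooth fun y => l * θ y := CD.mul cd_const hθ
  have su : Smooth fun y => z y - l * θ y := CD.sub hz sl
  have h3 : ∀ G : Fld n X, tr G (hess g fun y => z y - l * θ y) x =
      tr G (hess g z) x - l * tr G (hess g θ) x := fun G => by
    simp only [tr, hess_sub (hz.c2 x) (sl.c2 x), hess_const_mul, Finset.mul_sum,
      ← Finset.sum_sub_distrib]
    exact Finset.sum_congr rfl fun _ _ => Finset.sum_congr rfl fun _ _ => by ring
  have h1 := lap_g hg su (hz.c2 x)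
  have h2 := dv_nvm hg su x
  rw [h3] at h2
  generalize (fun y => z y - l * θ y) = u at *
  rw [dn_eq hg] at h1
  simp only [h0, zero_mul, Finset.sum_const_zero, mul_zero, neg_zero, sub_eq_zero] at h1
  have h4 := b2_le hg (hg.hess_sy (hθ.c2 x)) u
  have h5 := GbH.one_le_ww hg 1 u x
  rw [hw, h2, h1, sub_div, tr_gm hg u (hess g θ), ← hg.lap_eq_tr (hθ.c2 x), sub_add_eq_add_sub,
    sub_right_comm, add_sub_cancel_left, add_comm]
  refine (abs_sub _ _).trans (add_le_add (abs_dn_le hg u f x) ?_)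
  rw [abs_div, abs_mul]
  refine (div_le_self (by positivity) (h5.trans (le_abs_self _))).trans ?_
  exact mul_le_mul_of_nonneg_left ((abs_sub _ _).trans (add_le_add le_rfl h4)) (abs_nonneg l)

/-- the second derivatives of the lifts are bounded -/
theorem Cir.hess_le [CompactSpace X] (h : Cir Θ) (hg : Met g) : ∃ C, 0 ≤ C ∧ ∀ θ U,
    Lft Θ θ U → ∀ x ∈ U, |lap g θ x| + √(normSq g (hess g θ) x) ≤ C := by
  obtain ⟨θ, U, h⟩ := exists_lift h
  have e : ∀ θ' U', Lft Θ θ' U' → ∀ x ∈ U', |lap g (θ x) x| + √(normSq g (hess g (θ x)) x) =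
      |lap g θ' x| + √(normSq g (hess g θ') x) := fun θ' U' k x hx => by
    obtain ⟨m, hm⟩ := k.ev (h x).1 hx (h x).2
    simp only [normSq, lap_congr hm, hess_congr hm, lap_add_const, hess_add_const]
  have c : Continuous fun x => |lap g (θ x) x| + √(normSq g (hess g (θ x)) x) :=
    continuous_iff_continuousAt.2 fun x => ((hg.sm_lap (h x).1.sm).cont.abs.add
      (hg.sm_normSq (hg.sm_hess (h x).1.sm)).cont.sqrt).continuousAt.congr
      (((h x).1.opn.eventually_mem (h x).2).mono fun y hy => (e _ _ (h x).1 y hy).symm)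
  obtain ⟨C, hC⟩ := isCompact_univ.bddAbove_image c.continuousOn
  exact ⟨max C 0, le_max_right _ _, fun θ' U' k x hx =>
    e θ' U' k x hx ▸ (hC ⟨x, trivial, rfl⟩).trans (le_max_left _ _)⟩

/-- **the height estimate** -/
theorem sup_est (n : ℕ) (X : Type) [Mf0 n X] [CompactSpace X] (g : Fld n X) (f Θ : X → ℝ) :
    ∃ C, 0 ≤ C ∧ ∀ (a b : X → ℝ) (s : ℝ → ℝ) (ε l B : ℝ) (z : X → ℝ), Cq g f Θ a b s ε →
    Smooth z → (∀ x, |a x| ≤ B) → (∀ x, |b x| ≤ B) →
    (Cap g f Θ l z fun x => ε * z x + a x * s (z x) + b x) → ∀ x,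
      |z x| ≤ (C * (1 + |l|) + 2 * B) / ε := by
  by_cases H : Met g ∧ Smooth f ∧ Cir Θ
  swap
  · exact ⟨0, le_rfl, fun a b s ε l B z h => (H ⟨h.met, h.smf, h.cir⟩).elim⟩
  obtain ⟨hg, hf, hΘ⟩ := H
  obtain ⟨C₁, C1, h1⟩ := hΘ.hess_le hg
  obtain ⟨C₂, h2⟩ := isCompact_univ.exists_bound_of_continuousOn
    (hg.cont_gn (CD.of_le hf one_le_oo)).continuousOn
  refine ⟨C₁ + |C₂|, by positivity, fun a b s ε l B z h hz ha hb hc x => ?_⟩
  have key : ∀ p, (∀ i, pd i z p = 0) → ∃ u, Smooth u ∧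
      |ε * z p - lap (gb g 1 u) z p / ww g 1 u p| ≤ (C₁ + |C₂|) * (1 + |l|) + 2 * B := fun p h0 => by
    obtain ⟨θ, U, k, hp⟩ := hΘ p
    have j := abs_le.1 (hw_br (f := f) (l := l) hg hz k.sm h0)
    have j1 := mul_le_mul_of_nonneg_left (h1 θ U k p hp) (abs_nonneg l)
    have j2 := ((le_abs_self _).trans (h2 p trivial)).trans (le_abs_self C₂)
    have j3 : |a p * s (z p)| ≤ B := by
      rw [abs_mul]
      exact (mul_le_of_le_one_right (abs_nonneg _) (h.s1 _)).trans (ha p)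
    have j4 := abs_le.1 (hb p)
    have j5 := mul_nonneg (abs_nonneg C₂) (abs_nonneg l)
    rw [hc θ U k p hp] at j
    rw [abs_le] at j3
    refine ⟨fun y => z y - l * θ y, CD.sub hz (CD.mul cd_const k.sm), ?_⟩
    beta_reduce at j
    generalize lap _ z p / _ = t at j ⊢
    exact abs_le.2 ⟨by linarith, by linarith⟩
  obtain ⟨p, -, hp⟩ := isCompact_univ.exists_isMaxOn univ_nonempty hz.cont.continuousOn
  obtain ⟨q, -, hq⟩ := isCompact_univ.exists_isMinOn univ_nonempty hz.cont.continuousOn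
  obtain ⟨u, su, k1⟩ := key p (pd_of_isLocalMax (hp.isLocalMax univ_mem))
  obtain ⟨v, sv, k2⟩ := key q (pd_of_isLocalMin (hq.isLocalMin univ_mem))
  have k3 := div_nonpos_of_nonpos_of_nonneg
    ((met_g hg su).lap_nonpos (hz.c2 p) (hp.isLocalMax univ_mem)) (w_pos hg u p).le
  have k4 := div_nonneg ((met_g hg sv).lap_nonneg (hz.c2 q) (hq.isLocalMin univ_mem))
    (w_pos hg v q).le
  have k5 := mul_le_mul_of_nonneg_left (hp (mem_univ x) : z x ≤ z p) h.ε0.le
  have k6 := mul_le_mul_of_nonneg_left (hq (mem_univ x) : z q ≤ z x) h.ε0.le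
  have e : |z x| * ε = |ε * z x| := by rw [abs_mul, abs_of_pos h.ε0, mul_comm]
  rw [abs_le] at k1 k2
  rw [le_div_iff₀ h.ε0, e]
  generalize lap _ z p / _ = t at k1 k3
  generalize lap _ z q / _ = t' at k2 k4
  exact abs_le.2 ⟨by linarith [k2.1], by linarith [k1.2]⟩

theorem sup_bd [CompactSpace X] (g : Fld n X) (f Θ : X → ℝ) (L B ε : ℝ) :
    ∃ C, ∀ (a b : X → ℝ) (s : ℝ → ℝ) (l : ℝ) (z : X → ℝ), Cq g f Θ a b s ε → Smooth z → |l| ≤ L →
    (∀ x, |a x| ≤ B) → (∀ x, |b x| ≤ B) →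
    (Cap g f Θ l z fun x => ε * z x + a x * s (z x) + b x) → ∀ x, |z x| ≤ C := by
  obtain ⟨C, C0, hC⟩ := sup_est n X g f Θ
  refine ⟨(C * (1 + L) + 2 * B) / ε, fun a b s l z h hz hl ha hb hc x =>
    (hC a b s ε l B z h hz ha hb hc x).trans ?_⟩
  have := h.ε0
  gcongr

end Vale.Agent.P366M.An
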