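import Vale.Agent.P366C.Ana2
import Vale.Agent.P366M.Apx
import Vale.Agent.P366D.Lat
import Vale.Agent.P366D.Map

/-!
# P366C: the circle-valued function of a periodic chart (row TH)
-/

open MeasureTheory Metric Filter Topology Set
open scoped ContDiff ENNReal
open Vale.Agent.P366 hiding E
open Vale.Agent.P366.Stmt Vale.Agent.P366Z
open Vale.Agent.P366D
open Fin (last)

noncomputable section

namespace Vale.Agent.P366M.An

theorem Lft.gn_eq {n : ℕ} {X : Type} [Mf0 n X] {Θ θ θ' : X → ℝ} {U U' : Set X} {x : X}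
    (h : Lft Θ θ U) (h' : Lft Θ θ' U') (hx : x ∈ U) (hx' : x ∈ U') (g : Fld n X) :
    gn g θ x = gn g θ' x := by
  obtain ⟨m, hm⟩ := h'.ev h hx' hx
  rw [gn_congr hm]
  exact gn_of_pd_eq fun i => pd_add_const _ i

namespace ThH

/-- the part of the unit cell where the profile is not an integer -/
def Q (k : ℕ) : Set (E (k + 1)) :=
  {y | (∀ i, y i ∈ Icc (0 : ℝ) 1) ∧ y (last k) ∈ Icc (1 / 4 : ℝ) (3 / 4)}

variable {k : ℕ} {η : ℝ} {ϑ : ℝ → ℝ}

theorem cpt_Q : IsCompact (Q k) := by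
  have c : ∀ i, Continuous fun y : E (k + 1) => y i := fun i => by fun_prop
  have c1 : IsClosed {y : E (k + 1) | ∀ i, y i ∈ Icc (0 : ℝ) 1} := by
    rw [ofPred_forall]
    exact isClosed_iInter fun i => isClosed_Icc.preimage (c i)
  refine (isCompact_closedBall 0 (k + 1 : ℕ)).of_isClosed_subset
    (c1.inter (isClosed_Icc.preimage (c _))) fun y hy => ?_
  rw [mem_closedBall_zero_iff]
  refine abs_le_of_sq_le_sq' ?_ (by positivity) |>.2
  rw [EuclideanSpace.real_norm_sq_eq]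
  refine (Finset.sum_le_card_nsmul _ _ 1 fun i _ => pow_le_one₀ (hy.1 i).1 (hy.1 i).2).trans ?_
  simp only [Finset.card_fin, nsmul_eq_mul, mul_one]
  have : (1 : ℝ) ≤ (k + 1 : ℕ) := by exact_mod_cast Nat.succ_pos k
  nlinarith

theorem Q_sub (h : η < 1 / 4) : Q k ⊆ Uo (k + 1) η := fun y hy z => by
  refine h.trans_le (le_trans ?_ (PiLp.norm_apply_le (y - lat z) (last k)))
  rw [PiLp.sub_apply, lat_apply, Real.norm_eq_abs, le_abs]
  rcases le_or_gt (z (last k)) 0 with k | k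
  · have : (z (last _) : ℝ) ≤ 0 := by exact_mod_cast k
    exact .inl (by linarith [hy.2.1])
  · have : (1 : ℝ) ≤ z (last _) := by exact_mod_cast k
    exact .inr (by linarith [hy.2.2])

theorem red (h : Vt ϑ) (y : E (k + 1)) :
    (∃ y₀ ∈ Q k, ∃ z, y = y₀ + lat z) ∨ ∃ m : ℤ, ϑ (y (last k)) = m := by
  have e := Int.fract_add_floor (y (last k))
  rcases lt_or_ge (Int.fract (y (last k))) (1 / 4) with k1 | k1
  · refine .inr ⟨⌊y (last k)⌋, ?_⟩
    rw [← e, h.add, h.zero _ (by rw [abs_of_nonneg (Int.fract_nonneg _)]; exact k1.le), e, zero_add]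
  rcases lt_or_ge (3 / 4) (Int.fract (y (last k))) with k2 | k2
  · refine .inr ⟨⌊y (last k)⌋ + 1, ?_⟩
    have := h.add (Int.fract (y (last k)) - 1) (⌊y (last k)⌋ + 1)
    rw [h.zero (_ - 1) (abs_le.2 ⟨by linarith, by linarith [Int.fract_lt_one (y (last k))]⟩),
      zero_add] at this
    rw [← this]
    congr 1
    push_cast
    linarith
  refine .inl ⟨WithLp.toLp 2 fun i => Int.fract (y i), ⟨fun i =>
    ⟨Int.fract_nonneg _, (Int.fract_lt_one _).le⟩, k1, k2⟩, fun i => ⌊y i⌋, ?_⟩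
  ext i
  simp

theorem mat_bd (n : ℕ) (l : Fin n) {ζ : ℝ} (hζ : 0 < ζ) : ∃ η₁ > (0 : ℝ),
    ∀ (G : Matrix (Fin n) (Fin n) ℝ) (s : ℝ), (∀ i j, |G i j - if i = j then 1 else 0| ≤ η₁) →
      |s| ≤ η₁ → √G.det * (Real.exp s * √(G⁻¹ l l)) ≤ 1 + ζ := by
  have c1 : ContinuousAt (fun G : Matrix (Fin n) (Fin n) ℝ => G⁻¹) 1 :=
    continuousAt_matrix_inv _ (by
      rw [Matrix.det_one, Ring.inverse_eq_inv']
      exact continuousAt_inv₀ one_ne_zero)
  have c2 : ContinuousAt (fun p : (Fin n → Fin n → ℝ) × ℝ =>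
      √(Matrix.of p.1).det * (Real.exp p.2 * √((Matrix.of p.1)⁻¹ l l)))
      ((1 : Matrix (Fin n) (Fin n) ℝ), 0) := by
    refine ((continuous_fst.matrix_det).sqrt.continuousAt).mul
      ((Real.continuous_exp.comp continuous_snd).continuousAt.mul (ContinuousAt.sqrt ?_))
    exact ((continuous_id.matrix_elem l l).continuousAt.comp c1).comp_of_eq continuousAt_fst rfl
  obtain ⟨δ, δ0, h⟩ := Metric.eventually_nhds_iff.1 (c2.eventually (gt_mem_nhds (a := 1 + ζ) (by
    change √(1 : Matrix (Fin n) (Fin n) ℝ).det * (Real.exp 0 *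
      √((1 : Matrix (Fin n) (Fin n) ℝ)⁻¹ l l)) < _
    simpa using hζ)))
  refine ⟨δ / 2, by positivity, fun G s hG hs => (h (y := (G, s)) ?_).le⟩
  rw [Prod.dist_eq, max_lt_iff, Real.dist_eq, sub_zero]
  refine ⟨(dist_pi_lt_iff δ0).2 fun i => (dist_pi_lt_iff δ0).2 fun j => ?_, by linarith⟩
  rw [Real.dist_eq]
  exact (hG i j).trans_lt (by linarith)

theorem cube (h : Vt ϑ) : ∫⁻ y in Q k, ENNReal.ofReal (deriv ϑ (y (last k))) ≤ 1 := by
  have c : Continuous (deriv ϑ) := h.sm.continuous_deriv (by simp)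
  have m : Measurable fun t => ENNReal.ofReal (deriv ϑ t) := c.measurable.ennreal_ofReal
  have : IsProbabilityMeasure (volume.restrict (Icc (0 : ℝ) 1)) := ⟨by simp⟩
  have k1 := (PiLp.volume_preserving_ofLp (Fin (k + 1))).setLIntegral_comp_preimage
    (MeasurableSet.univ_pi fun _ => measurableSet_Icc (a := (0 : ℝ)) (b := 1))
    (m.comp (measurable_pi_apply (last k)))
  refine (lintegral_mono_set fun y hy i _ => hy.1 i).trans (k1.trans_le ?_)
  rw [volume_pi, Measure.restrict_pi_pi]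
  refine ((measurePreserving_eval (fun _ => volume.restrict (Icc (0 : ℝ) 1))
    (last k)).lintegral_comp m).trans_le ?_
  rw [← ofReal_integral_eq_lintegral_ofReal c.integrableOn_Icc
    (ae_of_all _ fun t => h.mono.deriv_nonneg), integral_Icc_eq_integral_Ioc,
    ← intervalIntegral.integral_of_le zero_le_one, intervalIntegral.integral_deriv_eq_sub
      (fun t _ => h.sm.differentiable (by simp) t) (c.intervalIntegrable _ _)]
  have := h.per 0
  rw [zero_add] at this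
  simp [this]

/-- the integral over the image of a compact set in a periodic chart -/
theorem lint_le {n : ℕ} {X : Type} [Mf0 n X] {g : Fld n X} {Y : E n → X} (hg : Met g)
    (hY : Per Y η) {C : Set (E n)} (hC : IsCompact C) (sub : C ⊆ Uo n η) (F : X → ℝ≥0∞) :
    ∫⁻ x in Y '' C, F x ∂vol g ≤ ∫⁻ y in C, ENNReal.ofReal (P366Z.dens (pl Y g) y) * F (Y y) := by
  obtain ⟨S, -, h1, h2⟩ : ∃ S, MeasurableSet S ∧ C ⊆ S ∧ ∀ A ⊆ S, MeasurableSet A →
      ∫⁻ x in Y '' A, F x ∂vol g ≤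
        ∫⁻ y in A, ENNReal.ofReal (P366Z.dens (pl Y g) y) * F (Y y) := by
    refine hC.induction_on ⟨∅, .empty, Subset.rfl, fun A hA _ => by simp [subset_empty_iff.1 hA]⟩
      (fun s t hs ⟨S, a, b, c⟩ => ⟨S, a, hs.trans b, c⟩)
      (fun s t ⟨S, a, b, c⟩ ⟨T, a', b', c'⟩ =>
        ⟨S ∪ T, a.union a', union_subset_union b b', fun A hA mA => ?_⟩) fun y hy => ?_
    · rw [← lintegral_inter_add_sdiff _ A a, ← inter_union_sdiff A S, image_union,
        inter_union_sdiff]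
      exact (lintegral_union_le _ _ _).trans (add_le_add (c _ inter_subset_right (mA.inter a))
        (c' _ (fun z hz => (hA hz.1).resolve_left hz.2) (mA.diff a)))
    · obtain ⟨e, he, k⟩ := hY.exists_chart (sub hy)
      obtain ⟨S, k1, k2, k3⟩ := _root_.eventually_nhds_iff.1 k.eventually_nhds
      refine ⟨S, mem_nhdsWithin_of_mem_nhds (k2.mem_nhds k3), S, k2.measurableSet, Subset.rfl,
        fun A hA mA => ?_⟩
      rw [image_congr fun z hz => (k1 z (hA hz)).self_of_nhds, lintegral_image hg he mA]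
      refine (setLIntegral_congr_fun mA fun z hz => ?_).le
      simp only [P366Z.dens, Stmt.mat, rep_eq_pl, pl_congr (k1 z (hA hz)) rfl,
        (k1 z (hA hz)).self_of_nhds]
  exact h2 C h1 hC.measurableSet

/-- the lift near a point of the periodic chart -/
theorem lift {X : Type} [Mf0 (k + 1) X] (g : Fld (k + 1) X) {Y : E (k + 1) → X} {Θ : X → ℝ}
    (h : Vt ϑ) (hY : Per Y η) (hΘ : ∀ y ∈ Uo (k + 1) η, ∃ m : ℤ, Θ (Y y) = ϑ (y (last k)) + m)
    {y : E (k + 1)} (hy : y ∈ Uo (k + 1) η) : ∃ θ U, Lft Θ θ U ∧ Y y ∈ U ∧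
      gn g θ (Y y) = √((Stmt.mat (pl Y g) y)⁻¹ (last k) (last k)) * deriv ϑ (y (last k)) := by
  obtain ⟨e, he, k1⟩ := hY.exists_chart hy
  obtain ⟨r, r0, k2⟩ := Metric.eventually_nhds_iff_ball.1 (k1.and (isOpen_Uo.mem_nhds hy))
  let χ : ContDiffBump y := ⟨r, 2 * r, r0, by linarith⟩
  have s1 : ContDiff ℝ ∞ fun z : E (k + 1) => ϑ (z (last k)) := h.sm.comp (contDiff_coord _)
  have e1 : ∀ z ∈ ball y r, χ z * ϑ (z (last k)) = ϑ (z (last k)) := fun z hz => by
    rw [χ.one_of_mem_closedBall (ball_subset_closedBall hz), one_mul]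
  have sθ : Smooth (zx e fun z => χ z * ϑ (z (last k))) :=
    cd_zx le_rfl he (isCompact_closedBall y (2 * r)) (fun z hz => by
      rw [χ.zero_of_le_dist (not_le.1 hz).le, zero_mul]) (χ.contDiff.mul s1)
  refine ⟨_, e.symm '' ball y r, ⟨sθ, (openEmb_symm he).isOpenMap _ isOpen_ball, ?_⟩,
    ⟨y, mem_ball_self r0, k1.self_of_nhds.symm⟩, ?_⟩
  · rintro _ ⟨z, hz, rfl⟩
    obtain ⟨m, hm⟩ := hΘ z (k2 z hz).2
    refine ⟨-m, ?_⟩
    rw [zx_symm he, e1 z hz, ← (k2 z hz).1, hm]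
    push_cast
    ring
  · have e2 : ∀ i, Stmt.pd i (fun z => χ z * ϑ (z (last k))) y =
        deriv ϑ (y (last k)) * if i = last k then 1 else 0 := fun i => by
      rw [P366Z.pd_congr (eventually_of_mem (ball_mem_nhds y r0) e1), P366Z.pd_comp
        (h.sm.differentiable (by simp) _).hasDerivAt (Stmt.Smooth.diff (contDiff_coord _) y),
        P366Z.pd_coord]
    rw [k1.self_of_nhds, ← gn_rep he g (sθ.diff _), loc_zx he, P366Z.gn, P366Z.ip]
    simp only [e2, mul_ite, mul_one, mul_zero, Finset.sum_ite_eq', Finset.mem_univ, if_true,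
      ite_mul, zero_mul]
    rw [mul_assoc, Real.sqrt_mul' _ (mul_self_nonneg _), Real.sqrt_mul_self h.mono.deriv_nonneg,
      Stmt.up, Stmt.mat, Stmt.mat, rep_eq_pl, pl_congr k1 rfl]

end ThH

open ThH in
theorem th : TH := by
  classical
  intro k ϑ h ζ hζ
  obtain ⟨η₁, η0, hb⟩ := mat_bd (k + 1) (last k) hζ
  refine ⟨min η₁ (1 / 8), by positivity, fun η h0 h1 X _ _ g f Y H => ?_⟩
  have sub : Q k ⊆ Uo (k + 1) η := Q_sub (by linarith [h1.trans (min_le_right _ _)])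
  have h2 := h1.trans (min_le_left _ _)
  set Θ : X → ℝ := fun x => if p : ∃ y ∈ Uo (k + 1) η, Y y = x then ϑ (p.choose (last k)) else 0
  have t1 : ∀ y ∈ Uo (k + 1) η, ∃ m : ℤ, Θ (Y y) = ϑ (y (last k)) + m := fun y hy => by
    have p : ∃ y' ∈ Uo (k + 1) η, Y y' = Y y := ⟨y, hy, rfl⟩
    obtain ⟨z, hz⟩ := H.per.inj y hy _ p.choose_spec.1 p.choose_spec.2.symm
    refine ⟨z (last k), ?_⟩
    simp only [Θ, dif_pos p]
    rw [hz, PiLp.add_apply, lat_apply, h.add]
  have cK : IsCompact (Y '' Q k) :=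
    cpt_Q.image_of_continuousOn fun y hy => (H.per.smP (sub hy)).ct.continuousWithinAt
  have t2 : ∀ x ∉ Y '' Q k, ∃ m : ℤ, Θ x = m := fun x hx => by
    by_cases p : ∃ y ∈ Uo (k + 1) η, Y y = x
    · obtain ⟨y, hy, rfl⟩ := p
      obtain ⟨m, hm⟩ := t1 y hy
      obtain ⟨y₀, k1, z, rfl⟩ | ⟨m', k1⟩ := red h y
      · exact absurd ⟨y₀, k1, (H.per.per y₀ z).symm⟩ hx
      · exact ⟨m' + m, by rw [hm, k1, Int.cast_add]⟩
    · exact ⟨0, by simp only [Θ, dif_neg p, Int.cast_zero]⟩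
  have t3 : Lft Θ (fun _ => 0) (Y '' Q k)ᶜ := ⟨cd_const, cK.isClosed.isOpen_compl, fun x hx => by
    obtain ⟨m, hm⟩ := t2 x hx
    exact ⟨-m, by simp [hm]⟩⟩
  have t4 : Cir Θ := fun x => by
    by_cases p : x ∈ Y '' Q k
    · obtain ⟨y, hy, rfl⟩ := p
      obtain ⟨θ, U, a, b, -⟩ := lift g h H.per t1 (sub hy)
      exact ⟨θ, U, a, b⟩
    · exact ⟨_, _, t3, p⟩
  choose θ U hθ hU using id t4
  have t5 : ∀ θ' U', Lft Θ θ' U' → ∀ x ∈ U', gn g θ' x = gn g (θ x) x :=
    fun θ' U' a x hx => a.gn_eq (hθ x) hx (hU x) g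
  have t6 : Continuous fun x => gn g (θ x) x := continuous_iff_continuousAt.2 fun x =>
    (H.met.cont_gn (hθ x).sm.one).continuousAt.congr
      (eventually_of_mem ((hθ x).opn.mem_nhds (hU x)) (t5 _ _ (hθ x)))
  refine ⟨Θ, _, t4, t6, t5, t1, fun x hx => eventually_of_mem (t3.opn.mem_nhds
    fun ⟨y, hy, e⟩ => hx y (sub hy) e) t2, ?_⟩
  rw [integral_eq_lintegral_of_nonneg_ae (ae_of_all _ fun x => mul_nonneg (Real.exp_pos _).le
    (gn_nonneg _ _ _)) ((Real.continuous_exp.comp H.smf.cont).mul t6).aestronglyMeasurable,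
    ← setLIntegral_eq_of_support_subset (s := Y '' Q k) fun x hx => by
      by_contra p
      rw [Function.mem_support, ← t5 _ _ t3 x p, gn_zero fun i => pd_const _ i x] at hx
      simp at hx]
  refine ENNReal.toReal_le_of_le_ofReal (by linarith) ((lint_le H.met H.per cpt_Q sub _).trans ?_)
  refine (setLIntegral_mono' cpt_Q.measurableSet (g := fun y => ENNReal.ofReal (1 + ζ) *
    ENNReal.ofReal (deriv ϑ (y (last k)))) fun y hy => ?_).trans ?_
  · obtain ⟨θ', U', a, b, c⟩ := lift g h H.per t1 (sub hy)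
    rw [← ENNReal.ofReal_mul (P366Z.dens_nonneg _ _), ← ENNReal.ofReal_mul (by linarith),
      ← t5 _ _ a _ b, c]
    refine ENNReal.ofReal_le_ofReal (le_of_eq_of_le ?_ (mul_le_mul_of_nonneg_right
      (hb (Stmt.mat (pl Y g) y) (f (Y y)) (fun i j => ?_) ?_) h.mono.deriv_nonneg))
    · rw [P366Z.dens]
      ring
    · simpa [Stmt.mat] using (H.gs i j 0 (by simp) y (sub hy)).trans h2
    · simpa using (H.fs 0 (by simp) y (sub hy)).trans h2
  · rw [lintegral_const_mul' _ _ ENNReal.ofReal_ne_top]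
    exact mul_le_of_le_one_right' (cube h)

end Vale.Agent.P366M.An
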