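import Vale.Agent.P366P.Jac
import Vale.Agent.P366P.Prod
import Vale.Agent.P366L.Main
import Vale.Agent.P366R.White

/-!
# P366C: capillary graphs in a chart; definitions and statements
-/

open MeasureTheory Metric Filter Topology Set
open scoped ContDiff RealInnerProductSpace
open Vale.Agent.P366.Stmt Vale.Agent.P366Z Vale.Agent.P366W
open Vale.Agent.P366D (snc ini Null)
open Vale.Agent.P366P (hw nv)
open Vale.Agent.P366Y.C (ww)
open Vale.Agent.P366L (Bad)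
open Vale.Agent.P366R (gs)
open Fin (last)

noncomputable section

namespace Vale.Agent.P366C

variable {n k : ℕ} {I : Type}

/-- the last unit vector -/
def eL (n : ℕ) : E (n + 1) := EuclideanSpace.single (last n) 1

/-- the horizontal hyperplane -/
def Ls (n : ℕ) : E n →ₗᵢ[ℝ] E (n + 1) where
  toFun y := snc y 0
  map_add' y z := by
    ext i; refine Fin.lastCases ?_ (fun j => ?_) i <;> simp [snc]
  map_smul' c y := by
    ext i; refine Fin.lastCases ?_ (fun j => ?_) i <;> simp [snc]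
  norm_map' y := by
    simp [EuclideanSpace.norm_eq, Fin.sum_univ_castSucc, snc]

/-- the inverse metric as a linear map -/
def B0 (G : Field n) (x : E n) : E n →L[ℝ] E n := ∑ i, ∑ j, up G i j x •
  (EuclideanSpace.proj j : E n →L[ℝ] ℝ).smulRight (EuclideanSpace.single i (1 : ℝ))

/-- the density of the weighted volume -/
def a0 (G : Field n) (φ : E n → ℝ) (x : E n) : ℝ := Real.exp (φ x) * dens G x

/-- the inverse of the product metric -/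
def Bh (G : Field n) (x : E (n + 1)) : E (n + 1) →L[ℝ] E (n + 1) :=
  (Ls n).toContinuousLinearMap ∘L B0 G (ini x) ∘L adj (Ls n) + (innerSL ℝ (eL n)).smulRight (eL n)

/-- the graph of `u` in the product -/
def cs (G : Field n) (φ u : E n → ℝ) : Surf (n + 1) :=
  gsurf (eL n) (Ls n) u (Bh G) fun x => a0 G φ (ini x)

/-- the metric and the weight are close to the flat ones at `p` -/
def Nm (G : Field n) (φ : E n → ℝ) (ε : ℝ) (p : E n) : Prop :=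
  ‖B0 G p - ContinuousLinearMap.id ℝ (E n)‖ < ε ∧ |a0 G φ p - 1| < ε

/-- a family of capillary graphs over the open set `O` -/
structure Cf (𝒰 : Ultrafilter I) (G : Field n) (φ H : E n → ℝ) (u : I → E n → ℝ) (c ε : I → ℝ)
    (O : Set (E n)) (S Λ : ℝ) : Prop where
  met : Met G
  smφ : Smooth φ
  smH : Smooth H
  opn : IsOpen O
  smu : ∀ i, Smooth (u i)
  c0 : Tendsto c 𝒰 (𝓝 0)
  ε0 : Tendsto ε 𝒰 (𝓝 0)
  εp : ∀ i, 0 ≤ ε i
  bd : ∀ᶠ i in (𝒰 : Filter I), ∀ x ∈ O, |hw G φ (u i) x| ≤ Λ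
  eq : ∀ᶠ i in (𝒰 : Filter I), ∀ x ∈ O, |u i x| < S →
    hw G φ (u i) x = H x + c i + ε i * u i x
  vol : Tendsto (fun i => volume {x | x ∈ O ∧ |u i x| < S}) 𝒰 (𝓝 0)

/-- near `p` the level sets `u i = z`, `|z| < T`, are graphs which converge to the graph of `w` -/
structure Rc (𝒰 : Ultrafilter I) (G : P366.Stmt.Field (k + 1)) (φ H : E (k + 1) → ℝ)
    (u : I → E (k + 1) → ℝ) (T : ℝ) (p e : E (k + 1)) (L : E k →ₗᵢ[ℝ] E (k + 1)) (r : ℝ)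
    (w : E k → ℝ) (W : I → E (k + 1) → ℝ) : Prop where
  fr : Fr e L
  r0 : 0 < r
  smw : Smooth w
  lip : ∀ y, ‖y‖ < r → |w y| ≤ ‖y‖ / 2
  gr : ∀ᶠ i in (𝒰 : Filter I), ∀ y s z, ‖y‖ < r → |s| < r → |z| < T →
    (u i (p + L y + s • e) < z ↔ s < W i (snc y z)) ∧
      (u i (p + L y + s • e) = z ↔ s = W i (snc y z))
  sm : ∀ᶠ i in (𝒰 : Filter I), ∀ x, ‖ini x‖ < r → |x (last k)| < T → ContDiffAt ℝ ∞ (W i) x
  cv : ∀ x, ‖ini x‖ < r → |x (last k)| < T → ∀ j ≤ 3,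
    Tendsto (fun q : I × E (k + 1) => iteratedFDeriv ℝ j (W q.1) q.2) ((𝒰 : Filter I) ×ˢ 𝓝 x)
      (𝓝 (iteratedFDeriv ℝ j (fun z => w (ini z)) x))
  mc : ∀ y, ‖y‖ < r →
    (gs p e L w (B0 G) (a0 G φ)).H (p + L y + w y • e) = H (p + L y + w y • e)

/-- **BRG**: the graph as a surface -/
def BRG : Prop := ∀ (n : ℕ) (G : Field n) (φ u : E n → ℝ), Met G → Smooth φ → Smooth u →
  (cs G φ u).Ok ∧ (∀ x, (cs G φ u).Φ x = x (last n) - u (ini x)) ∧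
  (∀ x, (cs G φ u).H x = -hw G φ u (ini x)) ∧
  (∀ x, (cs G φ u).n x = (ww G 1 u (ini x))⁻¹ • snc (-gradient u (ini x)) 1) ∧
  (∀ x, (cs G φ u).ν x =
    snc (WithLp.toLp 2 fun i => -nv G u i (ini x)) (ww G 1 u (ini x))⁻¹) ∧
  ∀ ψ : E (n + 1) → ℝ, Measurable ψ →
    ∫ x, ψ x ∂(cs G φ u).μ = ∫ y, ψ (snc y (u y)) * (a0 G φ y * ww G 1 u y)

/-- **RGC**: the structure of the limit over a point without bad points -/
def RGC : Prop := ∀ k : ℕ, ∃ ε₀ > (0 : ℝ), ε₀ ≤ 1 / 2 ∧ ∀ (I : Type) (𝒰 : Ultrafilter I)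
  (G : P366.Stmt.Field (k + 1)) (φ H : E (k + 1) → ℝ) (u : I → E (k + 1) → ℝ) (c ε : I → ℝ)
  (O : Set (E (k + 1))) (S Λ T : ℝ) (p : E (k + 1)), Cf 𝒰 G φ H u c ε O S Λ → p ∈ O →
  Nm G φ ε₀ p → 0 < T → T < S → (∀ z, |z| ≤ T → snc p z ∉ Bad 𝒰 (fun i => cs G φ (u i)) ε₀) →
  (∃ V ∈ 𝓝 p, ∀ᶠ i in (𝒰 : Filter I), ∀ x ∈ V, T < |u i x|) ∨
    ∃ e L r w W, Rc 𝒰 G φ H u T p e L r w W

/-- **NUL0**: the projection of the set of the bad points is small -/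
def NUL0 : Prop := ∀ (k : ℕ) (I : Type) (𝒰 : Ultrafilter I)
  (G : P366.Stmt.Field (k + 1)) (φ H : E (k + 1) → ℝ) (u : I → E (k + 1) → ℝ) (c ε : I → ℝ)
  (O : Set (E (k + 1))) (S Λ T ε₀ : ℝ), Cf 𝒰 G φ H u c ε O S Λ → (∀ p ∈ O, Nm G φ (1 / 2) p) →
  T < S → 0 < ε₀ → ∀ K : Set (E (k + 1)), IsCompact K → K ⊆ O → Null ((k : ℝ) - 15 / 4)
    {x | x ∈ K ∧ ∃ z, |z| ≤ T ∧ snc x z ∈ Bad 𝒰 (fun i => cs G φ (u i)) ε₀}

/-- **TOUCH**: comparison of the mean curvatures at a point of contact -/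
def TOUCH : Prop := ∀ (N : ℕ) (T T' : Surf N) (x : E N), T.Ok → T'.Ok → T'.B = T.B → T'.a = T.a →
  T.Φ x = 0 → T'.Φ x = 0 → (∀ᶠ y in 𝓝 x, T.Φ y < 0 → T'.Φ y ≤ 0) → T'.H x ≤ T.H x

end Vale.Agent.P366C
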