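import Vale.Agent.P366C.Capx
import Vale.Agent.P366C.Sup
import Vale.Agent.P366C.Th
import Vale.Agent.P366C.Str
import Vale.Agent.P366C.Touch
import Vale.Agent.P366C.Nul1
import Vale.Agent.P366N.Bar
import Vale.Agent.P366P.Fam
import Vale.Agent.P366P.Lim
import Vale.Agent.P366L.Null
import Vale.Agent.P366R.Rgc3

/-!
# P366C: the analytic step of the descent
-/

namespace Vale.Agent.P366M.An

theorem capx : CAPX := capx_of fun _ _ _ _ g f Θ L B ε => sup_bd g f Θ L B ε

theorem fam : FAM := fam_of capx grd th trc bar lip2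

theorem nul : NUL := nul_of P366L.nul0

theorem str : STR := str_of P366R.rgc P366C.touch

theorem ana_flt (h : FLT) : P366D.ANA := ana_of fam nul str h P366D.parm Gr.stl Gr.mcl

theorem ana1_flt (h : FLT) : P366D.ANA1 := ana1_of fam nul str h P366D.parm Gr.stl Gr.mcl

end Vale.Agent.P366M.An
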