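import Vale.Agent.P366C.Ana

/-!
# P366C: the rows TRC (truncation of the shield) and LIP2
-/

open MeasureTheory Metric Filter Topology Set
open scoped ContDiff
open Vale.Agent.P366 hiding E
open Vale.Agent.P366.Stmt Vale.Agent.P366Z
open Vale.Agent.P366D (Shd)

noncomputable section

namespace Vale.Agent.P366M.An

namespace TrcH

/-- the profile of the truncation -/
theorem prof {T : ℝ} (hT : 0 < T) : ∃ φ : ℝ → ℝ, ContDiff ℝ ∞ φ ∧ (∀ t ≤ 2 * T, φ t = t) ∧
    (∀ t, 4 * T ≤ t → φ t = φ (4 * T)) ∧ Monotone φ ∧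
    ∀ t, 2 * T ≤ t → |deriv φ t| * t ^ 2 ≤ φ t ^ 2 := by
  obtain ⟨δ, hδ⟩ : ∃ δ : ℝ → ℝ, δ = fun t => Real.smoothTransition (t / (2 * T) - 1) := ⟨_, rfl⟩
  have sδ : ContDiff ℝ ∞ δ :=
    hδ ▸ Real.smoothTransition.contDiff.comp ((contDiff_id.div_const _).sub contDiff_const)
  have cδ := sδ.continuous
  have δ0 : ∀ t, 0 ≤ δ t := fun t => hδ ▸ Real.smoothTransition.nonneg _
  have δ1 : ∀ t, δ t ≤ 1 := fun t => hδ ▸ Real.smoothTransition.le_one _
  have δz : ∀ t ≤ 2 * T, δ t = 0 := fun t ht => hδ ▸ Real.smoothTransition.zero_of_nonpos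
    (sub_nonpos.2 ((div_le_one (by linarith)).2 ht))
  have δo : ∀ t, 4 * T ≤ t → δ t = 1 := fun t ht => hδ ▸ Real.smoothTransition.one_of_one_le
    (le_sub_iff_add_le.2 ((le_div_iff₀ (by linarith)).2 (by linarith)))
  have δm : Monotone δ := fun a b hab => hδ ▸ Real.smoothTransition.monotone
    (sub_le_sub_right (div_le_div_of_nonneg_right hab (by linarith)) 1)
  have hD : ∀ t, HasDerivAt (fun t => t - ∫ u in (2 * T)..t, δ u) (1 - δ t) t := fun t =>
    (hasDerivAt_id t).sub (cδ.integral_hasStrictDerivAt _ t).hasDerivAt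
  have hd : deriv (fun t => t - ∫ u in (2 * T)..t, δ u) = fun t => 1 - δ t :=
    funext fun t => (hD t).deriv
  have df : Differentiable ℝ fun t => t - ∫ u in (2 * T)..t, δ u := fun t => (hD t).differentiableAt
  refine ⟨fun t => t - ∫ u in (2 * T)..t, δ u, contDiff_infty_iff_deriv.2 ⟨df, hd ▸
    contDiff_const.sub sδ⟩, fun t ht => ?_, fun t ht => ?_,
    monotone_of_deriv_nonneg df fun t => by rw [hd]; exact sub_nonneg.2 (δ1 t), fun t ht => ?_⟩
  · simp only
    rw [intervalIntegral.integral_congr (g := fun _ => 0) fun u hu => δz u (by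
      rw [uIcc_of_ge ht] at hu; exact hu.2)]
    simp
  · have e := intervalIntegral.integral_add_adjacent_intervals (μ := volume)
      (cδ.intervalIntegrable (2 * T) (4 * T)) (cδ.intervalIntegrable (4 * T) t)
    rw [intervalIntegral.integral_congr (a := 4 * T) (g := fun _ => 1) fun u hu => δo u (by
      rw [uIcc_of_le ht] at hu; exact hu.1)] at e
    simp only [intervalIntegral.integral_const, smul_eq_mul, mul_one] at e
    simp only [← e]
    ring
  · rw [hd, abs_of_nonneg (sub_nonneg.2 (δ1 t))]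
    rcases le_total (4 * T) t with h | h
    · simp only [δo t h, sub_self, zero_mul]
      positivity
    have e := intervalIntegral.integral_mono_on (μ := volume) ht (cδ.intervalIntegrable _ _)
      (g := fun _ => δ t) intervalIntegrable_const fun u hu => δm hu.2
    simp only [intervalIntegral.integral_const, smul_eq_mul] at e
    have t0 : 0 ≤ t := by linarith
    nlinarith [mul_le_mul_of_nonneg_left e t0, mul_nonneg (mul_nonneg t0 (δ0 t)) (sub_nonneg.2 h),
      sq_nonneg (∫ u in (2 * T)..t, δ u)]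

end TrcH

open Classical in
theorem trc : TRC := by
  intro n X _ _ g f O h θ hg hS θ0
  obtain ⟨h₁, hb⟩ := hS.big
  refine ⟨max h₁ 1, lt_max_of_lt_right one_pos, fun T hT => ?_⟩
  rw [max_le_iff] at hT
  have T0 : 0 < T := by linarith
  obtain ⟨φ, sφ, φ1, φ2, φm, φd⟩ := TrcH.prof T0
  have φ3 : ∀ t, 2 * T ≤ t → 2 * T ≤ φ t := fun t ht => (φ1 _ le_rfl).ge.trans (φm ht)
  obtain ⟨h₀, e⟩ : ∃ h₀ : X → ℝ, h₀ = fun x => if x ∈ O then φ (h x) else φ (4 * T) := ⟨_, rfl⟩
  have e1 : ∀ x ∈ O, h₀ x = φ (h x) := fun x hx => by simp only [e, if_pos hx]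
  have e2 : ∀ x ∉ O, h₀ x = φ (4 * T) := fun x hx => by simp only [e, if_neg hx]
  have v1 : ∀ x ∈ O, h₀ =ᶠ[𝓝 x] fun y => φ (h y) := fun x hx =>
    Eventually.mono (hS.opn.mem_nhds hx) e1
  have v2 : ∀ x ∉ O, h₀ =ᶠ[𝓝 x] fun _ => φ (4 * T) := fun x hx => by
    filter_upwards [(hS.cls (4 * T)).isOpen_compl.mem_nhds fun k => hx k.1] with y hy
    by_cases k : y ∈ O
    · rw [e1 y k, φ2 _ (not_lt.1 fun k' => hy ⟨k, k'.le⟩)]
    · exact e2 y k
  refine ⟨h₀, cd_of_cAt le_rfl fun x => ?_, fun x => ?_, fun x hx k => (e1 x hx).trans (φ1 _ k),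
    fun x hx => ?_, fun x hx => ?_⟩
  · by_cases k : x ∈ O
    · exact (sφ.contDiffAt.compM (hS.smh x k)).congr_of_eventuallyEq (v1 x k)
    · exact cAt_const.congr_of_eventuallyEq (v2 x k)
  · by_cases k : x ∈ O
    · rw [e1 x k]
      exact (φ1 0 (by linarith)).ge.trans (φm (hS.h0 x k))
    · linarith [e2 x k, φ3 (4 * T) (by linarith)]
  · by_cases k : x ∈ O
    · rw [e1 x k] at hx
      rcases le_total (h x) (2 * T) with k' | k'
      · exact ⟨k, φ1 _ k' ▸ hx⟩
      · linarith [φ3 _ k']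
    · linarith [e2 x k, φ3 (4 * T) (by linarith)]
  · by_cases k : x ∈ O
    · have hd := (hS.smh x k).differentiableAt (by simp)
      rw [e1 x k] at hx ⊢
      rw [gn_congr (v1 x k), gn_comp ((sφ.differentiable (by simp)) _).hasDerivAt hd]
      rcases lt_or_ge (h x) (2 * T) with k' | k'
      · have : deriv φ (h x) = 1 := by
          rw [EventuallyEq.deriv_eq (f₁ := φ) (f := id)
            (Eventually.mono (Iio_mem_nhds k') fun t ht => φ1 t (le_of_lt ht)), deriv_id]
        rw [φ1 _ k'.le] at hx ⊢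
        rw [this, abs_one, one_mul]
        exact hb x k ((le_max_left _ _).trans hx)
      · have k1 := mul_le_mul_of_nonneg_left (hb x k (by linarith)) (abs_nonneg (deriv φ (h x)))
        have k2 := mul_le_mul_of_nonneg_left (φd _ k') θ0
        linarith
    · rw [gn_congr (v2 x k), gn_zero fun i => pd_const _ i x]
      positivity

namespace Lip2H

variable {n : ℕ}

theorem fderiv_cpt {G : Stmt.Field n} (hG : P366Z.Met G) {K : Set (E n)} (hK : IsCompact K) :
    ∃ L > (0 : ℝ), ∀ y ∈ K, ∀ v : E n → ℝ, DifferentiableAt ℝ v y →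
      ‖fderiv ℝ v y‖ ≤ L * P366Z.gn G v y := by
  have hc : Continuous G := continuous_pi fun i => continuous_pi fun j => (hG.sm i j).cont
  obtain ⟨C, hC⟩ := hK.exists_bound_of_continuousOn hc.continuousOn
  refine ⟨n * |C| + 1, by positivity, fun y hy v hv => ?_⟩
  have h0 : (0 : ℝ) ≤ n * |C| := by positivity
  have h1 := lo_of_hi (Finset.sum_nonneg fun i _ => sq_nonneg (Stmt.pd i v y)) (hG.up_nonneg y _)
    (hG.sq_le y _) (quad_le_of_bd (K := |C|) (fun i j => (((norm_le_pi_norm (G y i) j).trans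
      (norm_le_pi_norm (G y) i)).trans (hC y hy)).trans (le_abs_self C)) _) h0
  have h2 := P366Z.gn_nonneg G v y
  refine (abs_le_of_sq_le_sq' ?_ (by positivity)).2
  rw [mul_pow, hG.gn_sq, P366Z.norm_fderiv_sq hv]
  exact h1.trans (mul_le_mul_of_nonneg_right (by nlinarith) (hG.ip_nonneg v y))

/-- the oscillation of the functions with a bounded gradient is small on small neighbourhoods -/
theorem osc {X : Type} [Mf0 n X] {g : Fld n X} (hg : Met g) (C : ℝ) {τ : ℝ} (hτ : 0 < τ) (x : X) :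
    ∃ V, IsOpen V ∧ x ∈ V ∧ ∀ u : X → ℝ, Smooth u → (∀ x, gn g u x ≤ C) →
      ∀ y ∈ V, |u y - u x| ≤ τ := by
  have he := ch_mem x
  obtain ⟨L, L0, hL⟩ := fderiv_cpt (hg.rep he) (isCompact_closedBall (pt x) 1)
  have p : 0 < L * (|C| + 1) := by positivity
  refine ⟨(ch x).symm '' ball (pt x) (min 1 (τ / (L * (|C| + 1)))),
    (openEmb_symm he).isOpenMap _ isOpen_ball,
    ⟨pt x, mem_ball_self (by positivity), symm_pt x⟩, fun u hu hC => ?_⟩
  rintro _ ⟨y, hy, rfl⟩
  rw [mem_ball, lt_min_iff] at hy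
  have d := (hu _ he).differentiable (by simp)
  have k := (convex_closedBall (pt x) 1).norm_image_sub_le_of_norm_fderiv_le (𝕜 := ℝ)
    (f := loc (ch x) u) (C := L * (|C| + 1)) (fun z _ => d z) (fun z hz => (hL z hz _ (d z)).trans
      (mul_le_mul_of_nonneg_left (by
        rw [gn_rep he g (hu.diff _)]; linarith [hC ((ch x).symm z), le_abs_self C]) L0.le))
    (mem_closedBall_self zero_le_one) (mem_closedBall.2 hy.1.le)
  rw [loc_apply, loc_apply, symm_pt, ← dist_eq_norm y] at k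
  exact k.trans ((le_div_iff₀' p).1 hy.2.le)

end Lip2H

theorem lip2 : LIP2 := by
  intro n X _ _ g f C τ hg hf τ0
  have := hg.locFin
  have := hg.openPos
  have ce : Continuous fun x => Real.exp (f x) := hf.cont.rexp
  have ii : ∀ {w : X → ℝ}, Continuous w → Integrable w (vol g) := fun hw =>
    hw.integrable_of_hasCompactSupport (HasCompactSupport.of_compactSpace _)
  suffices H : ∃ δ > (0 : ℝ), ∀ x ∈ (univ : Set X), ∀ u : X → ℝ, Smooth u → (∀ x, gn g u x ≤ C) →
      ∫ x, Real.exp (f x) * u x ^ 2 ∂vol g ≤ δ → |u x| ≤ τ by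
    obtain ⟨δ, δ0, H⟩ := H
    exact ⟨δ, δ0, fun u h1 h2 h3 x => H x trivial u h1 h2 h3⟩
  refine isCompact_univ.induction_on ⟨1, one_pos, by simp⟩
    (fun s t hst ⟨δ, δ0, H⟩ => ⟨δ, δ0, fun x hx => H x (hst hx)⟩)
    (fun s t ⟨δ, δ0, H⟩ ⟨δ', δ0', H'⟩ => ⟨min δ δ', lt_min δ0 δ0', fun x hx u h1 h2 h3 =>
      hx.elim (fun k => H x k u h1 h2 (h3.trans (min_le_left _ _)))
        fun k => H' x k u h1 h2 (h3.trans (min_le_right _ _))⟩) fun x _ => ?_
  obtain ⟨V, oV, xV, hV⟩ := Lip2H.osc hg C (τ := τ / 4) (by positivity) x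
  have I0 : 0 < ∫ y in V, Real.exp (f y) ∂vol g := by
    rw [setIntegral_pos_iff_support_of_nonneg_ae (Eventually.of_forall fun y => (Real.exp_pos _).le)
      (ii ce).integrableOn]
    exact (oV.measure_pos _ ⟨x, xV⟩).trans_le
      (measure_mono fun y hy => ⟨(Real.exp_pos _).ne', hy⟩)
  refine ⟨V, mem_nhdsWithin_of_mem_nhds (oV.mem_nhds xV),
    (∫ y in V, Real.exp (f y) ∂vol g) * (τ / 2) ^ 2 / 2, by positivity, fun y hy u h1 h2 h3 => ?_⟩
  by_contra k
  have iu : Integrable (fun z => Real.exp (f z) * u z ^ 2) (vol g) := ii (ce.mul (h1.cont.pow 2))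
  have k1 : ∫ z in V, Real.exp (f z) * (τ / 2) ^ 2 ∂vol g ≤
      ∫ z in V, Real.exp (f z) * u z ^ 2 ∂vol g :=
    setIntegral_mono_on (ii (ce.mul continuous_const)).integrableOn iu.integrableOn
      oV.measurableSet fun z hz => mul_le_mul_of_nonneg_left (by
        rw [← sq_abs (u z)]
        refine pow_le_pow_left₀ (by positivity) ?_ 2
        have a1 := abs_sub_abs_le_abs_sub (u y) (u x)
        have a2 := abs_sub_abs_le_abs_sub (u x) (u z)
        rw [abs_sub_comm] at a2
        linarith [hV u h1 h2 y hy, hV u h1 h2 z hz, not_le.1 k]) (Real.exp_pos _).le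
  have k2 := setIntegral_le_integral (s := V) iu (Eventually.of_forall fun z => by positivity)
  rw [integral_mul_const] at k1
  have : 0 < (∫ y in V, Real.exp (f y) ∂vol g) * (τ / 2) ^ 2 := by positivity
  linarith

end Vale.Agent.P366M.An
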