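import Vale.Agent.P366C.ChD
import Vale.Agent.P366P.LimD
import Vale.Agent.P366D.Parm

/-!
# P366C: the skeleton of the analytic step of the descent
-/

open MeasureTheory Metric Filter Topology Set
open scoped ContDiff
open Vale.Agent.P366 hiding E
open Vale.Agent.P366.Stmt Vale.Agent.P366Z
open Vale.Agent.P366D (Rf Stb Mc Sub pull ini snc lat Uo Sml Null Shd Nr Dat Par Lim Flt PARM ANA
  ANA1)
open Vale.Agent.P366M.Gr Vale.Agent.P366M.Y.C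
open Vale.Agent.P366C (cs Nm RGC NUL0 TOUCH BRG)
open Vale.Agent.P366L (Bad)
open Fin (last)

noncomputable section

namespace Vale.Agent.P366M.An

section Defs

variable {n : ℕ} {X : Type} [Mf0 n X] {I : Type}

/-- `θ` is a smooth lift of the circle-valued function `Θ` on the open set `U` -/
structure Lft (Θ θ : X → ℝ) (U : Set X) : Prop where
  sm : Smooth θ
  opn : IsOpen U
  int : ∀ x ∈ U, ∃ m : ℤ, θ x = Θ x + m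

/-- `Θ` is a smooth function with values in the circle -/
def Cir (Θ : X → ℝ) : Prop := ∀ x, ∃ θ U, Lft Θ θ U ∧ x ∈ U

/-- the graph of `z - l Θ` has the weighted mean curvature `R` -/
def Cap (g : Fld n X) (f Θ : X → ℝ) (l : ℝ) (z R : X → ℝ) : Prop :=
  ∀ θ U, Lft Θ θ U → ∀ x ∈ U, hw g f (fun y => z y - l * θ y) x = R x

/-- the representative of `t` modulo `l` with the smallest absolute value -/
def ub (l t : ℝ) : ℝ := t - l * round (t / l)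

/-- the limit of the zero sets -/
def La (𝒰 : Ultrafilter I) (u : I → X → ℝ) : Set X :=
  {x | ∀ V ∈ 𝓝 x, ∀ r > (0 : ℝ), ∀ᶠ i in (𝒰 : Filter I), ∃ y ∈ V, |u i y| < r}

/-- the winding profile -/
structure Vt (ϑ : ℝ → ℝ) : Prop where
  sm : ContDiff ℝ ∞ ϑ
  per : ∀ t, ϑ (t + 1) = ϑ t + 1
  zero : ∀ t, |t| ≤ 1 / 4 → ϑ t = 0
  mono : Monotone ϑ

/-- a family of twisted capillary graphs -/
structure Fd (X I : Type) where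
  𝒰 : Ultrafilter I
  Θ : X → ℝ
  v : I → X → ℝ
  lam : I → ℝ
  c : I → ℝ
  ε : I → ℝ
  H : X → ℝ → ℝ
  S : ℝ

namespace Fd

variable (F : Fd X I)

/-- the branch of the lift `θ` -/
def br (θ : X → ℝ) (i : I) (x : X) : ℝ := F.v i x - F.lam i * θ x

/-- the branch with the smallest absolute value -/
def u (i : I) (x : X) : ℝ := ub (F.lam i) (F.br F.Θ i x)

/-- the limit hypersurface -/
def A : Set X := La F.𝒰 F.u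

/-- in some chart there are no bad points over `x` -/
def Good (g : Fld n X) (f : X → ℝ) (ε₀ : ℝ) (x : X) : Prop := ∃ e ∈ At X, x ∈ e.source ∧ ∃ κ : ℝ,
  Nm (rep e g) (fun y => loc e f y + κ) ε₀ (e x) ∧ ∀ θ U, Lft F.Θ θ U → x ∈ U → ∀ z,
    |z| ≤ F.S + 1 → snc (e x) z ∉
      Bad F.𝒰 (fun i => cs (rep e g) (fun y => loc e f y + κ) (loc e (F.br θ i))) ε₀

/-- the singular set -/
def Sg (g : Fld n X) (f : X → ℝ) (ε₀ : ℝ) : Set X := closure {x | ¬F.Good g f ε₀ x}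

/-- the properties of the family -/
structure Ok (g : Fld n X) (f : X → ℝ) (v₀ : ℝ) : Prop where
  met : Met g
  smf : Smooth f
  cir : Cir F.Θ
  S0 : 0 < F.S
  smv : ∀ i, Smooth (F.v i)
  lam : Tendsto F.lam F.𝒰 atTop
  c0 : Tendsto F.c F.𝒰 (𝓝 0)
  ε0 : Tendsto F.ε F.𝒰 (𝓝 0)
  εp : ∀ i, 0 ≤ F.ε i
  bd : ∃ C, ∀ᶠ i in (F.𝒰 : Filter I), ∀ x, |F.v i x| ≤ C * F.lam i
  smH : ∀ θ U, Lft F.Θ θ U → ∀ x ∈ U, CAt ∞ (fun y => F.H y (θ y)) x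
  mono : ∀ x, StrictMono (F.H x)
  hb : ∃ Λ, ∀ᶠ i in (F.𝒰 : Filter I), ∀ θ U, Lft F.Θ θ U → ∀ x ∈ U, |hw g f (F.br θ i) x| ≤ Λ
  eq : ∀ᶠ i in (F.𝒰 : Filter I), ∀ θ U, Lft F.Θ θ U → ∀ x ∈ U, |F.br θ i x| < F.S + 2 →
    hw g f (F.br θ i) x = F.H x (θ x) + F.c i + F.ε i * F.br θ i x
  vol : Tendsto (fun i => vol g {x | |F.u i x| < F.S + 2}) F.𝒰 (𝓝 0)
  pos : ∀ᶠ i in (F.𝒰 : Filter I), ∀ x, |F.u i x| ≤ F.S →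
    v₀ ≤ Rf g f x + hw g f (F.u i) x ^ 2 + 2 * dn g (F.u i) (hw g f (F.u i)) x

end Fd

end Defs

/-- the properties of the family in the periodic chart -/
structure Fd.Fl {k : ℕ} {X : Type} [Mf0 (k + 1) X] {I : Type} (F : Fd X I) (g : Fld (k + 1) X)
    (f : X → ℝ) (Y : E (k + 1) → X) (ϑ : ℝ → ℝ) (η ζ τ : ℝ) : Prop where
  th : ∀ y ∈ Uo (k + 1) η, ∃ m : ℤ, F.Θ (Y y) = ϑ (y (last k)) + m
  hf : ∃ δ c : ℝ, 0 ≤ δ ∧ δ ≤ τ ∧ ∀ y ∈ Uo (k + 1) η, ∀ t, F.H (Y y) t = δ * t + c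
  sm : ∀ᶠ i in (F.𝒰 : Filter I), ∀ θ U, Lft F.Θ θ U → ∀ y ∈ Uo (k + 1) η, Y y ∈ U →
    |hw g f (F.br θ i) (Y y)| ≤ τ
  area : ∀ ψ : ℝ → ℝ, ContDiff ℝ ∞ ψ → (∀ t, 0 ≤ ψ t) → tsupport ψ ⊆ Ioo (-(F.S + 2)) (F.S + 2) →
    ∀ e > (0 : ℝ), ∀ᶠ i in (F.𝒰 : Filter I),
      ∫ x, ψ (F.u i x) * (Real.exp (f x) * ww g 1 (F.u i) x) ∂vol g ≤ (1 + ζ) * (∫ t, ψ t) + e

/-! ### the statements -/

/-- the data of the capillary equation -/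
structure Cq {n : ℕ} {X : Type} [Mf0 n X] (g : Fld n X) (f Θ a b : X → ℝ) (s : ℝ → ℝ) (ε : ℝ) :
    Prop where
  met : Met g
  smf : Smooth f
  cir : Cir Θ
  sma : Smooth a
  smb : Smooth b
  a0 : ∀ x, 0 ≤ a x
  sms : ContDiff ℝ ∞ s
  mono : Monotone s
  s1 : ∀ t, |s t| ≤ 1
  ε0 : 0 < ε

/-- **CAPX**: existence of twisted capillary graphs -/
def CAPX : Prop := ∀ n : ℕ, 2 ≤ n → ∀ (X : Type) [Mf0 n X] [CompactSpace X] (g : Fld n X)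
  (f Θ a b : X → ℝ) (s : ℝ → ℝ) (ε l : ℝ), Cq g f Θ a b s ε →
  ∃ z, Smooth z ∧ Cap g f Θ l z fun x => ε * z x + a x * s (z x) + b x

/-- **GRD**: the gradient estimate -/
def GRD : Prop := ∀ (n : ℕ) (X : Type) [Mf0 n X] [CompactSpace X] (g : Fld n X) (f Θ : X → ℝ),
  ∃ C, ∀ (a b : X → ℝ) (s : ℝ → ℝ) (ε l B : ℝ) (z : X → ℝ), Cq g f Θ a b s ε → Smooth z →
  (∀ x, gn g a x ≤ B) → (∀ x, gn g b x ≤ B) →
  (Cap g f Θ l z fun x => ε * z x + a x * s (z x) + b x) → ∀ θ U, Lft Θ θ U → ∀ x ∈ U,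
    ww g 1 (fun y => z y - l * θ y) x ≤ C * (1 + |l| + (1 + B) / ε)

/-- **TH**: the circle-valued function of a periodic chart -/
def TH : Prop := ∀ (k : ℕ) (ϑ : ℝ → ℝ), Vt ϑ → ∀ ζ > (0 : ℝ), ∃ η₁ > (0 : ℝ), ∀ η, 0 < η → η ≤ η₁ →
  ∀ (X : Type) [Mf0 (k + 1) X] [CompactSpace X] (g : Fld (k + 1) X) (f : X → ℝ)
    (Y : E (k + 1) → X), Nr g f Y η → ∃ Θ om : X → ℝ, Cir Θ ∧ Continuous om ∧
    (∀ θ U, Lft Θ θ U → ∀ x ∈ U, gn g θ x = om x) ∧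
    (∀ y ∈ Uo (k + 1) η, ∃ m : ℤ, Θ (Y y) = ϑ (y (last k)) + m) ∧
    (∀ x, (∀ y ∈ Uo (k + 1) η, Y y ≠ x) → ∀ᶠ x' in 𝓝 x, ∃ m : ℤ, Θ x' = m) ∧
    ∫ x, Real.exp (f x) * om x ∂vol g ≤ 1 + ζ

/-- **TRC**: the truncation of the shield -/
def TRC : Prop := ∀ (n : ℕ) (X : Type) [Mf0 n X] [CompactSpace X] (g : Fld n X) (f : X → ℝ)
  (O : Set X) (h : X → ℝ) (θ : ℝ), Met g → Shd g f O h θ → 0 ≤ θ → ∃ h₁ > (0 : ℝ), ∀ T, h₁ ≤ T →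
  ∃ h₀ : X → ℝ, Smooth h₀ ∧ (∀ x, 0 ≤ h₀ x) ∧ (∀ x ∈ O, h x ≤ 2 * T → h₀ x = h x) ∧
    (∀ x, h₀ x < T → x ∈ O ∧ h x < T) ∧ ∀ x, h₁ ≤ h₀ x → gn g h₀ x ≤ θ * h₀ x ^ 2

/-- **BAR**: the barrier on small balls -/
def BAR : Prop := ∀ n : ℕ, ∃ θ > (0 : ℝ), ∀ (X : Type) [Mf0 n X] [CompactSpace X] (g : Fld n X)
  (f : X → ℝ) (h₁ : ℝ), Met g → Smooth f → ∃ T₀, ∀ T, T₀ ≤ T → ∃ C, ∀ (h₀ z : X → ℝ) (a : ℝ)
  (x₀ : X), Smooth h₀ → Smooth z → (∀ x, h₁ ≤ h₀ x → gn g h₀ x ≤ θ * h₀ x ^ 2) →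
  (∀ x, 0 < h₀ x → a < z x → h₀ x ≤ hw g f z x) → T ≤ h₀ x₀ → z x₀ ≤ a + C

/-- **LIP2**: functions with a bounded gradient which are small in the mean are small -/
def LIP2 : Prop := ∀ (n : ℕ) (X : Type) [Mf0 n X] [CompactSpace X] (g : Fld n X) (f : X → ℝ)
  (C τ : ℝ), Met g → Smooth f → 0 < τ → ∃ δ > (0 : ℝ), ∀ u : X → ℝ, Smooth u →
  (∀ x, gn g u x ≤ C) → ∫ x, Real.exp (f x) * u x ^ 2 ∂vol g ≤ δ → ∀ x, |u x| ≤ τ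

/-- **FAM**: the construction of the family -/
def FAM : Prop := ∀ (k : ℕ) (ϑ : ℝ → ℝ), 1 ≤ k → Vt ϑ → ∃ θ > (0 : ℝ), ∀ ζ > (0 : ℝ),
  ∃ η₁ > (0 : ℝ), ∀ η, 0 < η → η ≤ η₁ → ∀ (X : Type) [Mf0 (k + 1) X] [CompactSpace X]
    (g : Fld (k + 1) X) (f : X → ℝ) (O : Set X) (h : X → ℝ) (Y : E (k + 1) → X),
    Dat g f O h Y η θ → ∃ v₀ > (0 : ℝ), ∀ S > (0 : ℝ), ∀ τ > (0 : ℝ), ∃ F : Fd X ℕ,
      F.S = S ∧ F.Ok g f v₀ ∧ F.Fl g f Y ϑ η ζ τ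

/-- **NUL**: the singular set is small -/
def NUL : Prop := ∀ (k : ℕ) (X : Type) [Mf0 (k + 1) X] [CompactSpace X] (I : Type) (F : Fd X I)
  (g : Fld (k + 1) X) (f : X → ℝ) (v₀ ε₀ : ℝ), F.Ok g f v₀ → 0 < ε₀ → ε₀ ≤ 1 / 2 →
  ∀ e ∈ At X, Null ((k : ℝ) - 15 / 4) (e.symm ⁻¹' F.Sg g f ε₀)

/-- **STR**: the structure at the regular points -/
def STR : Prop := ∀ k : ℕ, ∃ ε₀ > (0 : ℝ), ε₀ ≤ 1 / 2 ∧ ∀ (X : Type) [Mf0 (k + 1) X]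
  [CompactSpace X] (I : Type) (F : Fd X I) (g : Fld (k + 1) X) (f : X → ℝ) (v₀ : ℝ),
  F.Ok g f v₀ → ∀ p ∈ F.A \ F.Sg g f ε₀, ∃ e φ π y₀ r Ψ V, Par (F.A \ F.Sg g f ε₀) e φ π y₀ ∧
    e.symm (φ y₀) = p ∧ RgX (F.𝒰 : Filter I) F.u F.S e φ π y₀ r Ψ V

/-- **FLT**: the limit is a flat graph in the periodic chart -/
def FLT : Prop := ∀ (k : ℕ) (ϑ : ℝ → ℝ), 1 ≤ k → Vt ϑ → ∀ ε₀ > (0 : ℝ), ∀ η' > (0 : ℝ),
  ∃ ζ > (0 : ℝ), ∃ τ > (0 : ℝ), ∃ η₁ > (0 : ℝ), ∀ η, 0 < η → η ≤ η₁ → ∀ (X : Type)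
    [Mf0 (k + 1) X] [CompactSpace X] (I : Type) (F : Fd X I) (g : Fld (k + 1) X) (f : X → ℝ)
    (Y : E (k + 1) → X) (v₀ : ℝ), Nr g f Y η → F.Ok g f v₀ → F.Fl g f Y ϑ η ζ τ →
    ∃ w, Flt g f Y η F.A (F.Sg g f ε₀) w η'

end Vale.Agent.P366M.An
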