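import Vale.Agent.P366C.Ana

/-!
# P366C: basic lemmas on twisted graphs and the assembly of the analytic step
-/

open MeasureTheory Metric Filter Topology Set
open scoped ContDiff
open Vale.Agent.P366 hiding E
open Vale.Agent.P366.Stmt Vale.Agent.P366Z
open Vale.Agent.P366D (Rf Stb Mc Sub pull ini snc lat Uo Sml Null Shd Nr Dat Par Lim Flt PARM ANA
  ANA1)
open Vale.Agent.P366M.Gr Vale.Agent.P366M.Y.C
open Fin (last)

noncomputable section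

namespace Vale.Agent.P366M.An

/-! ### the representative -/

theorem ub_add {l : ℝ} (hl : l ≠ 0) (t : ℝ) (m : ℤ) : ub l (t + l * m) = ub l t := by
  rw [ub, ub, add_div, mul_div_cancel_left₀ _ hl, round_add_intCast]; push_cast; ring

theorem ub_sub {l : ℝ} (hl : l ≠ 0) (t : ℝ) (m : ℤ) : ub l (t - l * m) = ub l t := by
  rw [← ub_add hl _ m, sub_add_cancel]

theorem abs_ub {l : ℝ} (hl : 0 < l) (t : ℝ) : |ub l t| = l * |t / l - round (t / l)| := by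
  rw [← abs_of_pos hl, ← abs_mul, abs_of_pos hl, ub, mul_sub, mul_div_cancel₀ _ hl.ne']

theorem abs_ub_le {l : ℝ} (hl : 0 < l) (t : ℝ) (m : ℤ) : |ub l t| ≤ |t - l * m| := by
  have h := mul_le_mul_of_nonneg_left (round_le (t / l) m) hl.le
  rw [abs_ub hl]
  refine h.trans_eq ?_
  rw [← abs_of_pos hl, ← abs_mul, abs_of_pos hl, mul_sub, mul_div_cancel₀ _ hl.ne']

theorem abs_ub_half {l : ℝ} (hl : 0 < l) (t : ℝ) : |ub l t| ≤ l / 2 := by
  rw [abs_ub hl]; nlinarith [abs_sub_round (t / l)]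

theorem ub_eq {l t : ℝ} (h : |t| < l / 2) : ub l t = t := by
  have hl : 0 < l := by linarith [abs_nonneg t]
  rw [ub, round_eq_zero_iff.2 ⟨by rw [le_div_iff₀ hl]; linarith [neg_abs_le t],
    by rw [div_lt_iff₀ hl]; linarith [le_abs_self t]⟩]
  simp

theorem cont_ub {l : ℝ} (hl : 0 < l) : Continuous fun t => |ub l t| := by
  have key : ∀ s t, |ub l s| - |ub l t| ≤ |s - t| := fun s t => by
    have h1 := abs_ub_le hl s (round (t / l))
    have h2 := abs_add_le (s - t) (ub l t)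
    rw [show s - t + ub l t = s - l * round (t / l) by rw [ub]; ring] at h2
    linarith
  refine (LipschitzWith.of_dist_le_mul (K := 1) fun s t => ?_).continuous
  rw [Real.dist_eq, Real.dist_eq, NNReal.coe_one, one_mul, abs_sub_le_iff]
  exact ⟨key s t, abs_sub_comm s t ▸ key t s⟩

/-! ### lifts -/

variable {n : ℕ} {X : Type} [Mf0 n X] {I : Type} {Θ θ θ' : X → ℝ} {U U' : Set X} {x : X}
  {g : Fld n X} {f u z R : X → ℝ} {l : ℝ}

theorem Lft.add (h : Lft Θ θ U) (m : ℤ) : Lft Θ (fun x => θ x + m) U :=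
  ⟨CD.add h.sm cd_const, h.opn, fun x hx => by
    obtain ⟨k, hk⟩ := h.int x hx
    exact ⟨k + m, by rw [hk]; push_cast; ring⟩⟩

theorem Lft.mono (h : Lft Θ θ U) (ho : IsOpen U') (hs : U' ⊆ U) : Lft Θ θ U' :=
  ⟨h.sm, ho, fun x hx => h.int x (hs hx)⟩

/-- a continuous function with integer values is locally constant -/
theorem ev_int {Y : Type} [TopologicalSpace Y] {y : Y} {a : Y → ℝ} (ha : ContinuousAt a y)
    (h : ∀ᶠ y' in 𝓝 y, ∃ m : ℤ, a y' = m) : ∃ m : ℤ, ∀ᶠ y' in 𝓝 y, a y' = m := by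
  obtain ⟨m, hm⟩ := h.self_of_nhds
  refine ⟨m, ?_⟩
  filter_upwards [h, ha.eventually (ball_mem_nhds _ one_pos)] with y' ⟨k, hk⟩ h2
  rw [hk, hm, Real.dist_eq, ← Int.cast_sub, ← Int.cast_abs, ← Int.cast_one,
    Int.cast_lt, Int.abs_lt_one_iff, sub_eq_zero] at h2
  rw [hk, h2]

theorem Lft.ev (h : Lft Θ θ U) (h' : Lft Θ θ' U') (hx : x ∈ U) (hx' : x ∈ U') :
    ∃ m : ℤ, θ' =ᶠ[𝓝 x] fun y => θ y + m := by
  obtain ⟨m, hm⟩ := ev_int (a := fun y => θ' y - θ y) (h'.sm.cont.sub h.sm.cont).continuousAt (by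
    filter_upwards [h.opn.mem_nhds hx, h'.opn.mem_nhds hx'] with y a b
    obtain ⟨k, hk⟩ := h.int y a
    obtain ⟨k', hk'⟩ := h'.int y b
    exact ⟨k' - k, by rw [hk, hk']; push_cast; ring⟩)
  exact ⟨m, hm.mono fun y hy => by simp only [← hy]; ring⟩

theorem cir_zero : Lft (fun _ : X => 0) (fun _ => 0) univ :=
  ⟨cd_const, isOpen_univ, fun _ _ => ⟨0, by simp⟩⟩

/-! ### constants do not matter -/

theorem ww_add (g : Fld n X) (u : X → ℝ) (c : ℝ) : ww g 1 (fun y => u y + c) = ww g 1 u := by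
  funext x; simp only [ww, ip, pd_add_const]

theorem gb_add (g : Fld n X) (u : X → ℝ) (c : ℝ) : gb g 1 (fun y => u y + c) = gb g 1 u := by
  funext x i j; simp only [gb, pd_add_const]

theorem nv_add (g : Fld n X) (u : X → ℝ) (c : ℝ) : nv g (fun y => u y + c) = nv g u := by
  funext i x; simp only [nv, ww_add, gr, pd_add_const]

theorem dn_add (g : Fld n X) (u : X → ℝ) (c : ℝ) : dn g (fun y => u y + c) = dn g u := by
  funext v x; simp only [dn, ww_add, ip, pd_add_const]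

theorem hw_add (g : Fld n X) (f u : X → ℝ) (c : ℝ) : hw g f (fun y => u y + c) = hw g f u := by
  funext x; simp only [hw, nv_add, dn_add]

theorem hw_add_w (g : Fld n X) (f u : X → ℝ) (c : ℝ) : hw g (fun y => f y + c) u = hw g f u := by
  funext x; simp only [hw, dn, ip, pd_add_const]

/-- two branches differ by a constant near a point -/
theorem Lft.br_ev (h : Lft Θ θ U) (h' : Lft Θ θ' U') (hx : x ∈ U) (hx' : x ∈ U') (z : X → ℝ)
    (l : ℝ) : ∃ c, (fun y => z y - l * θ' y) =ᶠ[𝓝 x] fun y => (z y - l * θ y) + c := by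
  obtain ⟨m, hm⟩ := h.ev h' hx hx'
  exact ⟨-(l * m), hm.mono fun y hy => by simp only [hy]; ring⟩

theorem Lft.ww_ev (h : Lft Θ θ U) (h' : Lft Θ θ' U') (hx : x ∈ U) (hx' : x ∈ U') (g : Fld n X)
    (z : X → ℝ) (l : ℝ) :
    ww g 1 (fun y => z y - l * θ' y) =ᶠ[𝓝 x] ww g 1 fun y => z y - l * θ y := by
  obtain ⟨c, hc⟩ := h.br_ev h' hx hx' z l
  exact (ww_congr hc).trans (by rw [ww_add g (fun y => z y - l * θ y)])

theorem Lft.nv_ev (h : Lft Θ θ U) (h' : Lft Θ θ' U') (hx : x ∈ U) (hx' : x ∈ U') (g : Fld n X)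
    (z : X → ℝ) (l : ℝ) (i : Fin n) :
    nv g (fun y => z y - l * θ' y) i =ᶠ[𝓝 x] nv g (fun y => z y - l * θ y) i := by
  obtain ⟨c, hc⟩ := h.br_ev h' hx hx' z l
  exact (nv_congr hc i).trans (by rw [nv_add g (fun y => z y - l * θ y)])

theorem Lft.hw_ev (h : Lft Θ θ U) (h' : Lft Θ θ' U') (hx : x ∈ U) (hx' : x ∈ U') (g : Fld n X)
    (f z : X → ℝ) (l : ℝ) :
    hw g f (fun y => z y - l * θ' y) =ᶠ[𝓝 x] hw g f fun y => z y - l * θ y := by
  obtain ⟨c, hc⟩ := h.br_ev h' hx hx' z l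
  exact (hw_congr hc).trans (by rw [hw_add g f (fun y => z y - l * θ y)])

/-- it suffices to check the equation for one lift at every point -/
theorem cap_of (h : ∀ x, ∃ θ U, Lft Θ θ U ∧ x ∈ U ∧ hw g f (fun y => z y - l * θ y) x = R x) :
    Cap g f Θ l z R := fun θ U hθ x hx => by
  obtain ⟨θ', U', a, b, c⟩ := h x
  rw [← c]; exact (a.hw_ev hθ b hx g f z l).self_of_nhds

theorem isClosed_La (𝒰 : Ultrafilter I) (u : I → X → ℝ) : IsClosed (La 𝒰 u) :=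
  isClosed_of_closure_subset fun x hx V hV r hr => by
    obtain ⟨y, h1, h2⟩ := mem_closure_iff_nhds.1 hx _ (interior_mem_nhds.2 hV)
    exact h2 V (mem_interior_iff_mem_nhds.1 h1) r hr

namespace Fd

variable {F : Fd X I} {i : I} {v₀ : ℝ}

theorem br_add (F : Fd X I) (θ : X → ℝ) (m : ℤ) (i : I) (x : X) :
    F.br (fun y => θ y + m) i x = F.br θ i x - F.lam i * m := by unfold br; ring

theorem u_eq (h : Lft F.Θ θ U) (hx : x ∈ U) (hl : F.lam i ≠ 0) :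
    F.u i x = ub (F.lam i) (F.br θ i x) := by
  obtain ⟨m, hm⟩ := h.int x hx
  rw [u, ← ub_sub hl _ m, br, br, hm]; congr 1; ring

theorem u_br (h : Lft F.Θ θ U) (hx : x ∈ U) (hl : F.lam i ≠ 0) :
    ∃ m : ℤ, F.u i x = F.br (fun y => θ y + m) i x := ⟨_, by rw [u_eq h hx hl, br_add, ub]⟩

theorem abs_u_le (h : Lft F.Θ θ U) (hx : x ∈ U) (hl : 0 < F.lam i) :
    |F.u i x| ≤ |F.br θ i x| := by
  simpa [u_eq h hx hl.ne'] using abs_ub_le hl (F.br θ i x) 0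

theorem u_of (h : Lft F.Θ θ U) (hx : x ∈ U) (hb : |F.br θ i x| < F.lam i / 2) :
    F.u i x = F.br θ i x := by
  rw [u_eq h hx (by linarith [abs_nonneg (F.br θ i x)]), ub_eq hb]

theorem Ok.sm_br (hF : F.Ok g f v₀) (h : Smooth θ) (i : I) : Smooth (F.br θ i) :=
  CD.sub (hF.smv i) (CD.mul cd_const h)

theorem Ok.u_ev (hF : F.Ok g f v₀) (h : Lft F.Θ θ U) (hx : x ∈ U)
    (hb : |F.br θ i x| < F.lam i / 2) : F.u i =ᶠ[𝓝 x] F.br θ i := by
  filter_upwards [h.opn.mem_nhds hx,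
    (hF.sm_br h.sm i).cont.abs.continuousAt.eventually (gt_mem_nhds hb)] with y a b
  exact u_of h a b

theorem Ok.u_loc (hF : F.Ok g f v₀) (hb : |F.u i x| < F.lam i / 2) :
    ∃ θ U, Lft F.Θ θ U ∧ x ∈ U ∧ F.u i =ᶠ[𝓝 x] F.br θ i := by
  obtain ⟨θ, U, h, hx⟩ := hF.cir x
  obtain ⟨m, hm⟩ := u_br (i := i) h hx (by linarith [abs_nonneg (F.u i x)])
  exact ⟨_, U, h.add m, hx, hF.u_ev (h.add m) hx (hm ▸ hb)⟩

theorem Ok.cont_u (hF : F.Ok g f v₀) (hl : 0 < F.lam i) : Continuous fun x => |F.u i x| :=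
  continuous_iff_continuousAt.2 fun x => by
    obtain ⟨θ, U, h, hx⟩ := hF.cir x
    refine ((cont_ub hl).comp (hF.sm_br h.sm i).cont).continuousAt.congr ?_
    filter_upwards [h.opn.mem_nhds hx] with y hy
    simp only [Function.comp, u_eq h hy hl.ne']

theorem Ok.slab (hF : F.Ok g f v₀) {S : ℝ} (hS : 0 ≤ S) :
    ∀ᶠ i in (F.𝒰 : Filter I), IsClosed {x | |F.u i x| ≤ S} ∧
      ∀ x, |F.u i x| ≤ S → ∀ᶠ z in 𝓝 x, CAt ∞ (F.u i) z := by
  filter_upwards [hF.lam.eventually (eventually_gt_atTop (2 * S))] with i hi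
  refine ⟨isClosed_le (hF.cont_u (by linarith)) continuous_const, fun x hx => ?_⟩
  obtain ⟨θ, U, h, -, e⟩ := hF.u_loc (i := i) (x := x) (by linarith)
  exact e.eventuallyEq_nhds.mono fun y hy =>
    (CD.contDiffAt (hF.sm_br h.sm i)).congr_of_eventuallyEq hy

theorem Ok.dv_le [CompactSpace X] (hF : F.Ok g f v₀) {S : ℝ} : ∃ Λ, ∀ᶠ i in (F.𝒰 : Filter I),
    ∀ x, |F.u i x| ≤ S → |dv g (nv g (F.u i)) x| ≤ Λ := by
  obtain ⟨Λ, hΛ⟩ := hF.hb
  obtain ⟨C, hC⟩ := isCompact_univ.bddAbove_image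
    (hF.met.cont_gn (CD.of_le hF.smf one_le_oo)).continuousOn
  refine ⟨Λ + C, ?_⟩
  filter_upwards [hΛ, hF.lam.eventually (eventually_gt_atTop (2 * S))] with i h1 h2 x hx
  obtain ⟨θ, U, h, hU, e⟩ := hF.u_loc (i := i) (x := x) (by linarith)
  have h3 := h1 θ U h x hU
  rw [← (hw_congr e).self_of_nhds, hw] at h3
  have h4 := (abs_dn_le hF.met (F.u i) f x).trans (hC ⟨x, trivial, rfl⟩)
  have h5 := abs_sub (dv g (nv g (F.u i)) x + dn g (F.u i) f x) (dn g (F.u i) f x)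
  rw [add_sub_cancel_right] at h5
  linarith

end Fd

/-! ### the winding profile -/

theorem exists_vt : ∃ ϑ, Vt ϑ := by
  set ϑ : ℝ → ℝ := fun t => ⌊t⌋ + Real.smoothTransition (2 * Int.fract t - 1 / 2) with hϑ
  have per : ∀ t (m : ℤ), ϑ (t + m) = ϑ t + m := fun t m => by
    simp only [hϑ, Int.floor_add_intCast, Int.fract_add_intCast]; push_cast; ring
  have e1 : ∀ t, 0 ≤ t → t < 1 → ϑ t = Real.smoothTransition (2 * t - 1 / 2) := fun t a b => by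
    simp only [hϑ, Int.floor_eq_zero_iff.2 ⟨a, b⟩, Int.fract_eq_self.2 ⟨a, b⟩]; simp
  have e2 : ∀ t, -(1 / 4) ≤ t → t < 1 → ϑ t = Real.smoothTransition (2 * t - 1 / 2) :=
    fun t a b => by
      rcases le_or_gt 0 t with h | h
      · exact e1 t h b
      · have := per t 1
        rw [e1 _ (by push_cast; linarith) (by push_cast; linarith),
          Real.smoothTransition.one_of_one_le (by push_cast; linarith)] at this
        rw [Real.smoothTransition.zero_of_nonpos (by linarith)]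
        push_cast at this; linarith
  have st : ContDiff ℝ ∞ fun t : ℝ => Real.smoothTransition (2 * t - 1 / 2) :=
    Real.smoothTransition.contDiff.comp (by fun_prop)
  refine ⟨ϑ, contDiff_iff_contDiffAt.2 fun t => ?_, fun t => by simpa using per t 1,
    fun t ht => ?_, fun s t hst => ?_⟩
  · have h1 := Int.floor_le t
    have h2 := Int.lt_floor_add_one t
    refine ContDiffAt.congr_of_eventuallyEq (f := fun s =>
      Real.smoothTransition (2 * (s - ⌊t⌋) - 1 / 2) + ⌊t⌋)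
      ((st.comp (contDiff_id.sub contDiff_const)).add contDiff_const).contDiffAt ?_
    filter_upwards [Ioo_mem_nhds (show (⌊t⌋ : ℝ) - 1 / 4 < t by linarith) h2] with s hs
    rw [← e2 _ (by linarith [hs.1]) (by linarith [hs.2]), ← per, sub_add_cancel]
  · rw [e2 t (abs_le.1 ht).1 (by linarith [(abs_le.1 ht).2]),
      Real.smoothTransition.zero_of_nonpos (by linarith [(abs_le.1 ht).2])]
  · rcases (Int.floor_mono hst).eq_or_lt with h | h
    · simp only [hϑ, Int.fract, h]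
      gcongr
      exact Real.smoothTransition.monotone (by linarith)
    · have h1 : (⌊s⌋ : ℝ) + 1 ≤ ⌊t⌋ := by exact_mod_cast h
      simp only [hϑ]
      linarith [Real.smoothTransition.le_one (2 * Int.fract s - 1 / 2),
        Real.smoothTransition.nonneg (2 * Int.fract t - 1 / 2)]

theorem Vt.add {ϑ : ℝ → ℝ} (h : Vt ϑ) (t : ℝ) (m : ℤ) : ϑ (t + m) = ϑ t + m := by
  induction m using Int.induction_on with
  | zero => simp
  | succ k ih => push_cast at ih ⊢; rw [← add_assoc, h.per, ih]; ring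
  | pred k ih =>
    push_cast at ih ⊢
    have := h.per (t + (-k - 1))
    rw [show t + (-(k : ℝ) - 1) + 1 = t + -k by ring, ih] at this
    linarith

/-! ### the assembly -/

theorem uo_mono {k : ℕ} {η η' : ℝ} (h : η ≤ η') : Uo k η' ⊆ Uo k η := fun _ hy z => h.trans_lt (hy z)

theorem sml_mono {k : ℕ} {η η' : ℝ} {u : E k → ℝ} (h : η ≤ η') (hu : Sml η u) : Sml η' u :=
  fun m hm y hy => (hu m ((mul_le_mul_of_nonneg_left h m.cast_nonneg).trans hm) y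
    (uo_mono h hy)).trans h

theorem flt_mono {k : ℕ} {X : Type} [Mf0 (k + 1) X] {g : Fld (k + 1) X} {f : X → ℝ}
    {Y : E (k + 1) → X} {η η₁ η₂ : ℝ} {A S : Set X} {w : E k → ℝ} (h : η₁ ≤ η₂)
    (H : Flt g f Y η A S w η₁) : Flt g f Y η A S w η₂ :=
  ⟨H.per, fun y hy => H.sm y (uo_mono h hy), fun y hy => H.mem y (uo_mono h hy),
    fun y hy => H.gr y (uo_mono h hy), fun i j => sml_mono h (H.gs i j), sml_mono h H.fs⟩

theorem uo_ne {k : ℕ} (hk : 1 ≤ k) : (Uo k (1 / 4)).Nonempty := by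
  refine ⟨WithLp.toLp 2 fun _ => 1 / 2, fun z => ?_⟩
  refine lt_of_lt_of_le ?_ (PiLp.norm_apply_le _ (⟨0, hk⟩ : Fin k))
  simp only [lat, PiLp.sub_apply, Real.norm_eq_abs]
  rcases le_or_gt (z ⟨0, hk⟩) 0 with h | h
  · have : (z ⟨0, hk⟩ : ℝ) ≤ 0 := by exact_mod_cast h
    linarith [le_abs_self (1 / 2 - (z ⟨0, hk⟩ : ℝ))]
  · have : (1 : ℝ) ≤ z ⟨0, hk⟩ := by exact_mod_cast h
    linarith [neg_abs_le (1 / 2 - (z ⟨0, hk⟩ : ℝ))]

theorem ana_all (h₁ : FAM) (h₂ : NUL) (h₃ : STR) (h₄ : FLT) (h₅ : PARM) (h₆ : STL) (h₇ : MCL)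
    (k : ℕ) (hk : 1 ≤ k) : ∃ θ > (0 : ℝ), ∀ η' > (0 : ℝ), ∃ η > (0 : ℝ),
    ∀ (X : Type) [Mf0 (k + 1) X] [CompactSpace X] (g : Fld (k + 1) X) (f : X → ℝ) (O : Set X)
      (h : X → ℝ) (Y : E (k + 1) → X), Dat g f O h Y η θ →
      ∃ (A S : Set X) (Z : Type) (_ : Mf0 k Z) (ι : Z → X) (v Λ : ℝ) (w : E k → ℝ),
        Lim g f A S ι v Λ ∧ Flt g f Y η A S w η' := by
  obtain ⟨ϑ, hϑ⟩ := exists_vt
  obtain ⟨θ, θ0, H₁⟩ := h₁ k ϑ hk hϑ
  obtain ⟨ε₀, ε0, ε1, H₃⟩ := h₃ k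
  obtain ⟨C, H₆⟩ := h₆
  refine ⟨θ, θ0, fun η' η0 => ?_⟩
  obtain ⟨ζ, ζ0, τ, τ0, η₁, η1, H₄⟩ := h₄ k ϑ hk hϑ ε₀ ε0 (min η' (1 / 4)) (by positivity)
  obtain ⟨η₂, η2, H₁⟩ := H₁ ζ ζ0
  refine ⟨min η₁ η₂, by positivity, fun X _ _ g f O h Y d => ?_⟩
  obtain ⟨v₀, v0, H₁⟩ := H₁ _ (by positivity) (min_le_right _ _) X g f O h Y d
  obtain ⟨S, S0, hS⟩ : ∃ S > (0 : ℝ), C / S ^ 2 < v₀ := by
    refine ⟨|C| / v₀ + 1, by positivity, ?_⟩
    rw [div_lt_iff₀ (by positivity)]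
    have h1 : v₀ * (|C| / v₀) = |C| := mul_div_cancel₀ _ v0.ne'
    have h2 : 0 ≤ |C| / v₀ := by positivity
    nlinarith [le_abs_self C, mul_nonneg v0.le (mul_nonneg h2 h2)]
  obtain ⟨F, rfl, ok, fl⟩ := H₁ S S0 τ τ0
  obtain ⟨w, hw⟩ := H₄ _ (by positivity) (min_le_left _ _) X ℕ F g f Y v₀ d.nr ok fl
  obtain ⟨y, hy⟩ := uo_ne hk
  have hy' := uo_mono (min_le_right η' _) hy
  obtain ⟨Z, _, ι, sub, par⟩ := h₅ k X (F.A \ F.Sg g f ε₀)
    ⟨_, (hw.gr y hy').self_of_nhds.2 (by rw [P366P.ini_snc]), (hw.mem y hy').2⟩ fun p hp => by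
      obtain ⟨e, φ, π, y₀, _, _, _, a, b, -⟩ := H₃ X ℕ F g f v₀ ok p hp
      exact ⟨e, φ, π, y₀, a, b⟩
  have rg : ∀ z, Rg (F.𝒰 : Filter ℕ) F.u F.S ι z := fun z => by
    obtain ⟨e, φ, π, y₀, r, Ψ, V, a, b, c⟩ := H₃ X ℕ F g f v₀ ok (ι z) (sub.rng ▸ mem_range_self z)
    obtain ⟨c', d1, d2⟩ := par e φ π y₀ a
    exact ⟨e, φ, π, y₀, r, Ψ, V, c, c', d1, sub.emb.injective (d2.self_of_nhds.trans b), d2⟩
  obtain ⟨Λ, hΛ⟩ := ok.dv_le (S := F.S)
  exact ⟨F.A, F.Sg g f ε₀, Z, inferInstance, ι, v₀ - C / F.S ^ 2, Λ, w,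
    ⟨(isClosed_La _ _).isCompact, isClosed_closure, h₂ k X ℕ F g f v₀ ε₀ ok ε0 ε1, sub,
      h₇ ℕ _ k X Z g ι _ F.u F.S Λ ok.met sub S0.le ((ok.slab S0.le).mono fun _ hi => ⟨hi.1, hi.2⟩) rg
        fun z => ⟨univ, univ_mem, hΛ.mono fun _ hi x _ => hi x⟩, sub_pos.2 hS,
      H₆ ℕ _ k X Z g f ι _ F.u F.S v₀ ok.met ok.smf sub S0 ((ok.slab S0.le).mono fun _ hi => ⟨hi.1, hi.2⟩) rg
        fun z => ⟨univ, univ_mem, ok.pos.mono fun _ hi x _ => hi x⟩⟩,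
    flt_mono (min_le_left _ _) hw⟩

theorem ana_of (h₁ : FAM) (h₂ : NUL) (h₃ : STR) (h₄ : FLT) (h₅ : PARM) (h₆ : STL) (h₇ : MCL) :
    ANA := fun k hk => by
  obtain ⟨θ, θ0, H⟩ := ana_all h₁ h₂ h₃ h₄ h₅ h₆ h₇ k (by omega)
  refine ⟨θ, θ0, fun η' η0 => ?_⟩
  obtain ⟨η, η1, H⟩ := H η' η0
  exact ⟨η, η1, fun X _ _ => H X⟩

theorem ana1_of (h₁ : FAM) (h₂ : NUL) (h₃ : STR) (h₄ : FLT) (h₅ : PARM) (h₆ : STL) (h₇ : MCL) :
    ANA1 := by
  obtain ⟨θ, θ0, H⟩ := ana_all h₁ h₂ h₃ h₄ h₅ h₆ h₇ 1 le_rfl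
  obtain ⟨η, η1, H⟩ := H 1 one_pos
  refine ⟨θ, θ0, η, η1, fun X _ _ g f O h Y d => ?_⟩
  obtain ⟨A, S, Z, _, ι, v, Λ, _, a, -⟩ := H X g f O h Y d
  exact ⟨A, S, Z, inferInstance, ι, v, Λ, a⟩

end Vale.Agent.P366M.An
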