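import Vale.Agent.P366C.Core
import Vale.Agent.P366P.Jac
import Vale.Agent.P272.K.LIN.Jet

/-!
# P366C: the capillary operator on jets; the Hölder estimate of the gradient
-/

open MeasureTheory Metric Filter Topology Set
open scoped ContDiff
open Vale.Agent.P366.Stmt Vale.Agent.P366Z Vale.Agent.P366Y Vale.Agent.P366Y.Cac
open Vale.Agent.P366P Vale.Agent.P366Y.C
open Vale.Agent.P272.K.LIN (Jet jet)

set_option maxSynthPendingDepth 3

noncomputable section

namespace Vale.Agent.P366C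

variable {n : ℕ} {G : Field n} {φ u v : E n → ℝ} {y : E n}

/-- points and covectors -/
abbrev Pq (n : ℕ) := E n × (E n →L[ℝ] ℝ)

/-- the components of the covector -/
def pq (q : Pq n) (i : Fin n) : ℝ := q.2 (EuclideanSpace.single i 1)

/-- the factor `W` -/
def wq (G : Field n) (q : Pq n) : ℝ := √(1 + ∑ i, ∑ j, up G i j q.1 * pq q i * pq q j)

/-- the normal -/
def nq (G : Field n) (i : Fin n) (q : Pq n) : ℝ := (∑ j, up G i j q.1 * pq q j) / wq G q

/-- the inverse of the metric of the graph -/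
def aq (G : Field n) (q : Pq n) : Mx n := fun i j => up G i j q.1 - nq G i q * nq G j q

/-- first derivatives -/
def j1 (k : Fin n) : Jet (E n) →L[ℝ] ℝ :=
  (ContinuousLinearMap.apply ℝ ℝ (EuclideanSpace.single k (1 : ℝ))).comp
    ((ContinuousLinearMap.fst ℝ _ _).comp (ContinuousLinearMap.snd ℝ _ _))

/-- second derivatives -/
def j2 (i j : Fin n) : Jet (E n) →L[ℝ] ℝ :=
  (ContinuousLinearMap.apply ℝ ℝ (EuclideanSpace.single j (1 : ℝ))).comp
    ((ContinuousLinearMap.apply ℝ (E n →L[ℝ] ℝ) (EuclideanSpace.single i (1 : ℝ))).comp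
      ((ContinuousLinearMap.snd ℝ _ _).comp (ContinuousLinearMap.snd ℝ _ _)))

/-- the operator -/
def Aq (G : Field n) (φ : E n → ℝ) (q : Pq n) : Jet (E n) →L[ℝ] ℝ := (wq G q)⁻¹ •
  (∑ i, ∑ j, aq G q i j • (j2 i j - ∑ k, chr G k i j q.1 • j1 k) +
    ∑ i, ∑ j, (up G i j q.1 * pd i φ q.1) • j1 j)

theorem Aq_apply (G : Field n) (φ : E n → ℝ) (q : Pq n) (J : Jet (E n)) : Aq G φ q J =
    (∑ i, ∑ j, aq G q i j * (J.2.2 (EuclideanSpace.single i 1) (EuclideanSpace.single j 1) -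
      ∑ k, chr G k i j q.1 * J.2.1 (EuclideanSpace.single k 1)) +
      ∑ i, ∑ j, up G i j q.1 * pd i φ q.1 * J.2.1 (EuclideanSpace.single j 1)) / wq G q := by
  simp [Aq, j1, j2, div_eq_inv_mul, mul_add]

theorem pq_eq (hu : DifferentiableAt ℝ u y) (i : Fin n) : pq (y, fderiv ℝ u y) i = pd i u y :=
  (pd_eq hu i).symm

theorem wq_eq (hu : DifferentiableAt ℝ u y) : wq G (y, fderiv ℝ u y) = ww G 1 u y := by
  simp [wq, ww, ip, pq_eq hu]

theorem nq_eq (hu : DifferentiableAt ℝ u y) (i : Fin n) : nq G i (y, fderiv ℝ u y) = nv G u i y := by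
  simp only [nq, wq_eq hu, pq_eq hu, nv, gr]

theorem aq_eq (hG : Met G) (hu : DifferentiableAt ℝ u y) (i j : Fin n) :
    aq G (y, fderiv ℝ u y) i j = up (C.gb G 1 u) i j y := by
  simp only [aq, nq_eq hu, up_g hG]

theorem Aq_eq (hG : Met G) (hu : DifferentiableAt ℝ u y) (hv : ContDiffAt ℝ 2 v y) :
    Aq G φ (y, fderiv ℝ u y) (jet v y) =
      (tr (C.gb G 1 u) (hess G v) y + ip G φ v y) / ww G 1 u y := by
  simp only [Aq_apply, jet, aq_eq hG hu, wq_eq hu, ← pd_pd_eq hv, ← pd_eq (diff2 hv), tr, hess, ip]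

theorem Aq_hw (hG : Met G) (hu : Smooth u) :
    Aq G φ (y, fderiv ℝ u y) (jet u y) = hw G φ u y := by
  rw [Aq_eq hG (hu.diff y) (hu.c2 y), hw_eq hG, dv_nv' hG hu, dn, hG.ip_sy φ, add_div]
  simp only [tr, sf, Finset.sum_div, mul_div_assoc]

theorem sm_pq (i : Fin n) : ContDiff ℝ ∞ fun q : Pq n => pq q i :=
  contDiff_snd.clm_apply contDiff_const

theorem sm_fst (h : Smooth φ) : ContDiff ℝ ∞ fun q : Pq n => φ q.1 := ContDiff.comp h contDiff_fst

theorem one_le_wq (hG : Met G) (q : Pq n) : 1 ≤ wq G q :=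
  Real.one_le_sqrt.2 (le_add_of_nonneg_right (hG.up_nonneg _ _))

theorem wq_pos (hG : Met G) (q : Pq n) : 0 < wq G q := one_pos.trans_le (one_le_wq hG q)

theorem sm_wq (hG : Met G) : ContDiff ℝ ∞ (wq G) :=
  ContDiff.sqrt (contDiff_const.add (ContDiff.sum fun i _ => ContDiff.sum fun j _ =>
    ((sm_fst (hG.sm_up i j)).mul (sm_pq i)).mul (sm_pq j))) fun _ =>
    (add_pos_of_pos_of_nonneg one_pos (hG.up_nonneg _ _)).ne'

theorem sm_nq (hG : Met G) (i : Fin n) : ContDiff ℝ ∞ (nq G i) :=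
  (ContDiff.sum fun j _ => (sm_fst (hG.sm_up i j)).mul (sm_pq j)).div (sm_wq hG)
    fun q => (wq_pos hG q).ne'

theorem sm_aq (hG : Met G) (i j : Fin n) : ContDiff ℝ ∞ fun q => aq G q i j :=
  (sm_fst (hG.sm_up i j)).sub ((sm_nq hG i).mul (sm_nq hG j))

theorem sm_Aq (hG : Met G) (hφ : Smooth φ) : ContDiff ℝ ∞ (Aq G φ) := by
  unfold Aq
  refine ((sm_wq hG).inv fun q => (wq_pos hG q).ne').smul (ContDiff.add ?_ ?_)
  · refine ContDiff.sum fun i _ => ContDiff.sum fun j _ => (sm_aq hG i j).smul ?_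
    refine contDiff_const.sub (ContDiff.sum fun k _ => ?_)
    exact (sm_fst (hG.sm_chr k i j)).smul contDiff_const
  · refine ContDiff.sum fun i _ => ContDiff.sum fun j _ => ?_
    exact ((sm_fst (hG.sm_up i j)).mul (sm_fst (hφ.pd i))).smul contDiff_const

theorem aq_lin (hG : Met G) (q : Pq n) (i j : Fin n) : aq G q i j = up (C.gb G 1 q.2) i j q.1 := by
  rw [← aq_eq hG q.2.differentiableAt, q.2.fderiv]

theorem aq_sy (hG : Met G) (q : Pq n) (i j : Fin n) : aq G q i j = aq G q j i := by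
  rw [aq, aq, hG.up_sy, mul_comm]

theorem aq_pos (hG : Met G) (q : Pq n) {ξ : Fin n → ℝ} (h : ξ ≠ 0) :
    0 < ∑ i, ∑ j, aq G q i j * ξ i * ξ j := by
  simp only [aq_lin hG]
  exact (met_g hG (f := q.2) q.2.contDiff).up_pos _ h

theorem Aq_ell (hG : Met G) (φ : E n → ℝ) (q : Pq n) : Aq G φ q (1, 0, 0) = 0 ∧
    ∀ ξ : E n →L[ℝ] ℝ, ξ ≠ 0 → 0 < Aq G φ q (0, 0, ξ.smulRight ξ) := by
  refine ⟨by simp [Aq_apply], fun ξ hξ => ?_⟩
  have := aq_pos hG q (ξ := fun i => ξ (EuclideanSpace.single i 1)) fun h => hξ (by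
    refine ContinuousLinearMap.ext fun w => ?_
    have h2 := fderiv_eq_sum (f := ξ) (x := 0) ξ.differentiableAt w
    simp only [pd_eq ξ.differentiableAt, ξ.fderiv] at h2
    rw [h2]
    exact Finset.sum_eq_zero fun i _ => mul_eq_zero_of_right _ (congrFun h i))
  simpa [Aq_apply, mul_assoc] using div_pos this (wq_pos hG q)

/-- uniform ellipticity on compact sets -/
theorem el_cpt {T : Type} [TopologicalSpace T] {K : Set T} (hK : IsCompact K) {a : T → Mx n}
    (hc : ∀ i j, Continuous fun t => a t i j) (hs : ∀ t i j, a t i j = a t j i)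
    (hp : ∀ t (ξ : Vc n), ξ ≠ 0 → 0 < ∑ i, ∑ j, a t i j * ξ i * ξ j) :
    ∃ Λ > (0 : ℝ), ∀ t ∈ K, El Λ (a t) := by
  obtain ⟨C₁, h1⟩ := hK.exists_bound_of_continuousOn
    (continuous_pi fun i => continuous_pi (hc i)).continuousOn
  obtain ⟨C₂, h2⟩ := (hK.prod (isCompact_sphere (0 : Vc n) 1)).exists_bound_of_continuousOn
    (f := fun p => e2 p.2 / ∑ i, ∑ j, a p.1 i j * p.2 i * p.2 j)
    (ContinuousOn.div (by unfold e2; fun_prop) (by fun_prop) fun p h =>
      (hp p.1 p.2 (ne_zero_of_mem_unit_sphere ⟨p.2, h.2⟩)).ne')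
  refine ⟨|C₁| + |C₂| + 1, by positivity, fun t ht => ⟨hs t, fun i j => ?_, fun ξ => ?_⟩⟩
  · have := ((norm_le_pi_norm (a t i) j).trans (norm_le_pi_norm (a t) i)).trans (h1 t ht)
    linarith [le_abs_self C₁, abs_nonneg C₂, Real.norm_eq_abs (a t i j)]
  rcases eq_or_ne ξ 0 with rfl | h
  · simp [e2]
  have n0 := norm_pos_iff.2 h
  have h3 := (le_abs_self _).trans (h2 (t, ‖ξ‖⁻¹ • ξ)
    ⟨ht, mem_sphere_zero_iff_norm.2 (norm_smul_inv_norm h)⟩)
  have e1 : e2 (‖ξ‖⁻¹ • ξ) = ‖ξ‖⁻¹ ^ 2 * e2 ξ := by simp [e2, Finset.mul_sum, mul_pow]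
  have e3 : ∑ i, ∑ j, a t i j * (‖ξ‖⁻¹ • ξ) i * (‖ξ‖⁻¹ • ξ) j =
      ‖ξ‖⁻¹ ^ 2 * ∑ i, ∑ j, a t i j * ξ i * ξ j := by
    simp only [Finset.mul_sum, Pi.smul_apply, smul_eq_mul]
    exact Finset.sum_congr rfl fun i _ => Finset.sum_congr rfl fun j _ => by ring
  have p := hp t ξ h
  simp only [e1, e3] at h3
  rw [mul_div_mul_left _ _ (by positivity), div_le_iff₀ p] at h3
  exact h3.trans (mul_le_mul_of_nonneg_right
    (by linarith [le_abs_self C₂, abs_nonneg C₁]) p.le)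

/-- **the Hölder estimate of the gradient** -/
theorem holc (hn : 2 ≤ n) (hG : Met G) (hφ : Smooth φ) (c : E n) {r : ℝ} (r0 : 0 < r) (D : ℝ) :
    ∃ θ > (0 : ℝ), ∀ α, 0 < α → α ≤ θ → ∃ K ≥ (0 : ℝ), ∀ u : E n → ℝ, Smooth u →
      (∀ y ∈ ball c (4 * r), ‖fderiv ℝ u y‖ ≤ D ∧ |hw G φ u y| ≤ D) →
      ∀ y ∈ closedBall c (3 * r), ∀ y' ∈ closedBall c (3 * r),
        ‖fderiv ℝ u y - fderiv ℝ u y'‖ ≤ K * ‖y - y'‖ ^ α := by
  have hK : IsCompact (closedBall c (4 * r) ×ˢ closedBall (0 : E n →L[ℝ] ℝ) D) :=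
    (isCompact_closedBall _ _).prod (isCompact_closedBall _ _)
  obtain ⟨Λ, Λ0, hΛ⟩ := el_cpt hK (fun i j => (sm_aq hG i j).continuous) (aq_sy hG)
    fun _ _ => aq_pos hG _
  have cw := (sm_wq hG).continuous
  have ca := fun i j => (sm_aq hG i j).continuous
  have cn := fun i => (sm_nq hG i).continuous
  have cp := fun i => (sm_pq (n := n) i).continuous
  have cc := fun k i j => (sm_fst (hG.sm_chr k i j)).continuous
  have cu := fun i j => (sm_fst (hG.sm_up i j)).continuous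
  have cf := fun i => (sm_fst (hφ.pd i)).continuous
  obtain ⟨B₁, b1⟩ := hK.exists_bound_of_continuousOn cw.continuousOn
  obtain ⟨B₂, b2⟩ := hK.exists_bound_of_continuousOn (f := fun q =>
    ∑ i, ∑ j, aq G q i j * ∑ k, chr G k i j q.1 * pq q k -
      ∑ i, ∑ j, up G i j q.1 * pd i φ q.1 * pq q j) (by fun_prop)
  obtain ⟨B₃, b3⟩ := hK.exists_bound_of_continuousOn (f := fun q i k =>
    ∑ m, chr G i k m q.1 * nq G m q + (wq G q)⁻¹ * ∑ j, aq G q i j * ∑ m, chr G m k j q.1 * pq q m)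
    (Continuous.continuousOn (continuous_pi fun i => continuous_pi fun k =>
      Continuous.add (by fun_prop) ((cw.inv₀ fun q => (wq_pos hG q).ne').mul (by fun_prop))))
  set D' := 1 + |D| + |B₁| * |D| + |B₂| + |B₃| with hD'
  have p1 : 0 ≤ |B₁| * |D| := by positivity
  have D0 : 0 ≤ D' := by positivity
  obtain ⟨θ, θ0, K, K0, H⟩ := core_loc hn Λ0 (e := (|B₁| + 1)⁻¹) (by positivity) D0
  set A := max 1 r⁻¹ with hA
  have A1 : 1 ≤ A := le_max_left _ _
  have A0 : 0 < A := by linarith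
  have A2 : 1 / A ≤ r := by
    rw [div_le_iff₀ A0, ← div_le_iff₀' r0, one_div]; exact le_max_right _ _
  refine ⟨θ, θ0, fun α α0 α1 => ⟨(n * K + 2 * |D|) * A ^ α, by positivity,
    fun u hu hb y hy y' hy' => ?_⟩⟩
  have sb : closedBall c (3 * r) ⊆ ball c (4 * r) := closedBall_subset_ball (by linarith)
  have q0 : 0 ≤ ‖y - y'‖ / (1 / A) := by positivity
  have e0 : (n * K + 2 * |D|) * A ^ α * ‖y - y'‖ ^ α =
      (n * K + 2 * |D|) * (‖y - y'‖ / (1 / A)) ^ α := by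
    rw [div_div_eq_mul_div, div_one, Real.mul_rpow (norm_nonneg _) A0.le]; ring
  have q1 := Real.rpow_nonneg q0 α
  have q2 : 0 ≤ n * K := by positivity
  rw [e0]
  rcases le_or_gt (1 / A) ‖y - y'‖ with far | near
  · have := Real.one_le_rpow ((one_le_div (by positivity)).2 far) α0.le
    nlinarith [norm_sub_le (fderiv ℝ u y) (fderiv ℝ u y'), (hb y (sb hy)).1, (hb y' (sb hy')).1,
      le_abs_self D, abs_nonneg D]
  have key := H A A1 u (nv G u) (fun x => aq G (x, fderiv ℝ u x)) (fun x => (ww G 1 u x)⁻¹) y' hu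
    (sm_nv hG hu) (fun x hx => ?_) y (by rwa [mem_ball, dist_eq_norm])
  · have h1 := Real.rpow_le_rpow_of_exponent_ge' q0 ((div_le_one (by positivity)).2 near.le)
      α0.le α1
    have h2 : ‖fderiv ℝ u y - fderiv ℝ u y'‖ ≤ n * (K * (‖y - y'‖ / (1 / A)) ^ α) := by
      refine ContinuousLinearMap.opNorm_le_bound _ (by positivity) fun ξ => ?_
      rw [sub_apply, fderiv_eq_sum (hu.diff y), fderiv_eq_sum (hu.diff y'),
        ← Finset.sum_sub_distrib]
      simp only [← mul_sub]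
      refine (sum1 (fun i => PiLp.norm_apply_le ξ i) fun i => (key i).trans
        (mul_le_mul_of_nonneg_left h1 K0.le)).trans_eq (by ring)
    nlinarith [mul_nonneg (abs_nonneg D) q1]
  have x1 : x ∈ ball c (4 * r) := by
    have := dist_triangle x y' c
    rw [mem_ball] at hx ⊢
    linarith [mem_closedBall.1 hy']
  have x2 : (x, fderiv ℝ u x) ∈ closedBall c (4 * r) ×ˢ closedBall (0 : E n →L[ℝ] ℝ) D :=
    ⟨ball_subset_closedBall x1, mem_closedBall_zero_iff.2 (hb x x1).1⟩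
  have du := hu.diff x
  have w0 := w_pos hG u x
  have w1 : ww G 1 u x ≤ |B₁| := by
    rw [← wq_eq du]; exact ((le_abs_self _).trans (b1 _ x2)).trans (le_abs_self _)
  refine ⟨hΛ _ x2, inv_anti₀ w0 (by linarith), (inv_le_one_of_one_le₀
    (GbH.one_le_ww hG 1 u x)).trans (by linarith [abs_nonneg D, abs_nonneg B₂, abs_nonneg B₃]),
    fun j => ((abs_pd_le du j).trans (hb x x1).1).trans
      (by linarith [le_abs_self D, abs_nonneg B₂, abs_nonneg B₃]), ?_, fun i k => ?_⟩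
  · have h1 := Aq_hw (φ := φ) (y := x) hG hu
    have h2 := b2 _ x2
    rw [Aq_apply, wq_eq du, div_eq_iff w0.ne'] at h1
    simp only [jet, ← pd_pd_eq (hu.c2 x), ← pd_eq du, mul_sub, Finset.sum_sub_distrib] at h1
    simp only [pq_eq du, Real.norm_eq_abs] at h2
    have h3 : |hw G φ u x * ww G 1 u x| ≤ |B₁| * |D| := by
      rw [abs_mul, abs_of_pos w0, mul_comm]
      exact mul_le_mul w1 ((hb x x1).2.trans (le_abs_self D)) (abs_nonneg _) (abs_nonneg _)
    rw [abs_le] at h2 h3 ⊢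
    simp only [pr2, D2]
    constructor <;> linarith [h2.1, h2.2, h3.1, h3.2, le_abs_self B₂, abs_nonneg D, abs_nonneg B₃]
  · have h1 := cd_nv hG hu i k x
    have h2 := (pi_norm_le_iff_of_nonneg ((norm_nonneg _).trans (b3 _ x2))).1
      ((pi_norm_le_iff_of_nonneg ((norm_nonneg _).trans (b3 _ x2))).1 (b3 _ x2) i) k
    simp only [pq_eq du, nq_eq du, wq_eq du, Real.norm_eq_abs] at h2
    simp only [cd, sf, hess, ← aq_eq hG du, ← mul_div_assoc, ← Finset.sum_div] at h1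
    simp only [mul_sub, Finset.sum_sub_distrib, div_eq_inv_mul] at h1
    have h3 : D' ≤ D' * A := le_mul_of_one_le_right D0 A1
    rw [abs_le] at h2 ⊢
    constructor <;> linarith [h2.1, h2.2, le_abs_self B₃, abs_nonneg D, abs_nonneg B₂]

end Vale.Agent.P366C
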