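import Vale.Agent.P366C.Qe0
import Vale.Agent.P272.K.R.Final

/-!
# P366C: smoothness of the solutions and bounds of the jets from bounds in the charts
-/

open scoped NNReal Topology ContDiff
open Filter Set Metric
open Vale.Agent.P272.K Vale.Agent.P272.K.LIN
open Vale.Agent.P272.K.R (HC hc_id hc_const linear_reg allCCE)

set_option maxSynthPendingDepth 3
set_option linter.unusedSectionVars false

noncomputable section

namespace Vale.Agent.P366C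

variable {E : Type} [NormedAddCommGroup E] [NormedSpace ℝ E] [FiniteDimensional ℝ E]
  {X : Type} [TopologicalSpace X] [ChartedSpace E X] [T2Space X] [CompactSpace X] [RSm E X]
  (𝒞 : Cov E X) {α β : ℝ}

theorem hc_two (h0 : 0 < β) (v : 𝒞.C2 β) (i : Fin 𝒞.N) :
    HC β (Bl 𝒞 i) 2 fun z => 𝒞.fn v ((𝒞.e i).symm z) := by
  obtain ⟨C, C0, hC⟩ := jc_bd 𝒞 h0
  have c : ∀ x ∈ Bl 𝒞 i, ContDiffAt ℝ 2 (fun z => 𝒞.fn v ((𝒞.e i).symm z)) x := fun x hx =>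
    (𝒞.fn_ck v).at_target (𝒞.mem i) (𝒞.sub' (by linarith [𝒞.r_pos i]) hx)
  refine ⟨fun x hx => (c x hx).differentiableAt (by norm_num), fun x hx =>
    ((c x hx).fderiv_right (m := 1) (by norm_num)).differentiableAt (by norm_num), fun x hx => ?_⟩
  obtain ⟨r, r0, hr⟩ := Metric.isOpen_iff.1 isOpen_ball x hx
  exact ⟨r, r0, hr, C * ‖v‖, by positivity, fun y hy z hz => ((norm_snd_le (jc 𝒞 i (𝒞.fn v) y -
    jc 𝒞 i (𝒞.fn v) z).2).trans (norm_snd_le _)).trans ((hC v i y (hr hy)).2 z (hr hz))⟩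

/-- solutions of equations with smooth coefficients are smooth -/
theorem sol_smooth (h0 : 0 < β) (h1 : β < 1) {A : Fin 𝒞.N → Ar E → Jet E →L[ℝ] ℝ}
    {R : Fin 𝒞.N → Ar E → ℝ} (hA : ∀ i, ContDiff ℝ ∞ (A i)) (hR : ∀ i, ContDiff ℝ ∞ (R i))
    (ell : ∀ i q, A i q (1, 0, 0) = 0 ∧ ∀ ξ : E →L[ℝ] ℝ, ξ ≠ 0 → 0 < A i q (0, 0, ξ.smulRight ξ))
    {l σ : ℝ} {v : 𝒞.C2 β} (hv : Sol 𝒞 A R l σ (𝒞.fn v)) : CkFn E ∞ (𝒞.fn v) := by
  refine ckFn_of_local le_rfl fun x => ⟨_, 𝒞.mem (idx 𝒞 x), (in_idx 𝒞 x).1, ?_⟩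
  refine ContDiffOn.contDiffAt ?_ (isOpen_ball.mem_nhds (in_idx 𝒞 x).2)
  generalize idx 𝒞 x = i
  have hU : IsOpen (Bl 𝒞 i) := isOpen_ball
  have h2 := hc_two 𝒞 h0 v i
  have c1 : ContDiff ℝ ∞ fun q : E × ℝ × (E →L[ℝ] ℝ) => A i (σ, q) :=
    (hA i).comp (contDiff_const.prodMk contDiff_id)
  have c2 : ContDiff ℝ ∞ fun q : E × ℝ × (E →L[ℝ] ℝ) => (A i (σ, q)).comp (i2 E) :=
    c1.clm_comp contDiff_const
  have c3 : ContDiff ℝ ∞ fun q : E × ℝ × (E →L[ℝ] ℝ) =>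
      A i (σ, q) (i1 E q.2.2) - l * q.2.1 - σ * R i (σ, q) :=
    ((c1.clm_apply ((i1 E).contDiff.comp (contDiff_snd.comp contDiff_snd))).sub
      (contDiff_const.mul (contDiff_fst.comp contDiff_snd))).sub
      (contDiff_const.mul ((hR i).comp (contDiff_const.prodMk contDiff_id)))
  have key : ∀ k, HC β (Bl 𝒞 i) (k + 2) fun z => 𝒞.fn v ((𝒞.e i).symm z) := fun k => by
    induction k with
    | zero => exact h2
    | succ k ih =>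
      have hj := (hc_id (k := k + 1) h1.le hU).prodMk h0 h1.le hU
        ((ih.of_succ h0 h1.le hU).prodMk h0 h1.le hU ih.2)
      refine linear_reg h0 h1.le (allCCE E h0 h1) hU (k + 1) (c := fun _ => 0)
        (HC.comp_smooth h0 h1.le hU isOpen_univ
          (fun y _ => c2.contDiffAt.of_le (by exact_mod_cast le_top)) hj fun _ _ => mem_univ _)
        (hc_const _ hU) (HC.comp_smooth h0 h1.le hU isOpen_univ
          (fun y _ => c3.contDiffAt.of_le (by exact_mod_cast le_top)) hj fun _ _ => mem_univ _)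
        (fun y _ ξ hξ => (ell i _).2 ξ hξ) h2 fun y hy => ?_
      have e1 := hv i y hy
      have e : jc 𝒞 i (𝒞.fn v) y = (jc 𝒞 i (𝒞.fn v) y).1 • (1, 0, 0) +
          (i2 E (jc 𝒞 i (𝒞.fn v) y).2.2 + i1 E (jc 𝒞 i (𝒞.fn v) y).2.1) := by
        refine Prod.ext ?_ (Prod.ext ?_ ?_) <;> simp [i1, i2]
      rw [e, map_add, map_smul, (ell i _).1, smul_zero, zero_add, map_add] at e1
      simp only [ar, jc, jet] at e1
      simp only [ContinuousLinearMap.comp_apply, zero_mul, add_zero]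
      linarith
  exact contDiffOn_infty.2 fun k =>
    (HC.mono h0 h1.le hU (Nat.le_add_right k 2) (key k)).contDiffOn h0 hU

theorem j1_bd (h0 : 0 < α) (h1 : α ≤ 1) (hβ : 0 < β) : ∃ C, ∀ (v : 𝒞.C2 β) (S : ℝ), 0 ≤ S →
    (∀ x, |𝒞.fn v x| ≤ S) → (∀ i, ∀ y ∈ closedBall (𝒞.c i) (3 * 𝒞.r i),
      ‖fderiv ℝ (fun z => 𝒞.fn v ((𝒞.e i).symm z)) y‖ ≤ S ∧
      ∀ y' ∈ closedBall (𝒞.c i) (3 * 𝒞.r i), ‖fderiv ℝ (fun z => 𝒞.fn v ((𝒞.e i).symm z)) y -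
        fderiv ℝ (fun z => 𝒞.fn v ((𝒞.e i).symm z)) y'‖ ≤ S * ‖y - y'‖ ^ α) →
    ‖J1 𝒞 h0 h1 hβ v‖ ≤ C * S := by
  obtain ⟨L, L0, hL⟩ := 𝒞.exists_lip_const (V := ℝ)
  choose D D0 hD using fun i => 𝒞.chart_lip (𝒞.mem i)
    ((isCompact_closedBall (𝒞.c i) (3 * 𝒞.r i)).image_of_continuousOn
      ((𝒞.e i).continuousOn_symm.mono (𝒞.sub i)))
    (by rintro _ ⟨y, hy, rfl⟩; exact (𝒞.e i).map_target (𝒞.sub i hy))
  obtain ⟨K, K0, hK⟩ := Cov.exists_le_all D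
  have p1 : 0 ≤ 𝒞.D ^ (1 - α) := Real.rpow_nonneg 𝒞.D_nonneg _
  have p2 : 0 ≤ K ^ α := Real.rpow_nonneg K0 _
  refine ⟨1 + ((1 + L) * 𝒞.D ^ (1 - α) + K ^ α), fun v S S0 b0 b1 => ?_⟩
  set F : Fin 𝒞.N → E → E →L[ℝ] ℝ := fun i => fderiv ℝ fun z => 𝒞.fn v ((𝒞.e i).symm z) with hF
  have e : ∀ x i, (j1f 𝒞 (𝒞.fn v) x).2 i = 𝒞.η i x • F i (𝒞.e i x) := fun x i => rfl
  have m : ∀ i x, 𝒞.η i x ≠ 0 → 𝒞.e i x ∈ closedBall (𝒞.c i) (3 * 𝒞.r i) := fun i x h =>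
    ball_subset_closedBall (𝒞.η_ne_zero h).2
  have k0 : ∀ i x y, |𝒞.η i x - 𝒞.η i y| * S ≤ 𝒞.D ^ (1 - α) * 𝒞.w α x y * S := fun i x y =>
    mul_le_mul_of_nonneg_right (((le_add_of_nonneg_left (norm_nonneg _)).trans
      (𝒞.term_le_d i x y)).trans (𝒞.lip_le_w h0 h1 x y)) S0
  have k1 : ∀ i x y, 𝒞.η i y = 0 → ‖𝒞.η i x • F i (𝒞.e i x)‖ ≤ |𝒞.η i x - 𝒞.η i y| * S :=
    fun i x y h => by
      rw [h, sub_zero, norm_smul, Real.norm_eq_abs]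
      by_cases hx : 𝒞.η i x = 0
      · simp [hx]
      · exact mul_le_mul_of_nonneg_left (b1 i _ (m i x hx)).1 (abs_nonneg _)
  rw [add_mul, one_mul]
  refine Hol.norm_le_of S0 (by positivity) (fun x => ?_) fun x y => ?_
  · refine norm_prod_le_iff.2 ⟨b0 x, (pi_norm_le_iff_of_nonneg S0).2 fun i => ?_⟩
    rw [J1_apply, e, norm_smul, Real.norm_eq_abs]
    by_cases hx : 𝒞.η i x = 0
    · simpa [hx] using S0
    · exact (mul_le_of_le_one_left (norm_nonneg _) (𝒞.abs_η_le i x)).trans (b1 i _ (m i x hx)).1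
  have w0 : (0 : ℝ) ≤ 𝒞.w α x y := NNReal.coe_nonneg _
  have q1 : 0 ≤ 𝒞.D ^ (1 - α) * 𝒞.w α x y * S := by positivity
  have q2 : 0 ≤ K ^ α * 𝒞.w α x y * S := by positivity
  have q3 := mul_nonneg L0 q1
  refine norm_prod_le_iff.2 ⟨?_, (pi_norm_le_iff_of_nonneg (by positivity)).2 fun i => ?_⟩
  · have h2 := hL (𝒞.fn v) S S S0 S0 b0 (fun i y hy => ⟨((𝒞.fn_ck v).at_target (𝒞.mem i)
      (𝒞.sub' (by linarith [𝒞.r_pos i]) hy)).differentiableAt (by norm_num),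
      (b1 i y ((ball_subset_closedBall.trans (closedBall_subset_closedBall
        (by linarith [𝒞.r_pos i]))) hy)).1⟩) x y
    have h3 := mul_le_mul_of_nonneg_left (𝒞.lip_le_w h0 h1 x y) (show 0 ≤ S + L * S by positivity)
    exact h2.trans (h3.trans (by nlinarith))
  show ‖(j1f 𝒞 (𝒞.fn v) x).2 i - (j1f 𝒞 (𝒞.fn v) y).2 i‖ ≤ _
  rw [e, e]
  by_cases hy : 𝒞.η i y = 0
  · have := (k1 i x y hy).trans (k0 i x y)
    rw [hy, zero_smul, sub_zero]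
    nlinarith
  by_cases hx : 𝒞.η i x = 0
  · have := k1 i y x hx
    rw [abs_sub_comm] at this
    rw [hx, zero_smul, zero_sub, norm_neg]
    nlinarith [k0 i x y]
  have h2 : 𝒞.η i x • F i (𝒞.e i x) - 𝒞.η i y • F i (𝒞.e i y) =
      (𝒞.η i x - 𝒞.η i y) • F i (𝒞.e i x) + 𝒞.η i y • (F i (𝒞.e i x) - F i (𝒞.e i y)) := by
    rw [sub_smul, smul_sub]; abel
  have h3 := Real.rpow_le_rpow (norm_nonneg _) ((hD i x ⟨_, m i x hx, (𝒞.e i).left_inv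
    (𝒞.η_ne_zero hx).1⟩ y ⟨_, m i y hy, (𝒞.e i).left_inv (𝒞.η_ne_zero hy).1⟩).trans
    (mul_le_mul_of_nonneg_right (hK i) (𝒞.d_nonneg x y))) h0.le
  rw [Real.mul_rpow K0 (𝒞.d_nonneg x y), ← 𝒞.coe_w] at h3
  have h4 := ((b1 i _ (m i x hx)).2 _ (m i y hy)).trans (mul_le_mul_of_nonneg_left h3 S0)
  have h5 := (mul_le_mul_of_nonneg_left (b1 i _ (m i x hx)).1
    (abs_nonneg (𝒞.η i x - 𝒞.η i y))).trans (k0 i x y)
  have h6 := (mul_le_of_le_one_left (norm_nonneg _) (𝒞.abs_η_le i y)).trans h4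
  rw [h2]
  refine (norm_add_le _ _).trans ?_
  rw [norm_smul, norm_smul, Real.norm_eq_abs, Real.norm_eq_abs]
  nlinarith

end Vale.Agent.P366C
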