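import Vale.Agent.P366C.Grd
import Vale.Agent.P366C.Trc
import Vale.Agent.P366C.CapE
import Vale.Agent.P366C.Qe1
import Vale.Agent.P366M.Calc2

/-!
# P366C: existence of twisted capillary graphs
-/

open MeasureTheory Metric Filter Topology Set
open scoped ContDiff
open Vale.Agent.P366 hiding E
open Vale.Agent.P366.Stmt Vale.Agent.P366Z
open Vale.Agent.P366M.Gr Vale.Agent.P366M.Y.C
open Vale.Agent.P272.K.LIN (Jet jet RSm CkFn Cov)
open Vale.Agent.P366C (Aq Ar ar jc Sol Bl In qe0 J1 sol_smooth j1_bd holc)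

set_option maxSynthPendingDepth 3

noncomputable section

namespace Vale.Agent.P366M.An

variable {n : ℕ} {X : Type} [Mf0 n X] {Θ θ θ' : X → ℝ} {U U' : Set X} {x : X}
  {g : Fld n X} {f u u' v v' a b : X → ℝ} {l : ℝ} {e : Ch n X} {y : E n}

theorem rsm : RSm (E n) X :=
  ⟨fun e he e' he' _ hx hx' => Mf0.trans e he e' he' _ (by rwa [e.left_inv hx])⟩

attribute [local instance] rsm

theorem cd_of_ck {k : WithTop ℕ∞} (hk : k ≤ ∞) (h : CkFn (E n) k u) : CD k u :=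
  cd_of_cAt hk fun x => h _ (chart_mem_atlas _ x) x (mem_ch x)

/-- the linearized operator -/
def Lm (g : Fld n X) (f u v : X → ℝ) (x : X) : ℝ :=
  (tr (gb g 1 u) (hess g v) x + ip g f v x) / ww g 1 u x

theorem Aq_rep (hg : Met g) (he : e ∈ At X) (hf : Smooth f) (hu : ∀ x, DAt u x)
    (hv : CAt 2 v (e.symm y)) : Aq (rep e g) (loc e f) (y, fderiv ℝ (loc e u) y)
      (jet (loc e v) y) = Lm g f u v (e.symm y) := by
  have h1 := tr_rep he (gb g 1 u) (hess g v) y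
  have h2 := congrFun (loc_ww he g 1 hu) y
  rw [rep_gb he g 1 hu] at h1
  unfold Stmt.tr at h1
  rw [← hess_rep hg he hv] at h1
  rw [P366C.Aq_eq (hg.rep he) ((hu _).lc he) (hv.lc two_le_oo he), ip_rep he g (hf.diff _)
    (diff2 hv), Lm, ← h1, ← loc_apply (ww g 1 u), h2]
  rfl

theorem Lm_self (hg : Met g) (hf : Smooth f) (hu : Smooth u) (x : X) :
    Lm g f u u x = hw g f u x := by
  have h := Aq_rep (y := pt x) hg (ch_mem x) hf hu.diff (hu.c2 _)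
  rw [P366C.Aq_hw (hg.loc' x) (hu _ (ch_mem x)), ← loc_hw hg (ch_mem x) hf hu, loc_pt,
    symm_pt] at h
  exact h.symm

theorem Lm_congr {c c' : ℝ} (h : u' =ᶠ[𝓝 x] fun y => u y + c) (h' : v' =ᶠ[𝓝 x] fun y => v y + c') :
    Lm g f u' v' x = Lm g f u v x := by
  have h1 := (gb_congr (g := g) h).self_of_nhds
  have h2 := (ww_congr (g := g) h).self_of_nhds
  rw [gb_add] at h1
  rw [ww_add] at h2
  simp only [Lm, tr, up, mat, h1, h2, hess_congr h', hess_add_const, ip, pd_congr h', pd_add_const]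

theorem Lm_sub (hv : CAt 2 v x) (hv' : CAt 2 v' x) (c : ℝ) :
    Lm g f u (fun y => v y - c * v' y) x = Lm g f u v x - c * Lm g f u v' x := by
  simp only [Lm, tr, ip, hess_sub hv (cAt_const.mul hv'), hess_const_mul,
    pd_sub (diff2 hv) ((diff2 hv').const_mul c), pd_const_mul, mul_sub, Finset.sum_sub_distrib,
    mul_left_comm _ c, ← Finset.mul_sum]
  ring

/-- the bound of the solutions -/
def SUP : Prop := ∀ (n : ℕ) (X : Type) [Mf0 n X] [CompactSpace X] (g : Fld n X) (f Θ : X → ℝ)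
  (L B ε : ℝ), ∃ C, ∀ (a b : X → ℝ) (s : ℝ → ℝ) (l : ℝ) (z : X → ℝ), Cq g f Θ a b s ε →
    Smooth z → |l| ≤ L → (∀ x, |a x| ≤ B) → (∀ x, |b x| ≤ B) →
    (Cap g f Θ l z fun x => ε * z x + a x * s (z x) + b x) → ∀ x, |z x| ≤ C

theorem exists_bd [CompactSpace X] (h : Continuous u) : ∃ C ≥ (0 : ℝ), ∀ x, |u x| ≤ C := by
  obtain ⟨C, hC⟩ := isCompact_univ.exists_bound_of_continuousOn h.continuousOn
  exact ⟨|C|, abs_nonneg _, fun x => (hC x trivial).trans (le_abs_self _)⟩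

theorem capx_of (hS : SUP) : CAPX := by
  intro n hn X _ _ g f Θ a b s ε l h
  obtain ⟨θ₀, U₀, H₀⟩ := exists_lift h.cir
  have hr : ∀ x : X, ∃ r > (0 : ℝ), ∀ y ∈ ball (pt x) (4 * r), (ch x).symm y ∈ U₀ x := fun x => by
    obtain ⟨r, r0, hr⟩ := Metric.eventually_nhds_iff_ball.1
      (ev_pt.1 ((H₀ x).1.opn.eventually_mem (H₀ x).2))
    exact ⟨r / 4, by positivity, fun y hy => hr y (by rwa [mul_div_cancel₀ _ four_ne_zero] at hy)⟩
  choose r r0 hr using hr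
  obtain ⟨𝒞, p, hp⟩ := Cov.exists_cov (E n) X ch (chart_mem_atlas _) mem_ch r r0
    fun x y _ => mem_tgt (ch_mem x) y
  obtain ⟨θ, U, H, hU⟩ : ∃ (θ : Fin 𝒞.N → X → ℝ) (U : Fin 𝒞.N → Set X),
      (∀ i, Lft Θ (θ i) (U i)) ∧ ∀ i, ∀ y ∈ ball (𝒞.c i) (4 * 𝒞.r i), (𝒞.e i).symm y ∈ U i :=
    ⟨fun i => θ₀ (p i), fun i => U₀ (p i), fun i => (H₀ _).1, fun i y hy => by
      rw [(hp i).1]; rw [(hp i).2.1, (hp i).2.2] at hy; exact hr _ y hy⟩
  clear hp hr r0 H₀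
  have he : ∀ i, 𝒞.e i ∈ At X := fun i => mem_At (𝒞.mem i)
  have hg := h.met
  have hf := h.smf
  have sb : ∀ i, Bl 𝒞 i ⊆ ball (𝒞.c i) (4 * 𝒞.r i) := fun i =>
    ball_subset_ball (by linarith [𝒞.r_pos i])
  have iU : ∀ i x, In 𝒞 i x → x ∈ U i := fun i x k => by
    have := hU i _ (sb i k.2); rwa [(𝒞.e i).left_inv k.1] at this
  let A : Fin 𝒞.N → Ar (E n) → Jet (E n) →L[ℝ] ℝ := fun i q => Aq (rep (𝒞.e i) g) (loc (𝒞.e i) f)
    (q.2.1, q.2.2.2 - (q.1 * l) • fderiv ℝ (loc (𝒞.e i) (θ i)) q.2.1)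
  let R : Fin 𝒞.N → Ar (E n) → ℝ := fun i q => l * A i q (jet (loc (𝒞.e i) (θ i)) q.2.1) +
    loc (𝒞.e i) a q.2.1 * s q.2.2.1 + loc (𝒞.e i) b q.2.1
  have sθ : ∀ i, ContDiff ℝ ∞ (loc (𝒞.e i) (θ i)) := fun i => (H i).sm _ (he i)
  have dθ : ∀ i, ContDiff ℝ ∞ (fderiv ℝ (loc (𝒞.e i) (θ i))) := fun i =>
    (sθ i).fderiv_right (by simp)
  have c1 : ContDiff ℝ ∞ fun q : Ar (E n) => q.2.1 := contDiff_snd.fst
  have hA : ∀ i, ContDiff ℝ ∞ (A i) := fun i => (P366C.sm_Aq (hg.rep (he i)) (hf _ (he i))).comp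
    (c1.prodMk (contDiff_snd.snd.snd.sub ((contDiff_fst.mul contDiff_const).smul
      ((dθ i).comp c1))))
  have hR : ∀ i, ContDiff ℝ ∞ (R i) := fun i => ((contDiff_const.mul ((hA i).clm_apply
    (((sθ i).prodMk ((dθ i).prodMk ((dθ i).fderiv_right (by simp)))).comp c1))).add
      (((h.sma _ (he i)).comp c1).mul (h.sms.comp contDiff_snd.snd.fst))).add
        ((h.smb _ (he i)).comp c1)
  have ell : ∀ i q, A i q (1, 0, 0) = 0 ∧ ∀ ξ : E n →L[ℝ] ℝ, ξ ≠ 0 →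
      0 < A i q (0, 0, ξ.smulRight ξ) := fun i q => P366C.Aq_ell (hg.rep (he i)) _ _
  have eD : ∀ σ w i y, CD 2 w → fderiv ℝ (loc (𝒞.e i) fun x => w x - σ * l * θ i x) y =
      fderiv ℝ (loc (𝒞.e i) w) y - (σ * l) • fderiv ℝ (loc (𝒞.e i) (θ i)) y := fun σ w i y hw =>
    (((hw.differentiable (by simp) _).lc (he i)).hasFDerivAt.sub
      ((((H i).sm.diff _).lc (he i)).hasFDerivAt.const_mul (σ * l))).fderiv
  have eA : ∀ σ w v i y, CD 2 w → CAt 2 v ((𝒞.e i).symm y) → A i (ar 𝒞 σ w i y)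
      (jet (loc (𝒞.e i) v) y) = Lm g f (fun x => w x - σ * l * θ i x) v ((𝒞.e i).symm y) := by
    intro σ w v i y hw hv
    rw [← Aq_rep hg (he i) hf (fun x => (hw.differentiable (by simp) x).sub
      (((H i).sm.diff x).const_mul _)) hv, eD σ w i y hw]
    rfl
  have eR : ∀ σ w i y, CD 2 w → R i (ar 𝒞 σ w i y) = l * Lm g f (fun x => w x - σ * l * θ i x)
      (θ i) ((𝒞.e i).symm y) + a ((𝒞.e i).symm y) * s (w ((𝒞.e i).symm y)) +
        b ((𝒞.e i).symm y) := fun σ w i y hw => by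
    rw [← eA σ w (θ i) i y hw ((H i).sm.c2 _)]; rfl
  have eS : ∀ σ v, Smooth v → Sol 𝒞 A R ε σ v → Cap g f Θ (σ * l) v
      fun x => ε * v x + σ * a x * s (v x) + σ * b x := fun σ v hv k => cap_of fun x => by
    obtain ⟨i, hi⟩ : ∃ i, In 𝒞 i x := ⟨_, P366C.in_idx 𝒞 x⟩
    refine ⟨θ i, U i, H i, iU i x hi, ?_⟩
    have k1 := k i _ hi.2
    have k2 := eA σ v v i (𝒞.e i x) hv.two (hv.c2 _)
    rw [eR σ v i _ hv.two, show jc 𝒞 i v = jet (loc (𝒞.e i) v) from rfl, k2,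
      (𝒞.e i).left_inv hi.1] at k1
    rw [← Lm_self hg hf (CD.sub hv (CD.mul cd_const (H i).sm)), Lm_sub (hv.c2 x) ((H i).sm.c2 x)]
    linarith
  obtain ⟨Ba, Ba0, ba⟩ := exists_bd h.sma.cont
  obtain ⟨Bb, Bb0, bb⟩ := exists_bd h.smb.cont
  obtain ⟨Ga, Ga0, ga⟩ := exists_bd (hg.cont_gn h.sma.one)
  obtain ⟨Gb, Gb0, gb'⟩ := exists_bd (hg.cont_gn h.smb.one)
  obtain ⟨C₀, s0⟩ := hS n X g f Θ |l| (Ba + Bb) ε
  obtain ⟨C₁, s1⟩ := grd n X g f Θ
  obtain ⟨C₂, C2, s2⟩ := h.cir.gn_le hg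
  choose L L0 hL using fun i => Lip2H.fderiv_cpt (hg.rep (he i))
    (isCompact_closedBall (𝒞.c i) (4 * 𝒞.r i))
  obtain ⟨L', L1, hL'⟩ := Cov.exists_le_all L
  choose T T0 hT using fun i => exists_bd (sm_hw hg hf (H i).sm).cont
  obtain ⟨T', T1, hT'⟩ := Cov.exists_le_all T
  have ε0 := h.ε0
  obtain ⟨W, hW⟩ : ∃ W, W = |C₁| * (1 + |l| + (1 + (Ga + Gb)) / ε) := ⟨_, rfl⟩
  have W0 : 0 ≤ W := by rw [hW]; positivity
  have q0 : 0 ≤ ε * |C₀| := by positivity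
  obtain ⟨W', hW'⟩ : ∃ W', W' = W + C₂ + T' + ε * |C₀| + Ba + Bb := ⟨_, rfl⟩
  have W1 : 0 ≤ W' := by rw [hW']; positivity
  choose γ γ0 hγ using fun i => holc hn (hg.rep (he i)) (hf _ (he i)) (𝒞.c i) (𝒞.r_pos i)
    ((L' + 1) * W')
  obtain ⟨Γ, Γ0, hΓ⟩ := Cov.exists_le_all fun i => (γ i)⁻¹
  have α0 : 0 < (Γ + 1)⁻¹ := by positivity
  have α1 : (Γ + 1)⁻¹ ≤ 1 := inv_le_one_of_one_le₀ (by linarith)
  have α2 : ∀ i, (Γ + 1)⁻¹ ≤ γ i := fun i => inv_le_of_inv_le₀ (γ0 i) (by linarith [hΓ i])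
  generalize (Γ + 1)⁻¹ = α at α0 α1 α2
  choose K K0 hK using fun i => hγ i α α0 (α2 i)
  obtain ⟨K', K1, hK'⟩ := Cov.exists_le_all K
  obtain ⟨S, hS'⟩ : ∃ S, S = (L' + 1) * W' + K' := ⟨_, rfl⟩
  have q1 : 0 ≤ (L' + 1) * W' := by positivity
  have key : ∀ i u, Smooth u → (∀ x ∈ U i, gn g u x ≤ W' ∧ |hw g f u x| ≤ W') →
      ∀ y ∈ closedBall (𝒞.c i) (3 * 𝒞.r i), ‖fderiv ℝ (loc (𝒞.e i) u) y‖ ≤ S ∧
        ∀ y' ∈ closedBall (𝒞.c i) (3 * 𝒞.r i), ‖fderiv ℝ (loc (𝒞.e i) u) y -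
          fderiv ℝ (loc (𝒞.e i) u) y'‖ ≤ S * ‖y - y'‖ ^ α := fun i u hu k y hy => by
    have k1 : ∀ y ∈ ball (𝒞.c i) (4 * 𝒞.r i), ‖fderiv ℝ (loc (𝒞.e i) u) y‖ ≤ (L' + 1) * W' ∧
        |P366P.hw (rep (𝒞.e i) g) (loc (𝒞.e i) f) (loc (𝒞.e i) u) y| ≤ (L' + 1) * W' :=
      fun y hy => by
        have k2 := hL i y (ball_subset_closedBall hy) _ ((hu.diff _).lc (he i))
        rw [gn_rep (he i) g (hu.diff _)] at k2
        rw [← loc_hw hg (he i) hf hu]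
        exact ⟨k2.trans (mul_le_mul (by linarith [hL' i]) (k _ (hU i y hy)).1 (gn_nonneg _ _ _)
          (by linarith)), (k _ (hU i y hy)).2.trans (le_mul_of_one_le_left W1 (by linarith))⟩
    exact ⟨(k1 y (closedBall_subset_ball (by linarith [𝒞.r_pos i]) hy)).1.trans (by linarith),
      fun y' hy' => (hK i _ (hu _ (he i)) k1 y hy y' hy').trans (mul_le_mul_of_nonneg_right
        (by linarith [hK' i]) (Real.rpow_nonneg (norm_nonneg _) _))⟩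
  have kθ := fun i => key i _ (H i).sm fun x hx => ⟨by linarith [s2 _ _ (H i) x hx],
    by linarith [hT i x, hT' i]⟩
  have β0 := half_pos α0
  have β1 : α / 2 < 1 := by linarith
  obtain ⟨C₃, s3⟩ := j1_bd 𝒞 α0 α1 β0
  have S0 : 0 ≤ S := by rw [hS']; positivity
  have l0 := abs_nonneg l
  have q2 : 0 ≤ |l| * S := by positivity
  refine (qe0 𝒞 β0 (half_lt_self α0) α1 (A := A) (R := R)
    (fun i => (hA i).of_le one_le_oo) (fun i => (hR i).of_le one_le_oo) ell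
    (fun σ w v hw hv i k x hi hk => ?_) (fun σ w hw i k x hi hk => ?_) ε0
    (M₀ := C₃ * (|C₀| + (S + |l| * S))) fun σ hσ v hv => ?_).elim fun v hv => ?_
  rotate_right
  · have sv := cd_of_ck le_rfl (sol_smooth 𝒞 β0 β1 hA hR ell hv)
    exact ⟨_, sv, by simpa using eS 1 _ sv hv⟩
  · have w2 := cd_of_ck two_le_oo hw
    have v2 := cd_of_ck two_le_oo hv
    obtain ⟨c, hc⟩ := (H k).br_ev (H i) (iU k x hk) (iU i x hi) w (σ * l)
    refine (eA σ w v i _ w2 v2.contDiffAt).trans (.trans ?_ (eA σ w v k _ w2 v2.contDiffAt).symm)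
    rw [(𝒞.e i).left_inv hi.1, (𝒞.e k).left_inv hk.1]
    exact Lm_congr (c' := 0) hc (.of_forall fun _ => (add_zero _).symm)
  · have w2 := cd_of_ck two_le_oo hw
    obtain ⟨c, hc⟩ := (H k).br_ev (H i) (iU k x hk) (iU i x hi) w (σ * l)
    obtain ⟨m, hm⟩ := (H k).ev (H i) (iU k x hk) (iU i x hi)
    refine (eR σ w i _ w2).trans (.trans ?_ (eR σ w k _ w2).symm)
    rw [(𝒞.e i).left_inv hi.1, (𝒞.e k).left_inv hk.1, Lm_congr hc hm]
  have sv : Smooth (𝒞.fn v) := cd_of_ck le_rfl (sol_smooth 𝒞 β0 β1 hA hR ell hv)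
  have cv := eS σ _ sv hv
  generalize hz : 𝒞.fn v = z at sv cv
  have cq : Cq g f Θ (fun x => σ * a x) (fun x => σ * b x) s ε := ⟨hg, hf, h.cir,
    CD.mul cd_const h.sma, CD.mul cd_const h.smb, fun x => mul_nonneg hσ.1 (h.a0 x), h.sms,
    h.mono, h.s1, ε0⟩
  have σ1 : ∀ t : ℝ, |σ * t| ≤ |t| := fun t => by
    rw [abs_mul, abs_of_nonneg hσ.1]; exact mul_le_of_le_one_left (abs_nonneg _) hσ.2
  have σ2 : ∀ (w : X → ℝ) x, gn g (fun y => σ * w y) x ≤ |gn g w x| := fun w x => by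
    refine le_trans (Real.sqrt_le_sqrt ?_) (le_abs_self _)
    have : ip g (fun y => σ * w y) (fun y => σ * w y) x = σ ^ 2 * ip g w w x := by
      simp only [ip, pd_const_mul, Finset.mul_sum]
      exact Finset.sum_congr rfl fun _ _ => Finset.sum_congr rfl fun _ _ => by ring
    rw [this]
    exact mul_le_of_le_one_left (hg.ip_nonneg w x) (pow_le_one₀ hσ.1 hσ.2)
  have z0 : ∀ x, |z x| ≤ |C₀| := fun x => (s0 _ _ s _ z cq sv (σ1 l)
    (fun x => by linarith [σ1 (a x), ba x]) (fun x => by linarith [σ1 (b x), bb x]) cv x).trans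
      (le_abs_self _)
  have k0 : ∀ i, ∀ x ∈ U i, gn g (fun y => z y - σ * l * θ i y) x ≤ W' ∧
      |hw g f (fun y => z y - σ * l * θ i y) x| ≤ W' := fun i x hx => by
    constructor
    · have k1 := s1 _ _ s ε _ (Ga + Gb) z cq sv (fun x => by linarith [σ2 a x, ga x])
        (fun x => by linarith [σ2 b x, gb' x]) cv _ _ (H i) x hx
      have k2 : 0 ≤ (1 + (Ga + Gb)) / ε := by positivity
      have k3 := mul_le_mul (le_abs_self C₁) (show 1 + |σ * l| + (1 + (Ga + Gb)) / ε ≤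
        1 + |l| + (1 + (Ga + Gb)) / ε by linarith [σ1 l]) (by positivity) (abs_nonneg _)
      linarith [gn_le_w hg (fun y => z y - σ * l * θ i y) x]
    · rw [cv _ _ (H i) x hx]
      have k1 : |ε * z x| ≤ ε * |C₀| := by
        rw [abs_mul, abs_of_pos ε0]; exact mul_le_mul_of_nonneg_left (z0 x) ε0.le
      have k2 : |σ * a x * s (z x)| ≤ Ba := by
        rw [abs_mul]
        exact (mul_le_of_le_one_right (abs_nonneg _) (h.s1 _)).trans ((σ1 _).trans (ba x))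
      linarith [abs_add_three (ε * z x) (σ * a x * s (z x)) (σ * b x), σ1 (b x), bb x]
  have ku := fun i => key i _ (CD.sub sv (CD.mul cd_const (H i).sm)) (k0 i)
  refine s3 v _ (by positivity) (fun x => by rw [hz]; linarith [z0 x]) fun i y hy => ?_
  have e1 : ∀ y, fderiv ℝ (fun y' => 𝒞.fn v ((𝒞.e i).symm y')) y =
      fderiv ℝ (loc (𝒞.e i) fun x => z x - σ * l * θ i x) y +
        (σ * l) • fderiv ℝ (loc (𝒞.e i) (θ i)) y := fun y => by
    rw [eD σ z i y sv.two, sub_add_cancel, hz]; rfl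
  have e2 : ∀ P Q : E n →L[ℝ] ℝ, ∀ t, 0 ≤ t → ‖P‖ ≤ S * t → ‖Q‖ ≤ S * t →
      ‖P + (σ * l) • Q‖ ≤ (|C₀| + (S + |l| * S)) * t := fun P Q t t0 k1 k2 => by
    have := mul_le_mul (σ1 l) k2 (norm_nonneg _) l0
    have := norm_add_le P ((σ * l) • Q)
    rw [norm_smul, Real.norm_eq_abs] at this
    nlinarith [mul_nonneg (abs_nonneg C₀) t0]
  simp only [e1]
  refine ⟨(e2 _ _ 1 one_pos.le ((ku i y hy).1.trans_eq (mul_one _).symm)
    ((kθ i y hy).1.trans_eq (mul_one _).symm)).trans_eq (mul_one _), fun y' hy' => ?_⟩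
  rw [add_sub_add_comm, ← smul_sub]
  exact e2 _ _ _ (Real.rpow_nonneg (norm_nonneg _) _) ((ku i y hy).2 y' hy')
    ((kθ i y hy).2 y' hy')

end Vale.Agent.P366M.An
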