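import Vale.Agent.P366C.Flt0
import Vale.Agent.P366D.Jv
import Vale.Agent.P366W.Brg
import Vale.Agent.P366W.White3
import Vale.Agent.P366C.Nul0

/-!
# P366C: almost vertical capillary graphs at a fixed scale
-/

open MeasureTheory Metric Filter Topology Set
open scoped ContDiff RealInnerProductSpace
open Vale.Agent.P366.Stmt Vale.Agent.P366Z Vale.Agent.P366W Vale.Agent.P366P
open Vale.Agent.P366D (snc ini JT Jw jw_of_iter jw_c oo_le)
open Vale.Agent.P366Y.C (ww)
open Vale.Agent.P366M.An (Vt)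
open Fin (last)

noncomputable section

namespace Vale.Agent.P366C

namespace ChsH

variable {n : ℕ}

theorem jets (n : ℕ) {η : ℝ} (η0 : 0 < η) : ∀ᶠ σ : ℝ in 𝓝[>] 0, ∀ (G : Field n) (φ : E n → ℝ)
    (y : E n), Met G → Smooth φ → (∀ i j (m : ℕ), m * σ ≤ 1 →
      ‖iteratedFDeriv ℝ m (fun y => G y i j - if i = j then 1 else 0) y‖ ≤ σ) →
    (∀ m : ℕ, m * σ ≤ 1 → ‖iteratedFDeriv ℝ m φ y‖ ≤ σ) → ∀ m ≤ 2,
      (∀ i j, ‖iteratedFDeriv ℝ m (fun y => up G i j y - if i = j then 1 else 0) y‖ ≤ η) ∧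
        ‖iteratedFDeriv ℝ m (fun y => a0 G φ y - 1) y‖ ≤ η := by
  let F : Filter (ℝ × Field n × (E n → ℝ) × E n) := comap Prod.fst (𝓝[>] 0) ⊓
    𝓟 {p | Met p.2.1 ∧ Smooth p.2.2.1 ∧ (∀ i j (m : ℕ), m * p.1 ≤ 1 → ‖iteratedFDeriv ℝ m
      (fun y => p.2.1 y i j - if i = j then 1 else 0) p.2.2.2‖ ≤ p.1) ∧
      ∀ m : ℕ, m * p.1 ≤ 1 → ‖iteratedFDeriv ℝ m p.2.2.1 p.2.2.2‖ ≤ p.1}
  have t0 : Tendsto Prod.fst F (𝓝 0) :=
    (tendsto_comap.mono_left inf_le_left).mono_right nhdsWithin_le_nhds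
  have t1 : ∀ m : ℕ, ∀ᶠ p in F, (m : ℝ) * p.1 ≤ 1 := fun m =>
    (t0.const_mul (m : ℝ)).eventually (ge_mem_nhds (by simp))
  have t2 := mem_inf_of_right (f := comap Prod.fst (𝓝[>] (0 : ℝ))) (mem_principal_self
    {p : ℝ × Field n × (E n → ℝ) × E n | Met p.2.1 ∧ Smooth p.2.2.1 ∧
      (∀ i j (m : ℕ), m * p.1 ≤ 1 → ‖iteratedFDeriv ℝ m
      (fun y => p.2.1 y i j - if i = j then 1 else 0) p.2.2.2‖ ≤ p.1) ∧
      ∀ m : ℕ, m * p.1 ≤ 1 → ‖iteratedFDeriv ℝ m p.2.2.1 p.2.2.2‖ ≤ p.1})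
  have hG : JT F (fun p => p.2.2.2) fun p => p.2.1 := fun i j => by
    have := (jw_of_iter (F := F) (y := fun p => p.2.2.2)
      (U := fun p y => p.2.1 y i j - if i = j then 1 else 0)
      (mem_of_superset t2 fun p k => ((k.1.sm i j).sub contDiff_const).contDiffAt)
      fun m => squeeze_zero' (.of_forall fun _ => norm_nonneg _)
        ((t1 m).mp (mem_of_superset t2 fun p k => k.2.2.1 i j m)) t0).add
          (jw_c (if i = j then 1 else 0))
    simpa [Matrix.one_apply] using this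
  have hφ : Jw F (fun p => p.2.2.2) (fun p => p.2.2.1) 0 := jw_of_iter
    (mem_of_superset t2 fun p k => k.2.1.contDiffAt) fun m => squeeze_zero'
      (.of_forall fun _ => norm_nonneg _) ((t1 m).mp (mem_of_superset t2 fun p k => k.2.2.2 m)) t0
  have h1 : ∀ i j, Jw F (fun p => p.2.2.2)
      (fun p y => up p.2.1 i j y - if i = j then 1 else 0) 0 := fun i j =>
    ((hG.up i j).sub (jw_c _)).of_eq (by simp [Matrix.one_apply])
  have h2 : Jw F (fun p => p.2.2.2) (fun p y => a0 p.2.1 p.2.2.1 y - 1) 0 :=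
    (((hφ.comp (.of_forall fun _ => Real.contDiff_exp.contDiffAt)).mul hG.dens).sub
      (jw_c 1)).of_eq (by simp)
  have h3 : ∀ᶠ p in F, ∀ m ∈ Finset.range 3, (∀ i j, ‖iteratedFDeriv ℝ m
      (fun y => up p.2.1 i j y - if i = j then 1 else 0) p.2.2.2‖ ≤ η) ∧
      ‖iteratedFDeriv ℝ m (fun y => a0 p.2.1 p.2.2.1 y - 1) p.2.2.2‖ ≤ η :=
    (eventually_all_finset _).2 fun m _ => (eventually_all.2 fun i => eventually_all.2 fun j =>
      (h1 i j m).iter.eventually (ge_mem_nhds η0)).and ((h2 m).iter.eventually (ge_mem_nhds η0))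
  exact (eventually_comap.1 (eventually_inf_principal.1 h3)).mono fun σ k G φ y a b c d m hm =>
    k (σ, G, φ, y) rfl ⟨a, b, c, d⟩ m (Finset.mem_range.2 (by omega))

section

variable {V : Type} [NormedAddCommGroup V] [NormedSpace ℝ V]

theorem sum_bd {ι : Type} [Fintype ι] (T : ι → V) : ∃ C ≥ (1 : ℝ), ∀ (h : ι → E n → ℝ) (y : E n)
    (m : ℕ) (η : ℝ), 0 ≤ η → (∀ i, Smooth (h i)) → (∀ i, ‖iteratedFDeriv ℝ m (h i) y‖ ≤ η) →
    ‖iteratedFDeriv ℝ m (fun y => ∑ i, h i y • T i) y‖ ≤ C * η := by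
  let L : ι → ℝ →L[ℝ] V := fun i => (ContinuousLinearMap.id ℝ ℝ).smulRight (T i)
  refine ⟨∑ i, ‖L i‖ + 1, le_add_of_nonneg_left (by positivity), fun h y m η η0 hs hb => ?_⟩
  have h2 : ∀ i, ContDiffAt ℝ m (h i) y := fun i => ((hs i).of_le (oo_le m)).contDiffAt
  rw [show (fun y => ∑ i, h i y • T i) = fun y => ∑ i, (L i ∘ h i) y from rfl,
    iteratedFDeriv_fun_sum_apply fun i _ => (L i).contDiff.contDiffAt.comp _ (h2 i), add_mul,
    Finset.sum_mul]
  exact (norm_sum_le_of_le _ fun i _ => ((L i).norm_iteratedFDeriv_comp_left (h2 i) le_rfl).trans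
    (mul_le_mul_of_nonneg_left (hb i) (norm_nonneg _))).trans (by linarith)

theorem jet3 {f : E n → V} {F : E (n + 1) → V} {c : V} {η : ℝ} {x : E (n + 1)}
    (hf : ContDiff ℝ ∞ f) (e : ∀ x, F x = f (ini x) + c)
    (h : ∀ m ≤ 2, ‖iteratedFDeriv ℝ m f (ini x)‖ ≤ η) : ‖F x - c‖ ≤ η ∧ ‖fderiv ℝ F x‖ ≤ η ∧
      ∀ v, ‖fderiv ℝ (fun y => fderiv ℝ F y v) x‖ ≤ η * ‖v‖ := by
  have hA : ‖adj (Lz n)‖ ≤ 1 := ContinuousLinearMap.opNorm_le_bound _ zero_le_one fun v => by
    rw [one_mul]; exact (fr_el n).norm_adj v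
  have h1 : ∀ m ≤ 2, ‖iteratedFDeriv ℝ m (f ∘ adj (Lz n)) x‖ ≤ η := fun m hm => by
    rw [(adj (Lz n)).iteratedFDeriv_comp_right hf x (oo_le m), adj_Lz]
    exact (ContinuousMultilinearMap.norm_compContinuousLinearMap_le _ _).trans
      ((mul_le_of_le_one_right (norm_nonneg _) (Finset.prod_le_one (fun _ _ => norm_nonneg _)
        fun _ _ => hA)).trans (h m hm))
  have h2 : fderiv ℝ F = fderiv ℝ (f ∘ adj (Lz n)) := by
    rw [show F = fun x => (f ∘ adj (Lz n)) x + c from funext fun x => by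
      rw [e, Function.comp, adj_Lz]]
    exact funext fun _ => fderiv_add_const c
  have h3 : ContDiff ℝ ∞ (fderiv ℝ (f ∘ adj (Lz n))) :=
    (hf.comp (adj (Lz n)).contDiff).fderiv_right (m := ∞) le_rfl
  refine ⟨by simpa [e] using h 0 (by simp), by simpa [h2] using h1 1 (by simp), fun v => ?_⟩
  rw [h2, fderiv_clm_apply (h3.differentiable (by simp) x) (differentiableAt_const v)]
  simp only [fderiv_fun_const, Pi.zero_apply, ContinuousLinearMap.comp_zero, zero_add]
  refine ContinuousLinearMap.le_of_opNorm_le _ ?_ v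
  rw [ContinuousLinearMap.opNorm_flip, ← norm_iteratedFDeriv_one, norm_iteratedFDeriv_fderiv]
  exact h1 2 le_rfl

end

/-- the elementary matrices -/
def T0 (p : Fin n × Fin n) : E n →L[ℝ] E n :=
  (EuclideanSpace.proj p.2 : E n →L[ℝ] ℝ).smulRight (EuclideanSpace.single p.1 1)

theorem B0_eq (G : Field n) (y : E n) : P366W.B0 G y = ∑ p : Fin n × Fin n,
    (up G p.1 p.2 y - if p.1 = p.2 then 1 else 0) • T0 p + ContinuousLinearMap.id ℝ _ := by
  ext v i
  simp [B0_apply, T0, Fintype.sum_prod_type, Pi.single_apply, sub_mul]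

theorem B1_eq (G : Field n) (x : E (n + 1)) : B1 G x = ∑ p : Fin n × Fin n,
    (up G p.1 p.2 (ini x) - if p.1 = p.2 then 1 else 0) •
      ((Lz n).toContinuousLinearMap ∘L T0 p ∘L adj (Lz n)) + ContinuousLinearMap.id ℝ _ := by
  ext1 v
  have := (Lz_add (ini v) (v (last n))).trans (snc_ini v)
  rw [B1_apply, B0_eq]
  simp [adj_Lz, add_assoc, this]

theorem vt_bd {ϑ : ℝ → ℝ} (h : Vt ϑ) : ∃ L ≥ (0 : ℝ), ∀ t, |deriv ϑ t| ≤ L := by
  have hp : Function.Periodic (deriv ϑ) 1 := fun t => by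
    rw [← deriv_comp_add_const, funext h.per, deriv_add_const]
  obtain ⟨L, hL⟩ := isBounded_iff_forall_norm_le.1
    (hp.isBounded_of_continuous one_ne_zero (h.sm.continuous_deriv (by simp)))
  exact ⟨|L|, abs_nonneg _, fun t => (hL _ ⟨t, rfl⟩).trans (le_abs_self _)⟩

theorem cs_int {G : Field n} {φ u : E n → ℝ} (hG : Met G) (hφ : Smooth φ) (hu : Smooth u)
    {ψ : E (n + 1) → ℝ} (hψ : Measurable ψ) : ∫ x, ψ x ∂(P366W.cs G φ u).μ =
      ∫ y, ψ (snc y (u y)) * (a0 G φ y * ww G 1 u y) := by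
  rw [P366W.cs, integral_gsurf (hu.of_le (by simp)) (sm_B1 hG).continuous
    (sm_a1 hG hφ).continuous (fun x => (a1_pos hG φ x).le) hψ]
  refine integral_congr_ae (.of_forall fun y => ?_)
  have := cs_W (G := G) (φ := φ) hu (snc y (u y))
  rw [Surf.W, cs_grad hu, cs_B, ini_snc] at this
  simp only [Lz_add, this, a1, ini_snc, a0]

end ChsH

open ChsH in
theorem chs : CHS := by
  intro k ϑ hϑ l l0 l1 η η0
  obtain ⟨L, L0, hL⟩ := vt_bd hϑ
  obtain ⟨C₀, c0, h0⟩ := sum_bd (n := k + 1) (T0 (n := k + 1))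
  obtain ⟨C₁, c1, h1⟩ := sum_bd (n := k + 1) fun p : Fin (k + 1) × Fin (k + 1) =>
    (Lz (k + 1)).toContinuousLinearMap ∘L T0 p ∘L adj (Lz (k + 1))
  obtain ⟨e, e0', e1, e2, e3⟩ : ∃ e > (0 : ℝ), e ≤ 1 ∧ e < η ∧ e ≤ η ^ 2 :=
    ⟨min 1 (min (η / 2) (η ^ 2)), by positivity, min_le_left _ _, (min_le_right _ _).trans_lt
      ((min_le_left _ _).trans_lt (half_lt_self η0)), (min_le_right _ _).trans (min_le_right _ _)⟩
  obtain ⟨η', η1, η2⟩ : ∃ η' > (0 : ℝ), (C₀ + C₁) * η' = e :=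
    ⟨e / (C₀ + C₁), by positivity, by field_simp⟩
  have η3 : C₀ * η' ≤ e := by nlinarith
  have η4 : C₁ * η' ≤ e := by nlinarith
  have η5 : η' ≤ e := by nlinarith
  obtain ⟨σ, ⟨hj, σ1, σ2⟩, σ0⟩ := (((jets (k + 1) η1).and (nhdsWithin_le_nhds
    (((continuous_id.mul continuous_const).tendsto' (0 : ℝ) 0 (zero_mul (1 + L + 2 * L ^ 2))).eventually
      (ge_mem_nhds e0') |>.and (ge_mem_nhds (a := η * l ^ (k + 1)) (by positivity))))).and
        self_mem_nhdsWithin).exists
  refine ⟨σ, σ0, fun G φ u p ρ z₀ δ c ε hρ h => ?_⟩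
  have σ3 : (0 : ℝ) < σ := σ0
  replace σ1 : σ * (1 + L + 2 * L ^ 2) ≤ e := σ1
  have J := fun y hy => hj G φ y h.met h.smφ (fun i j m hm => h.gs i j m hm y hy)
    fun m hm => h.fs m hm y hy
  have su : ∀ q : Fin (k + 1) × Fin (k + 1),
      Smooth fun y => up G q.1 q.2 y - if q.1 = q.2 then 1 else 0 := fun q =>
    (h.met.sm_up _ _).sub contDiff_const
  have p0 : p ∈ ball p ρ := mem_ball_self (by linarith)
  have ok := cs_ok h.met h.smφ h.smu
  refine ⟨⟨?_, ?_⟩, fun z hz => ?_⟩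
  · have := h0 _ p 0 η' η1.le su fun q => (J p p0 0 (by simp)).1 q.1 q.2
    rw [norm_iteratedFDeriv_zero, eq_sub_iff_add_eq.2 (B0_eq G p).symm] at this
    exact this.trans_lt (by linarith)
  · have := (J p p0 0 (by simp)).2
    rw [norm_iteratedFDeriv_zero] at this
    exact this.trans_lt (by linarith)
  have nr : ∀ x ∈ ball (snc p z) (8 * l), ini x ∈ ball p ρ ∧ |x (last _) - z₀| < 1 / 2 :=
    fun x hx => by
      obtain ⟨a, b⟩ := snc_near (y := ini x) (s := x (last _)) (p := p) (z := z) (ρ := 8 * l)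
        (by rw [snc_ini]; exact hx)
      exact ⟨ball_subset_ball hρ a, by linarith [abs_sub_le (x (last _)) z z₀]⟩
  have hz' : ∀ x, (P366W.cs G φ u).Φ x = 0 → u (ini x) = x (last _) := fun x hx => by
    rw [cs_Φ] at hx; linarith
  have sH : Smooth fun y : E (k + 1) => ϑ (y (last k)) := hϑ.sm.comp (by fun_prop)
  have bd : (P366W.cs G φ u).Bd (snc p z) (8 * l) η η := by
    have b1 := fun x hx => jet3 (ContDiff.sum fun q _ => (su q).smul contDiff_const) (B1_eq G)
      fun m hm => (h1 _ (ini x) m η' η1.le su fun q => (J _ (nr x hx).1 m hm).1 q.1 q.2).trans η4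
    have b2 := fun x hx => jet3 (F := a1 G φ) (c := 1) (f := fun y => a0 G φ y - 1)
      ((h.smφ.exp.mul h.met.sm_dens).sub contDiff_const) (fun _ => (sub_add_cancel _ _).symm)
      fun m hm => (J _ (nr x hx).1 m hm).2.trans η5
    have q1 : 0 ≤ σ * L := by positivity
    have q2 : 0 ≤ σ * L ^ 2 := by positivity
    refine ⟨η0.le, fun x hx => (b1 x hx).1.trans e2.le, fun x hx => (b1 x hx).2.1.trans e2.le,
      fun x hx v => ((b1 x hx).2.2 v).trans (by gcongr), fun x hx => (b2 x hx).1.trans e2.le,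
      fun x hx => (b2 x hx).2.1.trans e2.le, fun x hx v => ((b2 x hx).2.2 v).trans (by gcongr),
      fun x hx => ?_, fun x hx y hy a b => ?_, fun x hx a => ?_⟩
    · rw [cs_H h.met h.smφ h.smu, abs_neg]
      linarith [h.hb _ (nr x hx).1]
    · rw [cs_H h.met h.smφ h.smu, cs_H h.met h.smφ h.smu,
        h.eq _ (nr x hx).1 (by rw [hz' x a]; linarith [(nr x hx).2]),
        h.eq _ (nr y hy).1 (by rw [hz' y b]; linarith [(nr y hy).2]), hz' x a, hz' y b]
      have d1 := convex_univ.norm_image_sub_le_of_norm_deriv_le (f := ϑ)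
        (fun t _ => hϑ.sm.differentiable (by simp) t) (fun t _ => hL t)
        (mem_univ (ini y (last k))) (mem_univ (ini x (last k)))
      have d2 : |x (last _) - y (last _)| ≤ ‖x - y‖ := PiLp.norm_apply_le (x - y) (last _)
      have d3 : |ini x (last k) - ini y (last k)| ≤ ‖x - y‖ :=
        PiLp.norm_apply_le (x - y) (last k).castSucc
      have d4 := abs_add_le (δ * (ϑ (ini x (last k)) - ϑ (ini y (last k))))
        (ε * (x (last _) - y (last _)))
      rw [abs_mul, abs_mul, abs_of_nonneg h.δ0.1, abs_of_nonneg h.ε0.1] at d4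
      rw [← abs_neg, show -(-(δ * ϑ (ini x (last k)) + c + ε * x (last _)) -
        -(δ * ϑ (ini y (last k)) + c + ε * y (last _))) = δ * (ϑ (ini x (last k)) -
          ϑ (ini y (last k))) + ε * (x (last _) - y (last _)) by ring]
      have d5 := mul_le_mul h.δ0.2 (d1.trans (mul_le_mul_of_nonneg_left d3 L0)) (abs_nonneg _)
        σ3.le
      have d6 := mul_le_mul h.ε0.2 d2 (abs_nonneg _) σ3.le
      rw [Real.norm_eq_abs] at d5
      linarith [mul_le_mul_of_nonneg_right (show σ * (1 + L) ≤ η ^ 2 by linarith)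
        (norm_nonneg (x - y))]
    · have di : DifferentiableAt ℝ (ini : E (k + 1 + 1) → E (k + 1)) x :=
        sm_ini.differentiable (by simp) x
      have d1 : (P366W.cs G φ u).H =ᶠ[𝓝 x]
          fun y => -(δ * ϑ (ini y (last k)) + c + ε * u (ini y)) := by
        filter_upwards [isOpen_ball.mem_nhds hx, (((h.smu.comp sm_ini).continuous.sub
          continuous_const).abs.continuousAt (x := x)).eventually (gt_mem_nhds
            (show |u (ini x) - z₀| < 1 by rw [hz' x a]; linarith [(nr x hx).2]))] with y d2 d3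
        rw [cs_H h.met h.smφ h.smu, h.eq _ (nr y d2).1 d3]
      have d2 : HasFDerivAt (fun y => -(δ * ϑ (ini y (last k)) + c + ε * u (ini y)))
          (-(δ • fderiv ℝ (fun y => ϑ (ini y (last k))) x +
            ε • fderiv ℝ (fun y => u (ini y)) x)) x :=
        (((((sH.diff _).comp x di).hasFDerivAt.const_mul δ).add_const c).add
          (((h.smu.diff _).comp x di).hasFDerivAt.const_mul ε)).neg
      rw [d1.fderiv_eq, d2.fderiv, neg_apply, add_apply, smul_apply, smul_apply,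
        cs_dν h.met h.smu (sH.diff _), cs_dν h.met h.smu (h.smu.diff _), smul_eq_mul, smul_eq_mul]
      have d3 : 0 ≤ dn G u u (ini x) := div_nonneg (h.met.ip_nonneg _ _) (w_pos h.met _ _).le
      have d4 := (abs_le.1 (abs_dn h.met u (fun y => ϑ (y (last k))) (ini x))).1
      have d5 : ∀ i, pd i (fun y : E (k + 1) => ϑ (y (last k))) (ini x) =
          if i = last k then deriv ϑ (ini x (last k)) else 0 := fun i => by
        rw [pd_comp (hϑ.sm.differentiable (by simp) _).hasDerivAt (by fun_prop), pd_coord]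
        split_ifs <;> simp
      have d6 := (J _ (nr x hx).1 0 (by simp)).1 (last k) (last k)
      rw [norm_iteratedFDeriv_zero, if_pos rfl, Real.norm_eq_abs, abs_le] at d6
      have d7 : ip G (fun y => ϑ (y (last k))) (fun y => ϑ (y (last k))) (ini x) ≤ 2 * L ^ 2 := by
        simp only [ip, d5, mul_ite, ite_mul, mul_zero, zero_mul, Finset.sum_ite_eq',
          Finset.mem_univ, if_true]
        nlinarith [sq_le_sq' (abs_le.1 (hL (ini x (last k)))).1 (abs_le.1 (hL (ini x (last k)))).2,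
          mul_self_nonneg (deriv ϑ (ini x (last k)))]
      nlinarith [mul_nonneg h.ε0.1 d3, h.δ0.1, h.δ0.2, sq_nonneg L,
        mul_le_mul_of_nonneg_left (show -(1 + 2 * L ^ 2) ≤
          dn G u (fun y => ϑ (y (last k))) (ini x) by linarith) h.δ0.1]
  refine ⟨bd, sc_ok ok _ l0, (scb _ _ _ _ _ _ _ l 8 ok bd l0 (by rw [mul_comm])).mono Subset.rfl
    le_rfl (mul_le_of_le_one_left η0.le (by linarith)), ?_⟩
  have cn : Continuous fun x => ‖(P366W.cs G φ u).n x - e0 k‖ ^ 2 :=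
    (ok.smn.continuous.sub continuous_const).norm.pow 2
  have i1 : ∀ x, (ball 0 8).indicator (fun x => ‖((P366W.cs G φ u).sc (snc p z) l).n x - e0 k‖ ^ 2)
      (l⁻¹ • (x - snc p z)) = (ball (snc p z) (8 * l)).indicator
        (fun x => ‖(P366W.cs G φ u).n x - e0 k‖ ^ 2) x := fun x => by
    have : l⁻¹ • (x - snc p z) ∈ ball (0 : E (k + 1 + 1)) 8 ↔ x ∈ ball (snc p z) (8 * l) := by
      rw [mem_ball_zero_iff, norm_smul, norm_inv, Real.norm_of_nonneg l0.le, inv_mul_lt_iff₀' l0,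
        mem_ball_iff_norm]
    by_cases hx : x ∈ ball (snc p z) (8 * l)
    · rw [indicator_of_mem hx, indicator_of_mem (this.2 hx), sc_n ok _ l0, smul_inv_smul₀ l0.ne',
        add_sub_cancel]
    · rw [indicator_of_notMem hx, indicator_of_notMem (mt this.1 hx)]
  rw [← integral_indicator measurableSet_ball, Surf.sc, Af.integral_aff _ _ _ l0 one_pos, ← Surf.sc]
  simp only [ContinuousLinearEquiv.refl_symm, ContinuousLinearEquiv.refl_apply, i1,
    ContinuousLinearEquiv.coe_refl, ContinuousLinearMap.det, ContinuousLinearMap.coe_id,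
    LinearMap.det_id, abs_one, mul_one]
  rw [cs_int h.met h.smφ h.smu (cn.measurable.indicator measurableSet_ball), one_div,
    inv_mul_le_iff₀' (by positivity)]
  refine le_trans ?_ (h.ex.trans σ2)
  have ms : MeasurableSet {y | y ∈ ball p ρ ∧ |u y - z₀| < 1 / 2} := (isOpen_ball.inter
    (isOpen_lt (h.smu.cont.sub continuous_const).abs continuous_const)).measurableSet
  have w0 : ∀ y, 0 ≤ a0 G φ y * ww G 1 u y := fun y =>
    (mul_pos (mul_pos (Real.exp_pos _) (h.met.dens_pos y)) (w_pos h.met u y)).le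
  rw [← integral_indicator ms]
  refine integral_mono_of_nonneg (.of_forall fun y => mul_nonneg (indicator_nonneg
    (fun _ _ => sq_nonneg _) _) (w0 y)) ((integrable_indicator_iff ms).2
      ((((cn.comp (cont_snc.comp (continuous_id.prodMk h.smu.cont))).mul
        ((h.smφ.cont.rexp.mul h.met.sm_dens.cont).mul (sm_w h.met h.smu).cont)).continuousOn
          |>.integrableOn_compact (isCompact_closedBall p ρ)).mono_set
            fun y hy => ball_subset_closedBall hy.1)) (.of_forall fun y => ?_)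
  by_cases hy : snc y (u y) ∈ ball (snc p z) (8 * l)
  · have := nr _ hy
    rw [ini_snc, snc_last] at this
    simp only [indicator_of_mem hy]
    rw [indicator_of_mem (by exact this)]
  · simp only [indicator_of_notMem hy, zero_mul]
    exact indicator_nonneg (fun y _ => mul_nonneg (sq_nonneg _) (w0 y)) y

end Vale.Agent.P366C
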