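import Vale.Agent.P366C.Exc0

/-!
# P366C: the row `EXC`
-/

open MeasureTheory Metric Filter Topology Set
open scoped ContDiff ENNReal
open Vale.Agent.P366.Stmt Vale.Agent.P366Z Vale.Agent.P366W
open Vale.Agent.P366D (snc ini Uo Sml Nr pl lat Per pl_congr pl_congr_ev rep_eq_pl isOpen_Uo)
open Vale.Agent.P366P (hw Cy)
open Vale.Agent.P366Y.C (ww)
open Vale.Agent.P366M (Mf0 Fld At rep loc vol Ch)
open Vale.Agent.P366M.An (Vt Fd Lft)
open Fin (last)

noncomputable section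

namespace Vale.Agent.P366C

namespace ExcH

/-- the integral over a compact set on which a periodic chart is injective -/
theorem lint_ge {n : ℕ} {X : Type} [Mf0 n X] {g : Fld n X} {Y : E n → X} {η : ℝ}
    (hg : P366M.Met g) (hY : Per Y η) {C : Set (E n)} (hC : IsCompact C) (sub : C ⊆ Uo n η)
    (inj : InjOn Y C) (F : X → ℝ≥0∞) :
    ∫⁻ y in C, ENNReal.ofReal (dens (pl Y g) y) * F (Y y) ≤ ∫⁻ x, F x ∂vol g := by
  obtain ⟨S, -, h1, h2⟩ : ∃ S, MeasurableSet S ∧ C ⊆ S ∧ ∀ A ⊆ S, A ⊆ C → MeasurableSet A →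
      MeasurableSet (Y '' A) ∧ ∫⁻ y in A, ENNReal.ofReal (dens (pl Y g) y) * F (Y y) =
        ∫⁻ x in Y '' A, F x ∂vol g := by
    refine hC.induction_on (p := fun s => ∃ S, MeasurableSet S ∧ s ⊆ S ∧ ∀ A ⊆ S, A ⊆ C →
      MeasurableSet A → MeasurableSet (Y '' A) ∧ ∫⁻ y in A, ENNReal.ofReal (dens (pl Y g) y) *
        F (Y y) = ∫⁻ x in Y '' A, F x ∂vol g)
      ⟨∅, .empty, Subset.rfl, fun A hA _ _ => by simp [subset_empty_iff.1 hA]⟩
      (fun s t hs ⟨S, a, b, c⟩ => ⟨S, a, hs.trans b, c⟩)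
      (fun s t ⟨S, a, b, c⟩ ⟨T, a', b', c'⟩ =>
        ⟨S ∪ T, a.union a', union_subset_union b b', fun A hA hC mA => ?_⟩) fun y hy => ?_
    · obtain ⟨k1, k2⟩ := c _ inter_subset_right (inter_subset_left.trans hC) (mA.inter a)
      obtain ⟨k3, k4⟩ := c' (A \ S) (fun z hz => (hA hz.1).resolve_left hz.2)
        (sdiff_subset.trans hC) (mA.diff a)
      rw [← lintegral_inter_add_sdiff _ A a, k2, k4, ← lintegral_union k3
        (disjoint_sdiff_inter.symm.image inj (inter_subset_left.trans hC) (sdiff_subset.trans hC)),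
        ← image_union, inter_union_sdiff]
      refine ⟨?_, rfl⟩
      rw [← inter_union_sdiff A S, image_union]
      exact k1.union k3
    · obtain ⟨e, he, k⟩ := hY.exists_chart (sub hy)
      obtain ⟨S, k1, k2, k3⟩ := _root_.eventually_nhds_iff.1 k.eventually_nhds
      refine ⟨S, mem_nhdsWithin_of_mem_nhds (k2.mem_nhds k3), S, k2.measurableSet, Subset.rfl,
        fun A hA _ mA => ?_⟩
      rw [image_congr fun z hz => (k1 z (hA hz)).self_of_nhds, P366M.lintegral_image hg he mA]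
      refine ⟨(P366M.measEmb_symm he).measurableSet_image.2 mA,
        setLIntegral_congr_fun mA fun z hz => ?_⟩
      simp only [P366Z.dens, mat, rep_eq_pl, pl_congr (k1 z (hA hz)) rfl, (k1 z (hA hz)).self_of_nhds]
  exact (h2 C h1 Subset.rfl hC.measurableSet).2.trans_le (setLIntegral_le_lintegral _ _)

variable {k : ℕ} {X : Type} [Mf0 (k + 1) X] {I : Type} {F : Fd X I} {g : Fld (k + 1) X}
  {f : X → ℝ} {Y : E (k + 1) → X} {ϑ : ℝ → ℝ} {v₀ η ζ τ : ℝ} {e : Ch (k + 1) X} {y : E (k + 1)}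
  {i : I} {m : ℤ}

/-- the branch in the periodic chart -/
def U (F : Fd X I) (Y : E (k + 1) → X) (ϑ : ℝ → ℝ) (m : ℤ) (i : I) (y : E (k + 1)) : ℝ :=
  F.v i (Y y) - F.lam i * (ϑ (y (last k)) + m)

theorem lift (hϑ : Vt ϑ) (hY : Per Y η) (hF : F.Ok g f v₀) (hL : F.Fl g f Y ϑ η ζ τ)
    (hy : y ∈ Uo (k + 1) η) (he : Y =ᶠ[𝓝 y] e.symm) (m : ℤ) : ∃ θ V, Lft F.Θ θ V ∧ Y y ∈ V ∧
      θ (Y y) = ϑ (y (last k)) + m ∧ ∀ i, U F Y ϑ m i =ᶠ[𝓝 y] loc e (F.br θ i) := by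
  obtain ⟨θ, V, h1, h2⟩ := hF.cir (Y y)
  have c := (hY.smP hy).ct
  obtain ⟨m₀, h3⟩ := P366M.An.ev_int (a := fun z => θ (Y z) - ϑ (z (last k))) (y := y)
    ((h1.sm.cont.continuousAt.comp c).sub
      (hϑ.sm.continuous.comp (contDiff_coord (m := 0) _).continuous).continuousAt) (by
      filter_upwards [c.eventually (h1.opn.mem_nhds h2), isOpen_Uo.mem_nhds hy] with z a b
      obtain ⟨s, hs⟩ := h1.int _ a
      obtain ⟨t, ht⟩ := hL.th z b
      exact ⟨t + s, by rw [hs, ht]; push_cast; ring⟩)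
  refine ⟨_, V, h1.add (m - m₀), h2, by push_cast; linarith [h3.self_of_nhds], fun i => ?_⟩
  filter_upwards [h3, he] with z a b
  rw [P366M.loc_apply, ← b, U, Fd.br, show ϑ (z (last k)) = θ (Y z) - m₀ by linarith]
  push_cast
  ring

theorem reg (hϑ : Vt ϑ) (hY : Nr g f Y η) (hF : F.Ok g f v₀) (hL : F.Fl g f Y ϑ η ζ τ)
    (hy : y ∈ Uo (k + 1) η) (m : ℤ) (i : I) : ContDiffAt ℝ 2 (U F Y ϑ m i) y ∧
      ContinuousAt (fun z => a0 (pl Y g) (fun x => f (Y x)) z * ww (pl Y g) 1 (U F Y ϑ m i) z) y ∧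
      0 < ww (pl Y g) 1 (U F Y ϑ m i) y ∧
      ww (pl Y g) 1 (U F Y ϑ m i) y ^ 2 = 1 + ip (pl Y g) (U F Y ϑ m i) (U F Y ϑ m i) y ∧
      (|U F Y ϑ m i y| < F.lam i / 2 → F.u i (Y y) = U F Y ϑ m i y ∧
        P366M.Y.C.ww g 1 (F.u i) (Y y) = ww (pl Y g) 1 (U F Y ϑ m i) y) := by
  obtain ⟨e, he, h0⟩ := hY.per.exists_chart hy
  obtain ⟨θ, V, h1, h2, -, h3⟩ := lift hϑ hY.per hF hL hy h0 m
  have s1 := hF.sm_br h1.sm i
  have s2 : Smooth (loc e (F.br θ i)) := s1 e he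
  have hG := hF.met.rep he
  have h4 : pl Y g =ᶠ[𝓝 y] rep e g := pl_congr_ev h0 g
  have h5 : ww (pl Y g) 1 (U F Y ϑ m i) =ᶠ[𝓝 y] ww (rep e g) 1 (loc e (F.br θ i)) := by
    filter_upwards [h4, (h3 i).eventuallyEq_nhds] with z a b using ww_congr a b
  refine ⟨(s2.c2 y).congr_of_eventuallyEq (h3 i), ContinuousAt.congr (f := fun z =>
    a0 (rep e g) (loc e f) z * ww (rep e g) 1 (loc e (F.br θ i)) z)
      (((hF.smf e he).continuous.rexp.mul hG.sm_dens.cont).mul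
        (P366P.sm_w hG s2).cont).continuousAt ?_, ?_, ?_, fun h => ?_⟩
  · filter_upwards [h4, h5, h0] with z a b c
    rw [b, a0, a0, dens_of_eq a, c, P366M.loc_apply]
  · rw [h5.eq_of_nhds]
    exact P366P.w_pos hG _ y
  · rw [h5.eq_of_nhds, P366P.w_sq hG, ip_congr (h3 i) (h3 i), ip_of_eq h4.eq_of_nhds]
  · have h6 : U F Y ϑ m i y = F.br θ i (Y y) := by rw [(h3 i).eq_of_nhds, h0.eq_of_nhds]; rfl
    rw [h6] at h
    have h7 := hF.u_ev h1 h2 h
    rw [h6, h5.eq_of_nhds, (P366M.Gr.ww_congr h7).eq_of_nhds, ← P366M.Gr.loc_w he g s1,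
      h7.eq_of_nhds, h0.eq_of_nhds]
    exact ⟨rfl, rfl⟩

theorem cont_int (hF : F.Ok g f v₀) {ψ : ℝ → ℝ} {S : ℝ} (hψ : Continuous ψ) (S0 : 0 ≤ S)
    (hs : Function.support ψ ⊆ Ioo (-S) S) (hl : S < F.lam i / 2) :
    Continuous fun x => ψ (F.u i x) * (Real.exp (f x) * P366M.Y.C.ww g 1 (F.u i) x) := by
  refine continuous_iff_continuousAt.2 fun x => ?_
  rcases lt_or_ge |F.u i x| (F.lam i / 2) with h | h
  · obtain ⟨θ, V, h1, -, h2⟩ := hF.u_loc h
    have s1 := hF.sm_br h1.sm i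
    refine ((hψ.comp s1.cont).mul (hF.smf.cont.rexp.mul
      (P366M.Gr.sm_w hF.met s1).cont)).continuousAt.congr ?_
    filter_upwards [h2, P366M.Gr.ww_congr (g := g) h2] with z a b
    simp only [a, b, Pi.mul_apply, Function.comp]
  · refine (continuousAt_const (y := (0 : ℝ))).congr ?_
    filter_upwards [(hF.cont_u (i := i) (by linarith)).continuousAt.eventually
      (lt_mem_nhds (hl.trans_le h))] with z a
    rw [Function.notMem_support.1 fun b => (abs_lt.2 (hs b)).not_gt a, zero_mul]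

theorem area [CompactSpace X] (hϑ : Vt ϑ) (hY : Nr g f Y η) (hF : F.Ok g f v₀)
    (hL : F.Fl g f Y ϑ η ζ τ) {ψ : ℝ → ℝ} {S r N : ℝ} {q : E k} (hψ : Continuous ψ)
    (ψ0 : ∀ t, 0 ≤ ψ t) (S0 : 0 ≤ S) (hs : Function.support ψ ⊆ Ioo (-S) S) (hl : S < F.lam i / 2)
    (r0 : 0 < r) (hr : η < r) :
    ∫ y in Cy (Q0 q r) N, ψ (U F Y ϑ m i y) *
      (a0 (pl Y g) (fun x => f (Y x)) y * ww (pl Y g) 1 (U F Y ϑ m i) y) ≤
      ∫ x, ψ (F.u i x) * (Real.exp (f x) * P366M.Y.C.ww g 1 (F.u i) x) ∂vol g := by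
  have sub : Cy (Q0 q r) N ⊆ Uo (k + 1) η := cy_sub hr
  have cC := P366P.cpt_Cy (cpt_Q0 q r) N
  have c1 : ContinuousOn (U F Y ϑ m i) (Cy (Q0 q r) N) := fun y hy =>
    (reg hϑ hY hF hL (sub hy) m i).1.continuousAt.continuousWithinAt
  set B := Cy (Q0 q r) N ∩ U F Y ϑ m i ⁻¹' Icc (-S) S
  have cB : IsCompact B := cC.of_isClosed_subset
    (c1.preimage_isClosed_of_isClosed cC.isClosed isClosed_Icc) inter_subset_left
  have inj : InjOn Y B := fun y hy y' hy' h => by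
    obtain ⟨z, rfl⟩ := hY.per.inj y (sub hy.1) y' (sub hy'.1) h
    have a1 := hy.2
    have a2 := hy'.2
    simp only [mem_preimage, U, ← h, PiLp.add_apply, P366D.lat_apply, hϑ.add, mem_Icc] at a1 a2
    have a3 : z = 0 := funext fun j => by
      refine Fin.lastCases ?_ (fun j => ?_) j
      · have b : |(z (last k) : ℝ)| < 1 := by
          refine lt_of_mul_lt_mul_left (a := F.lam i) ?_ (by linarith)
          rw [← abs_of_pos (a := F.lam i) (by linarith), ← abs_mul, abs_of_pos (a := F.lam i)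
            (by linarith), abs_lt]
          constructor <;> linarith [a1.1, a1.2, a2.1, a2.2]
        exact Int.abs_lt_one_iff.1 (by exact_mod_cast b)
      · have b1 := abs_le.1 (hy.1.1.1 j)
        have b2 := abs_le.1 (hy'.1.1.1 j)
        simp only [P366D.ini_apply, PiLp.add_apply, P366D.lat_apply] at b1 b2
        have b : |(z j.castSucc : ℝ)| < 1 := abs_lt.2 ⟨by linarith, by linarith⟩
        exact Int.abs_lt_one_iff.1 (by exact_mod_cast b)
    rw [a3, P366D.lat_zero, add_zero]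
  have n0 : ∀ x, 0 ≤ ψ (F.u i x) * (Real.exp (f x) * P366M.Y.C.ww g 1 (F.u i) x) := fun x =>
    mul_nonneg (ψ0 _) (mul_nonneg (Real.exp_pos _).le (Real.sqrt_nonneg _))
  have c2 : ContinuousOn (fun y => ψ (U F Y ϑ m i y) *
      (a0 (pl Y g) (fun x => f (Y x)) y * ww (pl Y g) 1 (U F Y ϑ m i) y)) B :=
    (hψ.comp_continuousOn (c1.mono inter_subset_left)).mul fun y hy =>
      (reg hϑ hY hF hL (sub hy.1) m i).2.1.continuousWithinAt
  rw [setIntegral_eq_of_subset_of_forall_sdiff_eq_zero cC.measurableSet (s := B) inter_subset_left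
    fun y hy => by
      rw [Function.notMem_support.1 fun b => hy.2 ⟨hy.1, Ioo_subset_Icc_self (hs b)⟩, zero_mul],
    ← ENNReal.ofReal_le_ofReal_iff (integral_nonneg n0), ofReal_integral_eq_lintegral_ofReal
      (c2.integrableOn_compact cB) (ae_of_all _ fun y => mul_nonneg (ψ0 _) (mul_nonneg
        (mul_nonneg (Real.exp_pos _).le (dens_nonneg _ _)) (Real.sqrt_nonneg _))),
    ofReal_integral_eq_lintegral_ofReal (hF.met.integrable_supp (cont_int hF hψ S0 hs hl)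
      (.of_compactSpace _)) (ae_of_all _ n0)]
  refine le_of_eq_of_le (setLIntegral_congr_fun cB.measurableSet fun y hy => ?_)
    (lint_ge hF.met hY.per cB (inter_subset_left.trans sub) inj _)
  obtain ⟨b1, b2⟩ := (reg hϑ hY hF hL (sub hy.1) m i).2.2.2.2 ((abs_le.2 hy.2).trans_lt hl)
  rw [← ENNReal.ofReal_mul (dens_nonneg _ _), b2, b1, a0]
  congr 1
  ring

theorem excess [CompactSpace X] (hk : 1 ≤ k) (hϑ : Vt ϑ) (hY : Nr g f Y η) (hF : F.Ok g f v₀)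
    (hL : F.Fl g f Y ϑ η ζ τ) {ψ : ℝ → ℝ} {S r κ ρ z₀ C : ℝ} {p : E (k + 1)} (hψ : Continuous ψ)
    (ψ0 : ∀ t, 0 ≤ ψ t) (ψ1 : ∀ t, |t - z₀| < 1 / 2 → ψ t = 1) (S0 : 0 ≤ S)
    (hs : Function.support ψ ⊆ Ioo (-S) S) (hl : S < F.lam i / 2) (r0 : 0 < r) (hr : η < r)
    (r1 : r ≤ 1 / 6) (r2 : r ≤ 2 * ρ) (ρ1 : ρ ≤ 1 / 4) (k1 : κ ≤ 1 / 2) (k2 : 6 * k * r ≤ κ)
    (mb : ∀ y ∈ Uo (k + 1) η, |a0 (pl Y g) (fun x => f (Y x)) y - 1| ≤ κ ∧
      ∀ ξ : Fin (k + 1) → ℝ, (1 - κ) * ∑ i, ξ i ^ 2 ≤ ∑ i, ∑ j, up (pl Y g) i j y * ξ i * ξ j)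
    (bd : ∀ x, |F.v i x| ≤ C * F.lam i) (hp : ini p ∈ Uo k (3 * ρ)) (he : e ∈ At X)
    (hb : ∀ y ∈ ball p ρ, e.symm y = Y y) {u : E (k + 1) → ℝ} (su : Smooth u)
    (hu : ∀ y ∈ ball p ρ, u y = U F Y ϑ m i y) :
    ∫ y in {y | y ∈ ball p ρ ∧ |u y - z₀| < 1 / 2},
      ‖(P366W.cs (rep e g) (loc e f) u).n (snc y (u y)) - e0 k‖ ^ 2 *
        (a0 (rep e g) (loc e f) y * ww (rep e g) 1 u y) ≤ (2 + 10 * κ) *
      (∫ x, ψ (F.u i x) * (Real.exp (f x) * P366M.Y.C.ww g 1 (F.u i) x) ∂vol g) -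
        2 * (1 - κ) * ∫ t, ψ t := by
  obtain ⟨N, hN⟩ := exists_nat_ge (|C| + |(m : ℝ)| + 1 + (|p (last k)| + ρ))
  have l0 : 0 < F.lam i := by linarith
  have ρ0 : 0 < ρ := by linarith
  have hB : ball p ρ ⊆ Cy (Q0 (ini p) r) N := ball_sub hp (by linarith) r2
    (by linarith [abs_nonneg C, abs_nonneg (m : ℝ)])
  have sub : Cy (Q0 (ini p) r) N ⊆ Uo (k + 1) η := cy_sub hr
  have cC := P366P.cpt_Cy (cpt_Q0 (ini p) r) N
  have R := fun y hy => reg hϑ hY hF hL (sub (a := y) hy) m i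
  have nm := fun y hy => num k1 (mb y (sub hy)).1 (R y hy).2.2.1 (R y hy).2.2.2.1
    ((mb y (sub hy)).2 fun j => pd j (U F Y ϑ m i) y) (Finset.single_le_sum
      (f := fun j => pd j (U F Y ϑ m i) y ^ 2) (fun _ _ => sq_nonneg _) (Finset.mem_univ (last k)))
  have c0 : ContinuousOn (fun y => ψ (U F Y ϑ m i y)) (Cy (Q0 (ini p) r) N) :=
    hψ.comp_continuousOn fun y hy => (R y hy).1.continuousAt.continuousWithinAt
  have i1 := (c0.mul fun y hy => (R y hy).2.1.continuousWithinAt).integrableOn_compact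
    (μ := volume) cC
  have i2 := (c0.mul fun y hy =>
    (diffAt_pd (R y hy).1 (last k)).continuousAt.continuousWithinAt).integrableOn_compact
      (μ := volume) cC
  have i3 := (i1.const_mul (2 + 10 * κ)).add (i2.const_mul 2)
  have t0 : ϑ 0 = 0 := hϑ.zero 0 (by simp)
  have f1 := ftc (cpt_Q0 (ini p) r) N.cast_nonneg S0 (fun y hy => (R y hy).1) hψ hs fun y _ => by
    have a1 := hϑ.add 0 N
    have a2 := hϑ.add 0 (-N)
    push_cast at a1 a2
    rw [zero_add, t0, zero_add] at a1 a2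
    simp only [U, P366P.snc_last, a1, a2]
    have a3 := mul_le_mul_of_nonneg_left hN l0.le
    have a4 := mul_le_mul_of_nonneg_left (le_abs_self C) l0.le
    have a5 := mul_le_mul_of_nonneg_left (le_abs_self (m : ℝ)) l0.le
    have a6 := mul_le_mul_of_nonneg_left (neg_abs_le (m : ℝ)) l0.le
    have a7 := mul_nonneg l0.le (add_nonneg (abs_nonneg (p (last k))) ρ0.le)
    constructor
    · linarith [(abs_le.1 (bd (Y (snc y (-N))))).1]
    · linarith [(abs_le.1 (bd (Y (snc y N)))).2]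
  have f2 := area (m := m) (q := ini p) (N := N) hϑ hY hF hL hψ ψ0 S0 hs hl r0 hr
  have f3 := mul_le_mul_of_nonneg_right ((sub_le_sub_left k2 1).trans (vol_Q0 hk (ini p) r0.le r1))
    (integral_nonneg ψ0 : 0 ≤ ∫ t, ψ t)
  have mA : MeasurableSet {y | y ∈ ball p ρ ∧ |u y - z₀| < 1 / 2} := (isOpen_ball.inter
    (isOpen_lt (su.cont.sub continuous_const).abs continuous_const)).measurableSet
  have sA : {y | y ∈ ball p ρ ∧ |u y - z₀| < 1 / 2} ⊆ Cy (Q0 (ini p) r) N := fun y hy => hB hy.1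
  refine (integral_mono_of_nonneg (ae_of_all _ fun y => mul_nonneg (sq_nonneg _) (mul_nonneg
    (mul_nonneg (Real.exp_pos _).le (dens_nonneg _ _)) (Real.sqrt_nonneg _))) (IntegrableOn.mono_set i3 sA)
    ((ae_restrict_mem mA).mono fun y hy => ?_)).trans ((setIntegral_mono_set i3
      ((ae_restrict_mem cC.measurableSet).mono fun y hy => ?_) sA.eventuallyLE).trans ?_)
  · have b1 : u =ᶠ[𝓝 y] U F Y ϑ m i := eventually_of_mem (isOpen_ball.mem_nhds hy.1) hu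
    have b2 : rep e g y = pl Y g y :=
      pl_congr (eventually_of_mem (isOpen_ball.mem_nhds hy.1) hb) rfl
    have b3 : a0 (rep e g) (loc e f) y = a0 (pl Y g) (fun x => f (Y x)) y := by
      rw [a0, a0, dens_of_eq b2, P366M.loc_apply, hb y hy.1]
    have b4 := (nm y (sA hy)).2
    rw [← b3] at b4
    simp only [tilt (hF.met.rep he) su, ww_congr b2 b1, pd_congr b1, ← b3, Pi.add_apply,
      Pi.mul_apply, ← hu y hy.1, ψ1 _ hy.2, one_mul]
    refine le_of_eq_of_le ?_ b4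
    rw [← ww_congr b2 b1]
    rfl
  · have b4 := mul_nonneg (ψ0 (U F Y ϑ m i y)) ((nm y hy).1.trans (nm y hy).2)
    simp only [Pi.add_apply, Pi.mul_apply, Pi.zero_apply]
    linarith
  · have b5 : 0 ≤ 2 + 10 * κ := by
      have := (abs_nonneg _).trans (mb p (sub (hB (mem_ball_self ρ0)))).1
      linarith
    refine (integral_add' (i1.const_mul _) (i2.const_mul _)).trans_le ?_
    rw [integral_const_mul, integral_const_mul]
    simp only [Pi.mul_apply]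
    rw [f1]
    linarith [mul_le_mul_of_nonneg_left f2 b5]

end ExcH

open ExcH in
/-- **EXC** -/
theorem exc : EXC := by
  intro k ϑ hk hϑ ρ ρ0 ρ1 σ σ0
  obtain ⟨κ, k0, k1, k2⟩ : ∃ κ > (0 : ℝ), κ ≤ 1 / 2 ∧ 45 * κ ≤ σ :=
    ⟨min (1 / 2) (σ / 45), by positivity, min_le_left _ _,
      by linarith [min_le_right (1 / 2) (σ / 45)]⟩
  have k3 : (1 : ℝ) ≤ k := by exact_mod_cast hk
  obtain ⟨r, r0, r1, r2⟩ : ∃ r > (0 : ℝ), r ≤ 2 * ρ ∧ 6 * k * r ≤ κ :=
    ⟨min (2 * ρ) (κ / (6 * k)), by positivity, min_le_left _ _,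
      (le_div_iff₀' (by positivity)).1 (min_le_right _ _)⟩
  have r3 : r ≤ 1 / 6 := by nlinarith
  obtain ⟨η₀, η0, mb⟩ := mat_bd (k + 1) k0
  refine ⟨κ, k0, σ, σ0, min (min η₀ σ) (r / 2), by positivity,
    fun η h0 h1 X _ _ I F g f Y v₀ hY hF hL => ?_⟩
  obtain ⟨⟨h2, h3⟩, h4⟩ : (η ≤ η₀ ∧ η ≤ σ) ∧ η ≤ r / 2 := by simpa only [le_min_iff] using h1
  obtain ⟨δ, c, d0, d1, hH⟩ := hL.hf
  obtain ⟨C, hC⟩ := hF.bd
  refine ⟨δ, c, fun m z₀ hz => ?_⟩
  let ψ : ContDiffBump z₀ := ⟨1 / 2, 3 / 4, by norm_num, by norm_num⟩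
  have p1 : tsupport ψ ⊆ Ioo (-(F.S + 2)) (F.S + 2) := by
    rw [ψ.tsupport_eq, Real.closedBall_eq_Icc, show ψ.rOut = 3 / 4 from rfl]
    exact Icc_subset_Ioo (by linarith [(abs_le.1 hz).1]) (by linarith [(abs_le.1 hz).2])
  have p2 : ∫ t, ψ t ≤ 2 := by
    refine (ψ.integral_le_measure_closedBall volume).trans ?_
    rw [Real.volume_real_closedBall (by norm_num)]
    norm_num
  have p3 : 0 ≤ ∫ t, ψ t := integral_nonneg fun _ => ψ.nonneg
  filter_upwards [hC, hL.area ψ ψ.contDiff (fun _ => ψ.nonneg) p1 κ k0, hL.sm, hF.eq,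
    hF.lam.eventually (eventually_gt_atTop (2 * (F.S + 2))), hF.ε0.eventually (gt_mem_nhds σ0)]
    with i a1 a2 a3 a4 a5 a6 p hp e he hb
  have sub : ball p ρ ⊆ Uo (k + 1) η :=
    (ball_sub (r := r) hp (by linarith) r1 le_rfl).trans (cy_sub (by linarith))
  have ev : ∀ y ∈ ball p ρ, Y =ᶠ[𝓝 y] e.symm := fun y hy =>
    eventually_of_mem (isOpen_ball.mem_nhds hy) fun z hz => (hb z hz).symm
  set u : E (k + 1) → ℝ := fun y => loc e (F.v i) y - F.lam i * (ϑ (y (last k)) + m)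
  have su : Smooth u := ContDiff.sub (hF.smv i e he)
    (contDiff_const.mul ((hϑ.sm.comp (contDiff_coord _)).add contDiff_const))
  have hu : ∀ y ∈ ball p ρ, u y = U F Y ϑ m i y := fun y hy => by
    simp only [u, U, P366M.loc_apply, hb y hy]
  have key : ∀ y ∈ ball p ρ, ∃ θ V, Lft F.Θ θ V ∧ Y y ∈ V ∧ θ (Y y) = ϑ (y (last k)) + m ∧
      u y = F.br θ i (Y y) ∧ hw (rep e g) (loc e f) u y = P366M.Gr.hw g f (F.br θ i) (Y y) :=
    fun y hy => by
      obtain ⟨θ, V, b1, b2, b3, b4⟩ := lift hϑ hY.per hF hL (sub hy) (ev y hy) m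
      have b5 : u =ᶠ[𝓝 y] loc e (F.br θ i) :=
        EventuallyEq.trans (eventually_of_mem (isOpen_ball.mem_nhds hy) hu) (b4 i)
      refine ⟨θ, V, b1, b2, b3, by rw [b5.eq_of_nhds, ← hb y hy]; rfl, ?_⟩
      rw [hw_congr b5, ← P366M.Gr.loc_hw hF.met he hF.smf (hF.sm_br b1.sm i), ← hb y hy]
      rfl
  have ms : ∀ j : ℕ, j * σ ≤ 1 → j * η ≤ 1 := fun j hj =>
    (mul_le_mul_of_nonneg_left h3 j.cast_nonneg).trans hj
  refine ⟨hF.met.rep he, hF.smf e he, su, fun a b j hj y hy => ?_, fun j hj y hy => ?_, ⟨d0, d1⟩,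
    ⟨hF.εp i, a6.le⟩, fun y hy => ?_, fun y hy h => ?_, ?_⟩
  · refine le_of_eq_of_le ?_ ((hY.gs a b j (ms j hj) y (sub hy)).trans h3)
    rw [EventuallyEq.iteratedFDeriv ℝ (f₂ := fun y => pl Y g y a b - if a = b then 1 else 0)
      ((pl_congr_ev (ev y hy) g).mono fun z hz => by simp only [hz, rep_eq_pl]) j |>.eq_of_nhds]
  · refine le_of_eq_of_le ?_ ((hY.fs j (ms j hj) y (sub hy)).trans h3)
    rw [EventuallyEq.iteratedFDeriv ℝ (f₂ := fun y => f (Y y)) (f₁ := loc e f)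
      ((ev y hy).mono fun z hz => by simp only [hz, P366M.loc_apply]) j |>.eq_of_nhds]
  · obtain ⟨θ, V, b1, b2, -, -, b5⟩ := key y hy
    exact b5 ▸ a3 θ V b1 y (sub hy) b2
  · obtain ⟨θ, V, b1, b2, b3, b4, b5⟩ := key y hy
    rw [b5, a4 θ V b1 _ b2 (by
      rw [← b4]
      linarith [abs_sub_abs_le_abs_sub (u y) z₀]), hH y (sub hy), b3, ← b4]
    ring
  · refine (excess hk hϑ hY hF hL ψ.continuous (fun _ => ψ.nonneg) (fun t ht =>
      ψ.one_of_mem_closedBall ht.le) (by linarith [hF.S0]) (subset_closure.trans p1)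
      (by linarith) r0 (by linarith) r3 r1 ρ1 k1 r2 (fun y hy => mb (mat (pl Y g) y) _
        (fun a b => ?_) ?_) a1 hp he hb su hu).trans ?_
    · simpa [mat] using (hY.gs a b 0 (by simp) y hy).trans h2
    · simpa using (hY.fs 0 (by simp) y hy).trans h2
    · nlinarith [mul_le_mul_of_nonneg_left a2 (show 0 ≤ 2 + 10 * κ by linarith),
        mul_le_mul_of_nonneg_left p2 k0.le, mul_le_mul_of_nonneg_left k1 k0.le,
        mul_le_mul_of_nonneg_left k1 (mul_nonneg k0.le p3)]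

end Vale.Agent.P366C
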