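import Vale.Agent.P366C.Flt0
import Vale.Agent.P366D.Lat

/-!
# P366C: Euclidean lemmas for the row `EXC`
-/

open MeasureTheory Metric Filter Topology Set
open scoped ContDiff ENNReal RealInnerProductSpace
open Vale.Agent.P366.Stmt Vale.Agent.P366Z Vale.Agent.P366W
open Vale.Agent.P366D (snc ini Uo Sml Nr pl lat)
open Vale.Agent.P366P (hw Cy)
open Vale.Agent.P366Y.C (ww)
open Fin (last)

noncomputable section

namespace Vale.Agent.P366C.ExcH

variable {n k : ℕ}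

theorem ww_congr {G G' : P366.Stmt.Field n} {u u' : E n → ℝ} {y : E n} (e : G y = G' y)
    (h : u =ᶠ[𝓝 y] u') : ww G 1 u y = ww G' 1 u' y := by
  rw [ww, ww, ip_congr h h, ip_of_eq e]

theorem hw_congr {G : P366.Stmt.Field n} {φ u u' : E n → ℝ} {y : E n} (h : u =ᶠ[𝓝 y] u') :
    hw G φ u y = hw G φ u' y := by
  have h1 : ∀ i, P366P.nv G u i =ᶠ[𝓝 y] P366P.nv G u' i := fun i => by
    filter_upwards [h.eventuallyEq_nhds, gr_congr_ev (g := G) h i] with z a b
    rw [P366P.nv, P366P.nv, ww_congr rfl a, b]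
  simp only [hw, P366P.dvw, dv_congr h1, (h1 _).eq_of_nhds]

theorem mat_bd (n : ℕ) {κ : ℝ} (hκ : 0 < κ) : ∃ η₁ > (0 : ℝ),
    ∀ (G : Matrix (Fin n) (Fin n) ℝ) (s : ℝ), (∀ i j, |G i j - if i = j then 1 else 0| ≤ η₁) →
      |s| ≤ η₁ → |Real.exp s * √G.det - 1| ≤ κ ∧
        ∀ ξ : Fin n → ℝ, (1 - κ) * ∑ i, ξ i ^ 2 ≤ ∑ i, ∑ j, G⁻¹ i j * ξ i * ξ j := by
  have c1 : ContinuousAt (fun G : Matrix (Fin n) (Fin n) ℝ => G⁻¹) 1 :=
    continuousAt_matrix_inv _ (by
      rw [Matrix.det_one, Ring.inverse_eq_inv']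
      exact continuousAt_inv₀ one_ne_zero)
  have c2 : ContinuousAt (fun p : (Fin n → Fin n → ℝ) × ℝ =>
      |Real.exp p.2 * √(Matrix.of p.1).det - 1|) ((1 : Matrix (Fin n) (Fin n) ℝ), 0) :=
    (((Real.continuous_exp.comp continuous_snd).mul
      (continuous_fst.matrix_det).sqrt).sub continuous_const).abs.continuousAt
  have c3 : ∀ i j, ContinuousAt (fun p : (Fin n → Fin n → ℝ) × ℝ =>
      |(if i = j then 1 else 0) - (Matrix.of p.1)⁻¹ i j|) ((1 : Matrix (Fin n) (Fin n) ℝ), 0) :=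
    fun i j => (continuousAt_const.sub (((continuous_id.matrix_elem i j).continuousAt.comp
      c1).comp_of_eq continuousAt_fst rfl)).abs
  have k0 : 0 < κ / (n + 1) := by positivity
  obtain ⟨δ, δ0, h⟩ := Metric.eventually_nhds_iff.1 ((c2.eventually (gt_mem_nhds (a := κ) (by
    change |Real.exp 0 * √(1 : Matrix (Fin n) (Fin n) ℝ).det - 1| < _
    simpa using hκ))).and (eventually_all.2 fun i => eventually_all.2 fun j =>
      (c3 i j).eventually (gt_mem_nhds (a := κ / (n + 1)) (by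
        change |_ - (1 : Matrix (Fin n) (Fin n) ℝ)⁻¹ i j| < _
        simpa [Matrix.one_apply] using k0))))
  refine ⟨δ / 2, by positivity, fun G s hG hs => ?_⟩
  obtain ⟨h1, h2⟩ := h (y := (G, s)) (by
    rw [Prod.dist_eq, max_lt_iff, Real.dist_eq, sub_zero]
    refine ⟨(dist_pi_lt_iff δ0).2 fun i => (dist_pi_lt_iff δ0).2 fun j => ?_, by linarith⟩
    rw [Real.dist_eq]
    exact (hG i j).trans_lt (by linarith))
  refine ⟨h1.le, fun ξ => ?_⟩
  have h3 := quad_le_of_bd (fun i j => (h2 i j).le) ξ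
  have h4 : (n : ℝ) * (κ / (n + 1)) ≤ κ := by
    rw [← mul_div_assoc, div_le_iff₀ (by positivity)]
    linarith
  have h5 := mul_le_mul_of_nonneg_right h4 (Finset.sum_nonneg fun i (_ : i ∈ Finset.univ) =>
    sq_nonneg (ξ i))
  simp only [sub_mul, Finset.sum_sub_distrib, ite_mul, one_mul, zero_mul, Finset.sum_ite_eq,
    Finset.mem_univ, if_true, ← sq] at h3
  change _ - ∑ i, ∑ j, G⁻¹ i j * ξ i * ξ j ≤ _ at h3
  linarith

theorem num {a W s q D κ : ℝ} (k1 : κ ≤ 1 / 2) (ha : |a - 1| ≤ κ) (W0 : 0 < W)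
    (hW : W ^ 2 = 1 + q) (hq : (1 - κ) * s ≤ q) (hD : D ^ 2 ≤ s) :
    0 ≤ ((1 + s) / W ^ 2 + 2 * D / W + 1) * (a * W) ∧
      ((1 + s) / W ^ 2 + 2 * D / W + 1) * (a * W) ≤ (2 + 10 * κ) * (a * W) + 2 * D := by
  obtain ⟨a1, a2⟩ := abs_le.1 ha
  have k0 : 0 ≤ κ := by linarith
  have s0 : 0 ≤ s := (sq_nonneg D).trans hD
  have h1 : 1 + s ≤ (1 + 2 * κ) * W ^ 2 := by
    nlinarith [mul_nonneg (mul_nonneg k0 s0) (show 0 ≤ 1 - 2 * κ by linarith),
      mul_le_mul_of_nonneg_left hq (show 0 ≤ 1 + 2 * κ by linarith)]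
  have h2 : |D| ≤ 2 * W := abs_le_of_sq_le_sq (by nlinarith) (by positivity)
  have h3 : (1 + s) / W ^ 2 ≤ 1 + 2 * κ := by rwa [div_le_iff₀ (by positivity)]
  have h4 : 2 * D / W * (a * W) = 2 * D + 2 * ((a - 1) * D) := by field_simp; ring
  have h5 : (a - 1) * D ≤ κ * (2 * W) := (le_abs_self _).trans (by rw [abs_mul]; gcongr)
  have aW : 0 ≤ a * W := mul_nonneg (by linarith) W0.le
  refine ⟨mul_nonneg ?_ aW, ?_⟩
  · have : (1 + s) / W ^ 2 + 2 * D / W + 1 = (1 + s - D ^ 2 + (W + D) ^ 2) / W ^ 2 := by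
      field_simp
      ring
    rw [this]
    exact div_nonneg (by nlinarith [sq_nonneg (W + D)]) (sq_nonneg _)
  · nlinarith [mul_le_mul_of_nonneg_right h3 aW,
      mul_nonneg (mul_nonneg k0 W0.le) (show 0 ≤ 2 * a - 1 by linarith)]

theorem tilt {G : P366.Stmt.Field (k + 1)} {φ u : E (k + 1) → ℝ} (hG : Met G) (hu : Smooth u)
    (y : E (k + 1)) (z : ℝ) : ‖(P366W.cs G φ u).n (snc y z) - e0 k‖ ^ 2 =
      (1 + ∑ i, pd i u y ^ 2) / ww G 1 u y ^ 2 + 2 * pd (last k) u y / ww G 1 u y + 1 := by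
  have W0 := (P366P.w_pos hG u y).ne'
  rw [cs_n hu, P366P.ini_snc, e0, map_neg, neg_neg, norm_sq_eq, Fin.sum_univ_castSucc]
  simp only [PiLp.sub_apply, PiLp.smul_apply, smul_eq_mul, Lz_cs, Lz_last, el_cs, el_last,
    grad_apply (hu.diff y)]
  rw [Fin.sum_univ_castSucc, Fin.sum_univ_castSucc]
  simp only [el_cs, el_last, zero_sub, sub_zero, mul_neg, neg_sq, mul_pow, ← Finset.mul_sum]
  field_simp
  ring

/-- the integral of the vertical derivative -/
theorem ftc {U : E (k + 1) → ℝ} {ψ : ℝ → ℝ} {Q : Set (E k)} {N S : ℝ} (hQ : IsCompact Q)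
    (N0 : 0 ≤ N) (S0 : 0 ≤ S) (hU : ∀ y ∈ Cy Q N, ContDiffAt ℝ 2 U y) (hψ : Continuous ψ)
    (hs : Function.support ψ ⊆ Ioo (-S) S)
    (h : ∀ y ∈ Q, S ≤ U (snc y (-N)) ∧ U (snc y N) ≤ -S) :
    ∫ y in Cy Q N, ψ (U y) * pd (last k) U y = -(volume.real Q * ∫ t, ψ t) := by
  have m : ∀ y ∈ Q, ∀ t ∈ Icc (-N) N, snc y t ∈ Cy Q N := fun y hy t ht =>
    ⟨by rwa [P366P.ini_snc], by rw [P366P.snc_last]; exact abs_le.2 ht⟩
  have c1 : ContinuousOn U (Cy Q N) := fun y hy => (hU y hy).continuousAt.continuousWithinAt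
  have c2 : ContinuousOn (pd (last k) U) (Cy Q N) := fun y hy =>
    (diffAt_pd (hU y hy) _).continuousAt.continuousWithinAt
  have c3 : ContinuousOn (fun p : E k × ℝ => ψ (U (snc p.1 p.2)) * pd (last k) U (snc p.1 p.2))
      (Q ×ˢ Icc (-N) N) := ((hψ.comp_continuousOn c1).mul c2).comp P366P.cont_snc.continuousOn
    fun p hp => m _ hp.1 _ hp.2
  rw [P366P.Cy_eq, P366P.mp_snc.setIntegral_image_emb P366P.emb_snc,
    setIntegral_prod _ (c3.integrableOn_compact (hQ.prod isCompact_Icc)),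
    setIntegral_congr_fun (g := fun _ => -∫ t, ψ t) hQ.measurableSet fun y hy => ?_]
  · simp
  have u : uIcc (-N) N = Icc (-N) N := uIcc_of_le (by linarith)
  have d : ∀ t ∈ uIcc (-N) N, HasDerivAt (fun t => U (snc y t)) (pd (last k) U (snc y t)) t :=
    fun t ht => by
      have h1 := diff2 (hU _ (m y hy t (u ▸ ht)))
      have h2 : HasDerivAt (fun t : ℝ => snc y t) (el k) t := by
        have := ((hasDerivAt_id' t).smul_const (el k)).const_add (Lz k y)
        simp only [Lz_add, one_smul] at this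
        exact this
      rw [pd_eq h1]
      exact h1.hasFDerivAt.comp_hasDerivAt t h2
  have c4 : ContinuousOn (fun t => pd (last k) U (snc y t)) (uIcc (-N) N) :=
    c2.comp (P366P.cont_snc.comp (Continuous.prodMk_right y)).continuousOn
      fun t ht => m y hy t (u ▸ ht)
  have := intervalIntegral.integral_comp_mul_deriv d c4 hψ
  simp only
  rw [integral_Icc_eq_integral_Ioc, ← intervalIntegral.integral_of_le (by linarith)]
  refine this.trans ?_
  rw [intervalIntegral.integral_symm, intervalIntegral.integral_eq_integral_of_support_subset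
    (hs.trans fun t ht => ⟨(h y hy).2.trans_lt ht.1, ht.2.le.trans (h y hy).1⟩)]

/-- a cube without the neighbourhoods of the lattice points -/
def Q0 (q : E k) (r : ℝ) : Set (E k) :=
  {y | (∀ i, |y i - q i| ≤ 1 / 2 - r) ∧ ∀ z, r ≤ ‖y - lat z‖}

theorem cpt_Q0 (q : E k) (r : ℝ) : IsCompact (Q0 q r) := by
  have c1 : IsClosed (Q0 q r) := by
    refine IsClosed.inter (s₁ := {y : E k | ∀ i, _}) (s₂ := {y : E k | ∀ z, _}) ?_ ?_ <;>
      rw [ofPred_forall]
    · exact isClosed_iInter fun i => isClosed_le (by fun_prop) continuous_const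
    · exact isClosed_iInter fun z => isClosed_le continuous_const (by fun_prop)
  refine (isCompact_closedBall q (√(k * (1 / 2 - r) ^ 2))).of_isClosed_subset c1 fun y hy => ?_
  rw [mem_closedBall_iff_norm]
  refine Real.le_sqrt_of_sq_le ?_
  rw [norm_sq_eq]
  refine (Finset.sum_le_card_nsmul _ _ ((1 / 2 - r) ^ 2) fun i _ => ?_).trans (by simp)
  rw [← sq_abs]
  exact pow_le_pow_left₀ (abs_nonneg _) (hy.1 i) 2

theorem vol_Q0 (hk : 1 ≤ k) (q : E k) {r : ℝ} (r0 : 0 ≤ r) (r1 : r ≤ 1 / 6) :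
    1 - 6 * k * r ≤ volume.real (Q0 q r) := by
  set J : Fin k → Set ℝ := fun i => Icc (q i - (1 / 2 - r)) (q i + (1 / 2 - r)) \
    (ball (⌊q i⌋ : ℝ) r ∪ ball (⌊q i⌋ + 1 : ℝ) r)
  have mJ : ∀ i, MeasurableSet (J i) := fun i =>
    measurableSet_Icc.diff (measurableSet_ball.union measurableSet_ball)
  have vJ : ∀ i, ENNReal.ofReal (1 - 6 * r) ≤ volume (J i) := fun i => by
    refine le_trans ?_ le_measure_sdiff
    refine le_trans ?_ (tsub_le_tsub_left (measure_union_le _ _) _)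
    rw [Real.volume_Icc, Real.volume_ball, Real.volume_ball, ← ENNReal.ofReal_add (by linarith)
      (by linarith), ← ENNReal.ofReal_sub _ (by linarith)]
    exact ENNReal.ofReal_le_ofReal (by linarith)
  have sub : (WithLp.ofLp : E k → Fin k → ℝ) ⁻¹' univ.pi J ⊆ Q0 q r := fun y hy => by
    have h1 : ∀ i, |y i - q i| ≤ 1 / 2 - r := fun i => abs_le.2
      ⟨by linarith [(hy i trivial).1.1], by linarith [(hy i trivial).1.2]⟩
    refine ⟨h1, fun z => le_trans ?_ (PiLp.norm_apply_le (y - lat z) ⟨0, hk⟩)⟩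
    generalize (⟨0, hk⟩ : Fin k) = i
    rw [PiLp.sub_apply, P366D.lat_apply, Real.norm_eq_abs]
    by_contra h2
    obtain ⟨a1, a2⟩ := abs_lt.1 (not_le.1 h2)
    obtain ⟨a3, a4⟩ := abs_le.1 (h1 i)
    have a5 : ⌊q i⌋ ≤ z i := by
      rw [← Int.lt_add_one_iff, Int.floor_lt]
      push_cast
      linarith
    have a6 : z i ≤ ⌊q i⌋ + 1 := by
      rw [← sub_le_iff_le_add, Int.le_floor]
      push_cast
      linarith
    refine (hy i trivial).2 ?_
    rcases a5.eq_or_lt with a7 | a7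
    · exact .inl (by rw [mem_ball, Real.dist_eq, a7]; exact not_le.1 h2)
    · refine .inr ?_
      rw [mem_ball, Real.dist_eq, show (⌊q i⌋ + 1 : ℝ) = z i by exact_mod_cast (by omega)]
      exact not_le.1 h2
  have h1 := measure_mono (μ := volume) sub
  rw [(PiLp.volume_preserving_ofLp (Fin k)).measure_preimage
    (MeasurableSet.univ_pi mJ).nullMeasurableSet, volume_pi_pi] at h1
  have h2 := (Finset.pow_card_le_prod _ _ _ fun i _ => vJ i).trans h1
  rw [Finset.card_fin, ← ENNReal.ofReal_pow (by linarith),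
    ENNReal.ofReal_le_iff_le_toReal (cpt_Q0 q r).measure_lt_top.ne] at h2
  refine le_trans ?_ h2
  have := one_add_mul_le_pow (a := -(6 * r)) (by linarith) k
  rw [← sub_eq_add_neg] at this
  linarith

theorem cy_sub {q : E k} {r η N : ℝ} (h : η < r) : Cy (Q0 q r) N ⊆ Uo (k + 1) η := fun y hy z => by
  refine (h.trans_le (hy.1.2 fun i => z i.castSucc)).trans_le ?_
  refine abs_le_of_sq_le_sq' ?_ (norm_nonneg _) |>.2
  rw [norm_sq_eq, norm_sq_eq, Fin.sum_univ_castSucc]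
  exact le_add_of_nonneg_right (sq_nonneg _)

theorem ball_sub {p : E (k + 1)} {r ρ N : ℝ} (hp : ini p ∈ Uo k (3 * ρ)) (h1 : ρ ≤ 1 / 2 - r)
    (h2 : r ≤ 2 * ρ) (h3 : |p (last k)| + ρ ≤ N) : ball p ρ ⊆ Cy (Q0 (ini p) r) N := fun y hy => by
  rw [mem_ball_iff_norm] at hy
  have a1 : ∀ i, |y i - p i| < ρ := fun i => (PiLp.norm_apply_le (y - p) i).trans_lt hy
  have a2 : ‖ini y - ini p‖ ≤ ‖y - p‖ := by
    refine abs_le_of_sq_le_sq' ?_ (norm_nonneg _) |>.2
    rw [norm_sq_eq, norm_sq_eq, Fin.sum_univ_castSucc]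
    exact le_add_of_nonneg_right (sq_nonneg _)
  refine ⟨⟨fun i => (a1 _).le.trans h1, fun z => ?_⟩, ?_⟩
  · have := norm_sub_le_norm_sub_add_norm_sub (ini p) (ini y) (lat z)
    rw [norm_sub_rev (ini p) (ini y)] at this
    linarith [hp z]
  · linarith [abs_sub_abs_le_abs_sub (y (last k)) (p (last k)), a1 (last k)]

end Vale.Agent.P366C.ExcH
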