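import Vale.Agent.P366C.Flt1
import Vale.Agent.P366C.Nul0
import Vale.Agent.P366W.White3
import Vale.Agent.P366D.Lat

/-!
# P366C: the row `GOOD`
-/

open MeasureTheory Metric Filter Topology Set
open scoped ContDiff
open Vale.Agent.P366.Stmt Vale.Agent.P366Z Vale.Agent.P366W
open Vale.Agent.P366D (snc ini Uo Nr lat isOpen_Uo)
open Vale.Agent.P366M (Mf0 Fld At rep loc)
open Vale.Agent.P366M.An (Vt Fd Lft)
open Fin (last)

noncomputable section

namespace Vale.Agent.P366C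

namespace GoodH

variable {k : ℕ}

theorem cg_mono {ϑ : ℝ → ℝ} {G : P366.Stmt.Field (k + 1)} {φ u : E (k + 1) → ℝ} {p : E (k + 1)}
    {ρ z₀ σ σ' δ c ε : ℝ} (h : Cg ϑ G φ u p ρ z₀ σ δ c ε) (hs : σ ≤ σ') :
    Cg ϑ G φ u p ρ z₀ σ' δ c ε :=
  have ms : ∀ j : ℕ, j * σ' ≤ 1 → j * σ ≤ 1 := fun j hj =>
    (mul_le_mul_of_nonneg_left hs j.cast_nonneg).trans hj
  ⟨h.met, h.smφ, h.smu, fun i j m hm y hy => (h.gs i j m (ms m hm) y hy).trans hs,
    fun m hm y hy => (h.fs m (ms m hm) y hy).trans hs, ⟨h.δ0.1, h.δ0.2.trans hs⟩,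
    ⟨h.ε0.1, h.ε0.2.trans hs⟩, fun y hy => (h.hb y hy).trans hs, h.eq, h.ex.trans hs⟩

theorem norm_e0 (k : ℕ) : ‖e0 k‖ = 1 := by
  rw [e0, norm_neg, (Lz _).norm_map, norm_neg, (fr_el k).one]

theorem ball_sub {q : E (k + 1)} {r s η : ℝ} (hq : ini q ∈ Uo k r) (h : η + s ≤ r) :
    ball q s ⊆ Uo (k + 1) η := fun y hy z => by
  have h1 := hq fun i => z i.castSucc
  have h2 := norm_ini_le (q - lat z)
  have h3 := norm_sub_le_norm_sub_add_norm_sub q y (lat z)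
  rw [mem_ball_iff_norm'] at hy
  change ‖ini q - lat fun i => z i.castSucc‖ ≤ _ at h2
  linarith

end GoodH

open GoodH in
/-- **GOOD** -/
theorem good_of (h1 : TL1) (h2 : CHS) (h3 : EXC) : GOOD := by
  intro k ϑ hk hϑ ε₀ e0 ρ ρ0
  obtain ⟨r, r0, r1, r2⟩ : ∃ r > (0 : ℝ), r ≤ 1 / 4 ∧ 3 * r ≤ ρ :=
    ⟨min (1 / 4) (ρ / 3), by positivity, min_le_left _ _,
      by linarith [min_le_right (1 / 4) (ρ / 3)]⟩
  have l0 : 0 < r / 8 := by positivity
  obtain ⟨s₁, s1, t1⟩ := h1 (k + 1) (ε₀ / 2) (by positivity)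
  obtain ⟨s₂, s2, t2⟩ := h2 k ϑ hϑ _ l0 (by linarith) s₁ s1
  obtain ⟨s₃, s3, t3⟩ := h2 k ϑ hϑ _ l0 (by linarith) ε₀ e0
  obtain ⟨ζ, ζ0, τ, τ0, η₁, η0, t4⟩ := h3 k ϑ hk hϑ r r0 r1 _ (lt_min s2 s3)
  refine ⟨ζ, ζ0, τ, τ0, min η₁ r, lt_min η0 r0, fun η a1 a2 X _ _ I F g f Y v₀ hY hF hL p hp => ?_⟩
  obtain ⟨a3, a4⟩ := le_min_iff.1 a2
  obtain ⟨δ, c, t5⟩ := t4 η a1 a3 X I F g f Y v₀ hY hF hL
  have key : ∀ q, ini q ∈ Uo k (3 * r) → F.Good g f ε₀ (Y q) := fun q hq => by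
    have sub : ball q (2 * r) ⊆ Uo (k + 1) η := ball_sub hq (by linarith)
    obtain ⟨e, he, hb⟩ := hY.per.cht q r r1 sub
    have hG := hF.met.rep he
    have hφ : Smooth (loc e f) := hF.smf e he
    rw [← hb q (mem_ball_self r0)]
    refine ⟨e, he, P366M.symm_mem he q, 0, ?_⟩
    simp only [add_zero, P366M.right_inv he]
    obtain ⟨i, hi⟩ := (t5 0 0 (by rw [abs_zero]; linarith [hF.S0])).exists
    refine ⟨(t3 _ _ _ _ _ _ _ _ _ (by linarith) (cg_mono (hi q hq e he hb) (min_le_right _ _))).1,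
      fun θ V b1 b2 z hz hB => ?_⟩
    have c1 := P366M.tendsto_symm he q
    obtain ⟨m, b3⟩ := P366M.An.ev_int (a := fun y => θ (e.symm y) - ϑ (y (last k))) (y := q)
      ((b1.sm.cont.continuousAt.comp c1).sub
        (hϑ.sm.continuous.comp (contDiff_coord (m := 0) _).continuous).continuousAt) (by
        filter_upwards [c1.eventually (b1.opn.mem_nhds b2), ball_mem_nhds q r0] with y a b
        obtain ⟨s, hs⟩ := b1.int _ a
        obtain ⟨t, ht⟩ := hL.th y (sub (ball_subset_ball (by linarith) b))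
        exact ⟨t + s, by rw [hs, hb y b, ht]; push_cast; ring⟩)
    obtain ⟨d, d0, b4⟩ := Metric.eventually_nhds_iff_ball.1 b3
    have hB' := bad_congr (u' := fun i y => loc e (F.v i) y - F.lam i * (ϑ (y (last k)) + m)) hG hφ
      (fun i => hF.sm_br b1.sm i e he) (fun i => ContDiff.sub (hF.smv i e he)
        (contDiff_const.mul ((hϑ.sm.comp (contDiff_coord _)).add contDiff_const))) d0
      (Eventually.of_forall fun i y hy => by
        rw [← b4 y hy, add_sub_cancel]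
        rfl) hB
    obtain ⟨l, b5, b6⟩ := (Frequently.and_eventually hB' (Ioc_mem_nhdsGT l0)).exists
    obtain ⟨i, b7, b8⟩ := (b5.and (t5 m z hz)).exists
    have b9 := cg_mono (b8 q hq e he hb) (min_le_left _ _)
    have b10 := t1 _ _ (norm_e0 k) ((t2 _ _ _ _ _ _ _ _ _ (by linarith) b9).2 z (by simp)).2
      (l / (r / 8)) (div_pos b6.1 l0) ((div_le_one l0).2 b6.2)
    rw [sc_th (cs_ok hG hφ b9.smu) _ l0, smul_zero, add_zero, mul_div_cancel₀ _ l0.ne'] at b10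
    linarith [b7.trans b10]
  have hp' : ini p ∈ Uo k (3 * r) := P366D.Uo_mono r2 hp
  obtain ⟨e, he, b1⟩ := hY.per.exists_chart (ball_sub hp' (s := r) (by linarith) (mem_ball_self r0))
  rw [Fd.Sg, mem_closure_iff_frequently, b1.eq_of_nhds, not_frequently]
  refine (P366M.ev_iff he).2 ?_
  filter_upwards [b1, (P366D.cd_ini (m := 0)).continuous.continuousAt.eventually
    (isOpen_Uo.mem_nhds hp')] with q a b
  exact not_not.2 (a ▸ key q b)

end Vale.Agent.P366C
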