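import Vale.Agent.P366R.Rgc3

/-!
# P366C: limits of graphs over a prescribed hyperplane
-/

open MeasureTheory Metric Filter Topology Set
open scoped ContDiff ENNReal RealInnerProductSpace
open Vale.Agent.P366.Stmt Vale.Agent.P366Y Vale.Agent.P366W Vale.Agent.P366Z Vale.Agent.P366R

noncomputable section

namespace Vale.Agent.P366C

theorem glim2 (m : ℕ) : ∃ ε > (0 : ℝ), ∃ c > (0 : ℝ), c ≤ 1 / 4 ∧
    ∀ (ι : Type) (𝒰 : Ultrafilter ι) (S : ι → Surf (m + 1)) (O : Set (E (m + 1)))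
      (B : E (m + 1) → En (m + 1)) (a h : E (m + 1) → ℝ) (p e : E (m + 1))
      (L : E m →ₗᵢ[ℝ] E (m + 1)) (l : ℝ) (x : ι → E (m + 1)), Cv 𝒰 S O B a h → 0 < l →
      ball p (4 * l) ⊆ O → Fr e L → Tendsto x 𝒰 (𝓝 p) →
      (∀ᶠ i in (𝒰 : Filter ι), (S i).Bd p (4 * l) ε (ε / l) ∧ (S i).th p l ≤ 1 + ε ∧
        (S i).Φ (x i) = 0 ∧ ‖(S i).n (x i) - e‖ ≤ c) → ∃ w w₀, Gl 𝒰 S B a p e L (c * l) w w₀ := by
  obtain ⟨ε, ε0, c₀, c0, C, hw⟩ := white m (1 / 2) ⟨by norm_num, by norm_num⟩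
  obtain ⟨c₁, c1, c2, c3⟩ : ∃ c₁ > (0 : ℝ), c₁ ≤ c₀ ∧ c₁ ≤ 1 :=
    ⟨min c₀ 1, lt_min c0 one_pos, min_le_left _ _, min_le_right _ _⟩
  refine ⟨ε, ε0, c₁ / 4, by positivity, by linarith,
    fun ι 𝒰 S O B a h p e L l x hC hl hO hF hx hb => ?_⟩
  have cl : 0 < c₁ * l := by positivity
  obtain ⟨A, hA⟩ := c2h_aff (m := m) (α := 1 / 2) (A := C) hl
  have key : ∀ᶠ i in (𝒰 : Filter ι), ∃ w : E m → ℝ, (Smooth w ∧ C2H (1 / 2) A w ∧
      (∀ y, ‖gradient w y‖ ≤ 1 / 2) ∧ Gr (S i) p e L (2 * (c₁ / 4 * l)) w) ∧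
      |w 0| ≤ 2 * ‖x i - p‖ := by
    filter_upwards [hC.ok, hb, hx.eventually (ball_mem_nhds p (lt_min one_pos (half_pos cl)))]
      with i h1 ⟨h2, h3, h4, h5⟩ h6
    rw [dist_eq_norm, lt_min_iff] at h6
    have k4 := (scb m (S i) p p _ _ _ l 4 h1 h2 hl (by rw [mul_comm])).mono Subset.rfl le_rfl
      (show l * (ε / l) ≤ ε by rw [mul_div_cancel₀ _ hl.ne'])
    have k5 : p + l • (l⁻¹ • (x i - p)) = x i := by simp [smul_smul, hl.ne']
    obtain ⟨w, w1, w2, w3, w4⟩ := (hw _ (sc_ok h1 p hl) k4 (by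
      rwa [sc_th h1 p hl, smul_zero, add_zero, mul_one])).2 (l⁻¹ • (x i - p)) (by
        rw [mem_ball_zero_iff, norm_smul, norm_inv, Real.norm_of_nonneg hl.le,
          inv_mul_lt_iff₀ hl]
        nlinarith [h6.2]) (by rwa [sc_Φ, k5]) e L hF (by rw [sc_n h1 p hl, k5]; linarith)
    have d1 : |⟪e, x i - p⟫| ≤ ‖x i - p‖ := by
      simpa [hF.one] using abs_real_inner_le_norm e (x i - p)
    have d2 := hF.norm_adj (x i - p)
    have wd := w2.1.differentiable two_ne_zero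
    refine ⟨fun y => ⟪e, x i - p⟫ + l * w (l⁻¹ • (y - adj L (x i - p))), ⟨contDiff_const.add
      (contDiff_const.mul (ContDiff.comp w1 ((contDiff_id.sub contDiff_const).const_smul _))),
      hA w _ _ w2 (d1.trans h6.1.le), fun y => ?_, fun y s y1 s1 => ?_⟩, ?_⟩
    · rw [norm_gradient, (fderiv_aff wd l l⁻¹ _ _ y).fderiv, mul_inv_cancel₀ hl.ne', one_smul,
        ← norm_gradient]
      exact w3 _
    · have y2 : ‖l⁻¹ • (y - adj L (x i - p))‖ < c₀ := by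
        rw [norm_smul, norm_inv, Real.norm_of_nonneg hl.le, inv_mul_lt_iff₀ hl]
        have := norm_sub_le y (adj L (x i - p))
        nlinarith [h6.2]
      have s2 : |l⁻¹ * (s - ⟪e, x i - p⟫)| < c₀ := by
        rw [abs_mul, abs_of_pos (inv_pos.2 hl), inv_mul_lt_iff₀ hl]
        have := abs_sub s ⟪e, x i - p⟫
        nlinarith [h6.2]
      have g := w4 _ _ y2 s2
      have e1 : p + l • (l⁻¹ • (x i - p) + L (l⁻¹ • (y - adj L (x i - p))) +
          (l⁻¹ * (s - ⟪e, x i - p⟫)) • e) = p + L y + s • e := by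
        have := hF.dec (x i - p)
        simp only [map_smul, smul_add, mul_smul, smul_inv_smul₀ hl.ne', map_sub L, sub_smul]
        linear_combination (norm := module) -this
      rw [sc_Φ, e1] at g
      rw [g.1, g.2, inv_mul_lt_iff₀ hl, inv_mul_eq_iff_eq_mul₀ hl.ne', sub_lt_iff_lt_add',
        sub_eq_iff_eq_add']
      exact ⟨Iff.rfl, Iff.rfl⟩
    · have w0 : w 0 = 0 := ((w4 0 0 (by simpa) (by simpa)).2.1 (by
        rwa [sc_Φ, map_zero, add_zero, zero_smul, add_zero, k5])).symm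
      have := lip_of_grad wd w3 (l⁻¹ • (0 - adj L (x i - p))) 0
      rw [w0, sub_zero, sub_zero, norm_smul, norm_inv, Real.norm_of_nonneg hl.le, zero_sub,
        norm_neg] at this
      refine (abs_add_le _ _).trans ?_
      rw [abs_mul, abs_of_pos hl, zero_sub]
      have h7 := mul_le_mul_of_nonneg_left this hl.le
      rw [← mul_assoc, ← mul_assoc, mul_right_comm l, mul_inv_cancel₀ hl.ne'] at h7
      linarith [norm_nonneg (x i - p)]
  obtain ⟨w, hw'⟩ := key.choice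
  have O1 : cyl p e L (2 * (c₁ / 4 * l)) ⊆ O := (cyl_sub_ball hF).trans (Subset.trans
    (ball_subset_ball (by nlinarith)) hO)
  have h0 : Tendsto (fun i => w i 0) 𝒰 (𝓝 0) := squeeze_zero_norm' (hw'.mono fun i hi => hi.2)
    (by simpa using (tendsto_iff_norm_sub_tendsto_zero.1 hx).const_mul 2)
  obtain ⟨w₀, s0, b0, m0, m1, m2⟩ := hC.smooth hF ⟨by norm_num, by norm_num⟩ (by positivity) O1
    (hw'.mono fun i hi => hi.1.2) h0
  have cw := hC.cw hF (by positivity) O1 (hw'.mono fun i hi => ⟨hi.1.2.1.1, hi.1.2.2.2⟩) s0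
    (fun y hy => (b0 y hy).1.trans_lt (by linarith)) m0 m1 m2
  rw [mul_div_cancel_left₀ _ two_ne_zero] at b0 m0 m1 m2 cw
  exact ⟨w, w₀, hF, s0, b0, ⟨A, hw'.mono fun i hi => hi.1⟩, m0, m1, m2, cw⟩

end Vale.Agent.P366C
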