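import Vale.Agent.P366C.Flt1
import Vale.Agent.P366C.Loc0
import Vale.Agent.P366C.Nul0
import Vale.Agent.P366W.Tilt

/-!
# P366C: the limit of almost vertical capillary graphs
-/

open MeasureTheory Metric Filter Topology Set
open scoped ContDiff RealInnerProductSpace
open Vale.Agent.P366.Stmt Vale.Agent.P366Z Vale.Agent.P366W Vale.Agent.P366R
open Vale.Agent.P366D (snc ini)
open Vale.Agent.P366P (hw ini_snc snc_last snc_ini sm_ini cont_snc)
open Vale.Agent.P366M.An (Vt)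
open Fin (last)

noncomputable section

namespace Vale.Agent.P366C

variable {k N : ℕ} {ϑ : ℝ → ℝ} {G : P366.Stmt.Field (k + 1)} {φ u : E (k + 1) → ℝ}
  {p : E (k + 1)} {ρ z₀ σ σ' δ c ε : ℝ}

theorem Fs.mono {S : Surf N} {e : E N} (h : Fs S e σ) (hσ : σ ≤ σ') : Fs S e σ' :=
  ⟨h.ok, h.bd.mono Subset.rfl hσ hσ, h.ex.trans hσ⟩

theorem Cg.mono (h : Cg ϑ G φ u p ρ z₀ σ δ c ε) (hσ : σ ≤ σ') : Cg ϑ G φ u p ρ z₀ σ' δ c ε :=
  have a : ∀ m : ℕ, m * σ' ≤ 1 → m * σ ≤ 1 := fun m =>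
    (mul_le_mul_of_nonneg_left hσ m.cast_nonneg).trans
  ⟨h.met, h.smφ, h.smu, fun i j m b y hy => (h.gs i j m (a m b) y hy).trans hσ,
    fun m b y hy => (h.fs m (a m b) y hy).trans hσ, ⟨h.δ0.1, h.δ0.2.trans hσ⟩,
    ⟨h.ε0.1, h.ε0.2.trans hσ⟩, fun y hy => (h.hb y hy).trans hσ, h.eq, h.ex.trans hσ⟩

theorem fr_nel (k : ℕ) : Fr (-el k) (Lz k) :=
  ⟨by rw [norm_neg, (fr_el k).one], fun y => by rw [inner_neg_left, (fr_el k).ort, neg_zero]⟩

theorem fr_e0 (k : ℕ) : Fr (e0 k) (Lh (Lz k)) := fr_Lh (fr_nel k)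

theorem zs_app {n : ℕ} {I : Type} {𝒰 : Ultrafilter I} {G : P366.Stmt.Field n} {φ : E n → ℝ}
    {u : I → E n → ℝ} {p : E n} (hu : ∀ᶠ i in (𝒰 : Filter I), (P366W.cs G φ (u i)).Ok)
    (h : p ∈ Zs 𝒰 u) : ∃ x : I → E (n + 1), Tendsto x 𝒰 (𝓝 (snc p 0)) ∧
      ∀ᶠ i in (𝒰 : Filter I), (P366W.cs G φ (u i)).Φ (x i) = 0 := by
  refine (app_or 𝒰 (G := fun i => {x | (P366W.cs G φ (u i)).Φ x = 0}) (hu.mono fun i hi =>
    isClosed_eq hi.smΦ.continuous continuous_const) _).resolve_left fun ⟨r, r0, hr⟩ => ?_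
  obtain ⟨i, a, y, b, c⟩ := (hr.and (h _ (ball_mem_nhds p (half_pos r0)) _ (half_pos r0))).exists
  refine a (snc y (u i y)) (mem_ball_iff_norm.2 ?_) (by
    rw [mem_ofPred_eq, cs_Φ, ini_snc, snc_last, sub_self])
  rw [show snc y (u i y) - snc p 0 = snc (y - p) (u i y) by
    rw [sub_eq_iff_eq_add, snc_add, sub_add_cancel, add_zero]]
  exact snc_lt (mem_ball_iff_norm.1 b) c

theorem norm_der {w : E (k + 1) → ℝ} (hw : Smooth w) (a : ℝ) (b : E k) {j : ℕ} (hj : 1 ≤ j) :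
    ‖iteratedFDeriv ℝ j (fun y => a + w (Lz k (y - b))) b‖ ≤ ‖iteratedFDeriv ℝ j w 0‖ := by
  have s : ContDiff ℝ ∞ (w ∘ (Lz k).toContinuousLinearMap) :=
    ContDiff.comp hw (Lz k).toContinuousLinearMap.contDiff
  rw [iteratedFDeriv_comp_sub (f := fun y => a + w (Lz k y)), sub_self,
    show (fun y => a + w (Lz k y)) = (fun _ => a) + w ∘ (Lz k).toContinuousLinearMap from rfl,
    iteratedFDeriv_add_apply contDiffAt_const (s.of_le (mod_cast le_top)).contDiffAt,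
    iteratedFDeriv_const_of_ne (by omega), Pi.zero_apply, zero_add,
    ContinuousLinearMap.iteratedFDeriv_comp_right _ hw _ (mod_cast le_top), map_zero]
  exact (ContinuousMultilinearMap.norm_compContinuousLinearMap_le _ _).trans
    (mul_le_of_le_one_right (norm_nonneg _) (Finset.prod_le_one (fun _ _ => norm_nonneg _)
      fun _ _ => (Lz k).norm_toContinuousLinearMap_le))

/-- **LOC** -/
theorem loc_of (h₁ : TL1) (h₂ : TL2) (h₃ : TL3) (h₄ : CHS) : LOC := fun k ϑ hϑ ρ ρ0 η η0 => by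
  obtain ⟨ε₁, e1, c₁, c1, c1', hG⟩ := glim2 (k + 1)
  obtain ⟨ε₂, e2, c₂, c2, C, C0, hL⟩ := white_lip (k + 1)
  obtain ⟨l, l0, l1, l2⟩ : ∃ l > (0 : ℝ), l ≤ 1 / 32 ∧ 8 * l ≤ ρ :=
    ⟨min (1 / 32) (ρ / 8), by positivity, min_le_left _ _,
      by linarith [min_le_right (1 / 32) (ρ / 8)]⟩
  obtain ⟨r, r0, r1, r2⟩ : ∃ r > (0 : ℝ), r ≤ c₁ * l ∧ r ≤ c₂ * l :=
    ⟨min (c₁ * l) (c₂ * l), by positivity, min_le_left _ _, min_le_right _ _⟩
  have r3 : c₁ * l ≤ l := by nlinarith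
  choose s s0 hs using fun j => h₃ k ϑ hϑ r r0 (C / l) j η η0
  obtain ⟨σ₃, s3, s4, s5⟩ := (((eventually_all_finite (finite_le_nat ⌊1 / η⌋₊)).2 fun j _ =>
    Ioc_mem_nhdsGT (s0 j)).and (Ioc_mem_nhdsGT c1)).exists
  obtain ⟨σ₂, t0, hT⟩ := h₂ (k + 1) σ₃ s4
  obtain ⟨σ₁, d0, hD⟩ := h₁ (k + 1) (min ε₁ ε₂) (by positivity)
  obtain ⟨η₀, a0, a1, a2, a3, a4⟩ : ∃ η₀ > (0 : ℝ), η₀ ≤ σ₁ ∧ η₀ ≤ σ₂ ∧ η₀ ≤ ε₁ ∧ η₀ ≤ ε₂ :=
    ⟨min σ₁ (min σ₂ (min ε₁ ε₂)), by positivity, by simp, by simp, by simp, by simp⟩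
  obtain ⟨σ₀, b0, hC⟩ := h₄ k ϑ hϑ l l0 l1 η₀ a0
  refine ⟨min σ₀ σ₃, by positivity, fun I 𝒰 G φ u p δ c₀ c ε hc hε H hp => ?_⟩
  have hF := fr_e0 k
  have p0 := mem_ball_self (x := p) ρ0
  obtain ⟨hM, hφ⟩ : Met G ∧ Smooth φ := let ⟨_, a⟩ := H.exists; ⟨(a p p0).met, (a p p0).smφ⟩
  have ok := H.mono fun i a => cs_ok hM hφ (a p p0).smu
  have k1 : ∀ᶠ i in (𝒰 : Filter I), (∀ ε', η₀ ≤ ε' →
      (P366W.cs G φ (u i)).Bd (snc p 0) (4 * l) ε' (ε' / l)) ∧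
      (P366W.cs G φ (u i)).th (snc p 0) l ≤ 1 + min ε₁ ε₂ ∧ ∀ x ∈ ball (snc p 0) r,
        (P366W.cs G φ (u i)).Φ x = 0 → ‖(P366W.cs G φ (u i)).n x - e0 k‖ ≤ σ₃ := by
    filter_upwards [H, ok] with i a b
    obtain ⟨d1, d2⟩ := (hC _ _ _ _ _ _ _ _ _ l2 ((a p p0).mono (min_le_left _ _))).2 0 (by simp)
    refine ⟨fun ε' h => d1.mono (ball_subset_ball (by linarith)) h (h.trans ?_), ?_,
      fun x hx h0 => ?_⟩
    · rw [le_div_iff₀ l0]; nlinarith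
    · simpa [sc_th b _ l0] using hD _ _ hF.one (d2.mono a1) 1 one_pos le_rfl
    · rw [← snc_ini x] at hx h0 ⊢
      obtain ⟨x1, x2⟩ := snc_near (mem_ball_iff_norm.1 hx)
      have := hT _ _ hF.one (((hC _ _ _ _ _ _ _ _ _ l2 ((a _ (ball_subset_ball (by linarith)
        x1)).mono (min_le_left _ _))).2 _ (x2.le.trans (by linarith))).2.mono a2)
        (by rwa [sc_Φ, smul_zero, add_zero])
      rwa [sc_n b _ l0, smul_zero, add_zero] at this
  have s1 : ContDiff ℝ ∞ fun x : E (k + 1 + 1) => δ * ϑ (ini x (last k)) :=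
    contDiff_const.mul (hϑ.sm.comp
      ((EuclideanSpace.proj (last k) : _ →L[ℝ] ℝ).contDiff.comp sm_ini))
  have s2 := (EuclideanSpace.proj (last (k + 1)) : E (k + 1 + 1) →L[ℝ] ℝ).contDiff (n := ∞)
  have k2 : ∀ᶠ i in (𝒰 : Filter I), ∀ x ∈ ball (snc p 0) (4 * l), (P366W.cs G φ (u i)).Φ x = 0 →
      (P366W.cs G φ (u i)).H x = -(δ * ϑ (ini x (last k)) + c i + ε i * x (last (k + 1))) := by
    filter_upwards [H] with i a x hx h0
    rw [cs_Φ, sub_eq_zero] at h0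
    rw [← snc_ini x] at hx
    obtain ⟨x1, x2⟩ := snc_near (mem_ball_iff_norm.1 hx)
    rw [cs_H hM hφ (a p p0).smu, (a p p0).eq _ (ball_subset_ball (by linarith) x1)
      (by rw [← h0]; linarith), h0]
  have b := sm_B1 hM
  have a := sm_a1 hM hφ
  have cv : Cv 𝒰 (fun i => P366W.cs G φ (u i)) (ball (snc p 0) (4 * l)) (B1 G) (P366W.a1 G φ)
      fun x => -(δ * ϑ (ini x (last k)) + c₀) := by
    refine ⟨ok, b, a, (s1.add contDiff_const).neg, B1_sym hM, B1_pos hM, a1_pos hM φ,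
      Mv.const _ _ b.continuous, Mv.const _ _ (b.continuous_fderiv (by simp)),
      Mv.const _ _ a.continuous, Mv.const _ _ (a.continuous_fderiv (by simp)),
      fun x x₀ h0 hx hz => ?_⟩
    have := ((((s1.continuous.tendsto _).comp hx).add hc).add
      (hε.mul ((s2.continuous.tendsto _).comp hx))).neg
    rw [zero_mul, add_zero] at this
    refine this.congr' ?_
    filter_upwards [k2, hz, hx.eventually (isOpen_ball.mem_nhds h0)] with i h1 h2 h3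
    exact (h1 _ h3 h2).symm
  obtain ⟨x, x1, x2⟩ := zs_app ok hp
  obtain ⟨w, w₀, hg⟩ := hG I 𝒰 _ _ _ _ _ _ _ _ l x cv l0 Subset.rfl hF x1 (by
    filter_upwards [k1, x2, x1.eventually (ball_mem_nhds _ r0)] with i d1 d2 d3
    exact ⟨d1.1 _ a3, d1.2.1.trans (by simp), d2, (d1.2.2 _ d3 d2).trans s5⟩)
  have cl : 0 < c₁ * l := by positivity
  have w0 : w₀ 0 = 0 := by simpa using (hg.bd 0 (by simpa using cl.le)).1
  have u1 := gub (k + 1) I 𝒰 _ _ _ _ _ _ _ _ _ w w₀ _ cv hg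
    ((cyl_sub_ball hF).trans (ball_subset_ball (by linarith))) (fun _ => rfl) (fun _ => rfl)
    (fun x => (((ub_smooth (.of_forall fun _ => s1.contDiffAt)).add (ub_const
      (hc.norm.eventually (Iic_mem_nhds (lt_add_one _))))).add ((ub_const (hε.norm.eventually
        (Iic_mem_nhds (lt_add_one _)))).mul (ub_smooth (.of_forall fun _ => s2.contDiffAt)))).neg)
    k2 0 (by simpa)
  refine ⟨fun y => p (last k) + w₀ (Lz k (y - ini p)), contDiff_const.add (ContDiff.comp hg.sm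
    ((Lz k).toContinuousLinearMap.contDiff.comp (contDiff_id.sub contDiff_const))), by simp [w0],
    fun j j1 j2 => (norm_der hg.sm _ _ j1).trans ?_, ?_⟩
  · obtain ⟨A, hA⟩ := hg.gr
    have j3 := (s3 j (Nat.le_floor ((le_div_iff₀ η0).2 j2))).2
    refine le_of_tendsto ((u1.cvg (.of_forall fun _ => hg.sm.contDiffAt)
      (closedBall_mem_nhds 0 cl) (hg.m0.unif (isCompact_closedBall _ _) Subset.rfl fun _ _ =>
        hg.sm.continuous.continuousAt) j).comp (tendsto_id.prodMk tendsto_const_nhds)).norm ?_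
    filter_upwards [H, ok, k1, hA, (hg.m0.pt (mem_closedBall_self cl.le)).abs.eventually
      (gt_mem_nhds (show |w₀ 0| < s j by simpa [w0] using s0 j))] with i d1 d2 d3 d4 d5
    refine hs j _ _ _ _ _ _ _ _ _ _ (by linarith) ((d1 p p0).mono ((min_le_right _ _).trans j3))
      d4.1 (Gr.mono d4.2.2.2 (by linarith)) d5.le fun y y1 y2 =>
        ⟨(d3.2.2 y y1 y2).trans j3, fun y' y3 y4 => hL _ _ l d2 l0 (d3.1 _ a4)
          (d3.2.1.trans (by simp)) _ (ball_subset_ball r2 y1) _ (ball_subset_ball r2 y3) y2 y4⟩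
  · filter_upwards [(cont_snc.comp (continuous_id.prodMk continuous_const)).continuousAt.eventually
      ((isOpen_cyl hF).mem_nhds (self_mem_cyl (p := snc p 0) cl))] with y hy
    have e1 := gs_pt (p := snc p 0) (B := B1 G) (a := P366W.a1 G φ) hF w₀ (snc (ini y - ini p) 0)
      (y (last k) - p (last k))
    rw [e0, Lh_pt, add_zero, neg_smul_neg, show p + Lz k (ini y - ini p) +
      (y (last k) - p (last k)) • el k = y by
        rw [map_sub, sub_smul, ← snc_ini y, ← snc_ini p, ← Lz_add, ← Lz_add]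
        simp only [Lz_add, ini_snc, snc_last]
        simp only [← Lz_add]; abel] at e1
    refine ⟨fun h => ?_, fun h => ?_, fun h => ?_⟩
    · obtain ⟨z, z1, z2⟩ := zs_app ok h
      exact sub_eq_iff_eq_add'.1 (sub_eq_zero.1 (e1 ▸ (hg.cw.lim z _ hy z1 z2).1))
    · refine (hg.cw.neg _ _ hy tendsto_const_nhds (e1.trans_lt (sub_neg.2
        (sub_lt_iff_lt_add'.2 h)))).mono fun i hi => ?_
      simpa [cs_Φ, ini_snc, snc_last] using hi
    · refine (hg.cw.pos _ _ hy tendsto_const_nhds (lt_of_lt_of_eq (sub_pos.2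
        (lt_sub_iff_add_lt'.2 h)) e1.symm)).mono fun i hi => ?_
      simpa [cs_Φ, ini_snc, snc_last] using hi

end Vale.Agent.P366C
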