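import Vale.Agent.P366C.Flt0
import Vale.Agent.P366N.Chn

/-!
# P366C: the row `SML`
-/

namespace Vale.Agent.P366C

/-- **SML** -/
theorem sml : SML := by
  intro k η' h0
  obtain ⟨η₁, h1, h2, h⟩ := P366M.An.chn k h0
  have p : 0 < 1 / η' + 1 := by positivity
  refine ⟨min η₁ (1 / η' + 1)⁻¹, by positivity, fun η η0 η1 X _ g f Y w hn hw =>
    h η η0 (η1.trans (min_le_left _ _)) X g f Y w hn (fun y hy => (hw y hy).1)
      fun m hm y hy => ((hw y hy).2 (m + 1) (by omega) ?_).trans (min_le_left _ _)⟩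
  have : ((m + 1 : ℕ) : ℝ) ≤ 1 / η' + 1 := by
    push_cast; linarith [(le_div_iff₀ h0).2 hm]
  exact (mul_le_mul this (min_le_right _ _) (by positivity) p.le).trans (mul_inv_cancel₀ p.ne').le

end Vale.Agent.P366C
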