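import Vale.Agent.P366C.Flt0
import Vale.Agent.P366W.White3

/-!
# P366C: a small tilt excess gives a small density ratio (row TL1)
-/

open MeasureTheory Metric Filter Topology Set
open scoped ContDiff RealInnerProductSpace
open Vale.Agent.P366.Stmt Vale.Agent.P366W

noncomputable section

namespace Vale.Agent.P366C

/-- the projection of the boundary of a set covers the hyperplane at most once -/
theorem Tl1.flux {m : ℕ} {S : Surf (m + 1)} {e : E (m + 1)} (hS : S.Ok) (he : ‖e‖ = 1) :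
    ∫ x, ph (‖x‖ ^ 2) * (⟪S.n x, e⟫ / S.a x) ∂S.μ ≤ cm m := by
  obtain ⟨L, hL⟩ := exists_fr he
  have c1 : ContDiff ℝ 1 fun x : E (m + 1) => ph (‖x‖ ^ 2) :=
    (contDiff_ph.of_le (by norm_num)).comp (contDiff_norm_sq ℝ)
  have c2 : ContDiff ℝ 1 fun x : E (m + 1) => ph (‖x‖ ^ 2) • e := c1.smul contDiff_const
  have s2 : HasCompactSupport fun x : E (m + 1) => ph (‖x‖ ^ 2) • e := hcs_ph_norm.smul_right
  have c3 : ContDiff ℝ 1 fun x => (S.a x)⁻¹ :=
    (hS.sma.of_le (by simp)).inv fun x => (hS.a0 x).ne'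
  have s3 : HasCompactSupport fun x : E (m + 1) => (S.a x)⁻¹ • ph (‖x‖ ^ 2) • e :=
    s2.mono fun x hx k => hx (by simp only [k, smul_zero])
  have h1 := hS.div (fun x => (S.a x)⁻¹ • ph (‖x‖ ^ 2) • e) (c3.smul c2) s3
  have h2 := gdiv m 0 e L (fun _ => 0) _ hL contDiff_const c2 s2
  have d : ∀ x : E (m + 1), dvg (fun x : E (m + 1) => ph (‖x‖ ^ 2) • e) x =
      -dph (‖x‖ ^ 2) * (2 * ⟪x, e⟫) := fun x => by
    have k : HasFDerivAt (fun x : E (m + 1) => ph (‖x‖ ^ 2)) _ x :=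
      (hasDerivAt_ph _).comp_hasFDerivAt x (hasStrictFDerivAt_norm_sq x).hasFDerivAt
    rw [dvg_smul k.differentiableAt (differentiableAt_const _), k.fderiv]
    simp [dvg]
  have e1 : {x | ∃ y s, s < (0 : ℝ) ∧ x = 0 + L y + s • e} = {x | ⟪x, e⟫ < 0} := by
    ext x
    refine ⟨?_, fun hx => ⟨adj L x, ⟪e, x⟫, by rwa [real_inner_comm], by rw [zero_add, hL.dec]⟩⟩
    rintro ⟨y, s, hs, rfl⟩
    rwa [mem_ofPred_eq, zero_add, real_inner_comm, hL.e_pt]
  simp only [smul_inv_smul₀ (hS.a0 _).ne', inner_smul_right] at h1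
  rw [e1] at h2
  simp only [gradient_fun_const', map_zero, sub_zero, zero_smul, add_zero,
    zero_add, inner_smul_right, hL.ee, mul_one, L.norm_map] at h2
  have i := (continuous_dvg c2).integrable_of_hasCompactSupport (μ := volume) (hcs_dvg s2)
  have m1 : MeasurableSet {x : E (m + 1) | ⟪x, e⟫ < 0} :=
    measurableSet_lt (by fun_prop) measurable_const
  have m2 : MeasurableSet {x | S.Φ x < 0} :=
    measurableSet_lt hS.smΦ.continuous.measurable measurable_const
  have e2 : (fun x => ph (‖x‖ ^ 2) * (⟪S.n x, e⟫ / S.a x)) =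
      fun x => (S.a x)⁻¹ * (ph (‖x‖ ^ 2) * ⟪S.n x, e⟫) := funext fun x => by ring
  rw [cm, ← h2, e2, h1, ← integral_indicator m1, ← integral_indicator m2]
  refine integral_mono (i.indicator m2) (i.indicator m1) fun x => ?_
  have := dph_nonneg (‖x‖ ^ 2)
  by_cases k2 : ⟪x, e⟫ < 0
  · rw [indicator_of_mem (show x ∈ {x | ⟪x, e⟫ < 0} from k2)]
    exact indicator_apply_le' (fun _ => le_rfl) fun _ => by rw [d]; nlinarith
  · rw [indicator_of_notMem (show x ∉ {x | ⟪x, e⟫ < 0} from k2)]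
    exact indicator_apply_le' (fun _ => by rw [d]; nlinarith) fun _ => le_rfl

/-- **TL1** -/
theorem tl1 : TL1 := by
  intro m ε ε0
  obtain ⟨η₀, η0, hc⟩ := cmp_ m (ε / 2) (by positivity)
  obtain ⟨C, C0, hm⟩ := mono m
  have c0 := cm_pos m
  have c : ContinuousAt (fun σ : ℝ =>
      Real.exp (C * σ * 1) * ((cm m + σ) / (1 - 4 * σ) / cm m + ε / 2)) 0 := by
    fun_prop (disch := norm_num)
  have ev := (c.eventually (gt_mem_nhds (a := 1 + ε) (by
    simp only [mul_zero, zero_mul, Real.exp_zero, add_zero, sub_zero, div_one, div_self c0.ne']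
    linarith))).and ((gt_mem_nhds (show (0 : ℝ) < min η₀ (min (1 / 8) (1 / C)) by positivity)))
  obtain ⟨σ, ⟨h1, h2⟩, σ0⟩ := ((ev.filter_mono nhdsWithin_le_nhds).and
    (self_mem_nhdsWithin (s := Ioi 0))).exists
  simp only [lt_min_iff] at h2
  refine ⟨σ, σ0, fun S e he ⟨ok, bd, ex⟩ s s0 s1 => ?_⟩
  have σ2 : σ ≤ 1 / 2 := by linarith [h2.2.1]
  have a1 := (hm S 0 0 8 σ σ 1 ok bd σ2 (ball_subset_ball (by norm_num))
    (by linarith [(lt_div_iff₀ C0).1 h2.2.2])).1 s s0 s1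
  have a2 := (abs_le.1 (hc S 0 0 8 σ σ 1 ok bd h2.1.le one_pos (ball_subset_ball (by norm_num))
    (by linarith))).2
  simp only [sub_zero, one_pow, div_one, mul_one] at a2
  have a3 := Tl1.flux ok he
  have cp : Continuous fun x : E (m + 1) => ph (‖x‖ ^ 2) := continuous_ph.comp (by fun_prop)
  have cn := ok.smn.continuous
  have i1 := ok.integrable cp hcs_ph_norm
  have i2 := ok.integrable (f := fun x => ph (‖x‖ ^ 2) * (⟪S.n x, e⟫ / S.a x))
    (cp.mul ((cn.inner continuous_const).div ok.sma.continuous fun x => (ok.a0 x).ne'))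
    hcs_ph_norm.mul_right
  have i3 : IntegrableOn (fun x => ‖S.n x - e‖ ^ 2) (ball 0 8) S.μ := by
    have := ok.fin
    exact ((by fun_prop : Continuous fun x => ‖S.n x - e‖ ^ 2).continuousOn.integrableOn_compact
      (isCompact_closedBall 0 8)).mono_set ball_subset_closedBall
  have a4 : ∫ x, (1 - 4 * σ) * ph (‖x‖ ^ 2) ∂S.μ ≤ ∫ x, (ph (‖x‖ ^ 2) * (⟪S.n x, e⟫ / S.a x) +
      (ball 0 8).indicator (fun x => ‖S.n x - e‖ ^ 2) x) ∂S.μ := by
    refine integral_mono (i1.const_mul _) (i2.add (i3.integrable_indicator measurableSet_ball))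
      fun x => ?_
    by_cases hx : x ∈ ball (0 : E (m + 1)) 8
    · have b1 := bd.n_le ok σ2 hx
      have b2 := bd.a_lo σ2 hx
      have b3 := abs_le.1 (bd.a0 x hx)
      have b4 : 1 ≤ (1 + σ) * ‖S.n x‖ * ‖S.n x‖ := by
        refine ((ok.nν x).symm.trans (real_inner_comm _ _)).le.trans
          ((real_inner_le_norm _ _).trans ?_)
        exact mul_le_mul_of_nonneg_right (bd.B_hi hx _) (norm_nonneg _)
      have b5 := abs_le.1 (abs_real_inner_le_norm (S.n x) e)
      have b6 := norm_sub_sq_real (S.n x) e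
      rw [he] at b5 b6
      have b7 : 1 - σ ≤ ‖S.n x‖ ^ 2 := by nlinarith [sq_nonneg ‖S.n x‖]
      have b8 : ⟪S.n x, e⟫ - 3 * σ ≤ ⟪S.n x, e⟫ / S.a x := by
        rw [le_div_iff₀ (ok.a0 x)]
        nlinarith
      have b9 := ph_nonneg (‖x‖ ^ 2)
      have b10 := ph_le_one (sq_nonneg ‖x‖)
      have b11 := sq_nonneg ‖S.n x - e‖
      simp only [indicator_of_mem hx]
      nlinarith [mul_le_mul_of_nonneg_left (show 1 - 4 * σ ≤ ⟪S.n x, e⟫ / S.a x +
        ‖S.n x - e‖ ^ 2 by linarith) b9]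
    · have : 8 ≤ ‖x‖ := by simpa using hx
      simp only [indicator_of_notMem hx, ph_zero (show 1 ≤ ‖x‖ ^ 2 by nlinarith)]
      simp
  rw [integral_const_mul, integral_add i2 (i3.integrable_indicator measurableSet_ball),
    integral_indicator measurableSet_ball] at a4
  have a5 : ∫ x, ph (‖x‖ ^ 2) ∂S.μ ≤ (cm m + σ) / (1 - 4 * σ) :=
    (le_div_iff₀' (by linarith [h2.2.1])).2 (by linarith)
  refine (a1.trans (mul_le_mul_of_nonneg_left ?_ (Real.exp_pos _).le)).trans h1.le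
  linarith [div_le_div_of_nonneg_right a5 c0.le]

end Vale.Agent.P366C
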