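import Vale.Agent.P366C.Flt0
import Vale.Agent.P366W.Tilt

/-!
# P366C: the row `TL2`
-/

open MeasureTheory Metric Filter Topology Set
open Vale.Agent.P366.Stmt Vale.Agent.P366W

namespace Vale.Agent.P366C

theorem tl2_of (h : TL1) : TL2 := fun m δ hδ => by
  obtain ⟨d, d0, hd⟩ := tilt m hδ
  obtain ⟨σ, σ0, hσ⟩ := h m d d0
  refine ⟨min d σ, lt_min d0 σ0, fun S e he hS h0 => ?_⟩
  have c : Continuous fun x => ‖S.n x - e‖ ^ 2 :=
    ((hS.ok.smn.continuous.sub continuous_const).norm).pow 2
  refine hd S 0 e 1 _ hS.ok one_pos (hS.bd.mono (ball_subset_ball (by norm_num)) (min_le_left _ _)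
    (by simp)) (hσ S e he ⟨hS.ok, hS.bd.mono Subset.rfl (min_le_right _ _) (min_le_right _ _),
      hS.ex.trans (min_le_right _ _)⟩ 1 one_pos le_rfl) h0 c
    (fun x _ _ => ⟨by positivity, by linarith⟩) ?_
  rw [one_pow, one_pow, mul_one]
  refine le_trans ?_ (hS.ex.trans (min_le_left _ _))
  have := hS.ok.fin
  rw [← integral_indicator measurableSet_ball]
  refine integral_mono_of_nonneg (Eventually.of_forall fun x => mul_nonneg (ph_nonneg _)
    (by positivity)) ((integrable_indicator_iff measurableSet_ball).2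
      ((c.continuousOn.integrableOn_compact (isCompact_closedBall 0 8)).mono_set
        ball_subset_closedBall)) (Eventually.of_forall fun x => ?_)
  by_cases hx : x ∈ ball (0 : E (m + 1)) 8
  · rw [indicator_of_mem hx]
    exact mul_le_of_le_one_left (by positivity) (ph_le_one (by positivity))
  · rw [mem_ball_zero_iff, not_lt] at hx
    simp only [sub_zero, div_one]
    rw [ph_zero (by nlinarith), zero_mul]
    exact indicator_nonneg (fun _ _ => by positivity) _

end Vale.Agent.P366C
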