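import Vale.Agent.P366C.Flt0
import Vale.Agent.P366W.Ureg
import Vale.Agent.P366W.White3

/-!
# P366C: the row `TL3`
-/

open MeasureTheory Metric Filter Topology Set
open scoped ContDiff RealInnerProductSpace
open Vale.Agent.P366.Stmt Vale.Agent.P366Z Vale.Agent.P366W
open Vale.Agent.P366D (snc ini)
open Vale.Agent.P366P (hw sm_ini ini_snc snc_last)
open Vale.Agent.P366R (Lh fr_Lh)
open Fin (last)

noncomputable section

namespace Vale.Agent.P366C

namespace T3

variable {X V ι : Type} [NormedAddCommGroup X] [NormedSpace ℝ X] [NormedAddCommGroup V]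
  [NormedSpace ℝ V] {x : X} {n m : ℕ} {A : X → Matrix (Fin n) (Fin n) ℝ} {l : Filter ι}

theorem sdet (hA : ∀ i j, ContDiffAt ℝ ∞ (fun y => A y i j) x) :
    ContDiffAt ℝ ∞ (fun y => (A y).det) x := by
  simp only [Matrix.det_apply']
  exact ContDiffAt.sum fun σ _ => contDiffAt_const.mul (contDiffAt_prod fun i _ => hA _ _)

theorem sinv (hA : ∀ i j, ContDiffAt ℝ ∞ (fun y => A y i j) x) (hd : (A x).det ≠ 0) (i j : Fin n) :
    ContDiffAt ℝ ∞ (fun y => (A y)⁻¹ i j) x := by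
  simp only [Matrix.inv_def, Ring.inverse_eq_inv', Matrix.smul_apply, smul_eq_mul,
    Matrix.adjugate_apply]
  refine ((sdet hA).inv hd).mul (sdet fun d e => ?_)
  simp only [Matrix.updateRow_apply]
  split_ifs
  · exact contDiffAt_const
  · exact hA d e

/-- the coefficients as functions of the values of the metric and of the weight -/
def J (z : (Fin n → Fin n → ℝ) × ℝ) : (E (n + 1) →L[ℝ] E (n + 1)) × ℝ :=
  (B1 (fun _ i j => z.1 i j + if i = j then 1 else 0) 0,
    a1 (fun _ i j => z.1 i j + if i = j then 1 else 0) (fun _ => z.2) 0)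

theorem J_zero : J (0 : (Fin n → Fin n → ℝ) × ℝ) = (ContinuousLinearMap.id ℝ _, 1) := by
  have h : ∀ y, mat (fun (_ : E n) (i j : Fin n) => if i = j then (1 : ℝ) else 0) y = 1 :=
    fun y => by ext i j; simp [mat, Matrix.one_apply]
  simp only [J, Prod.fst_zero, Prod.snd_zero, Pi.zero_apply, zero_add, a1, P366Z.dens, h,
    Prod.mk.injEq]
  refine ⟨?_, by simp⟩
  ext1 v
  rw [B1_apply, ContinuousLinearMap.id_apply, ← inner_el, ← adj_Lz v]
  convert (fr_el n).dec v
  ext i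
  simp [B0_apply, up, h, Matrix.one_apply]

theorem J_sm : ∀ᶠ z in 𝓝 (0 : (Fin n → Fin n → ℝ) × ℝ), ContDiffAt ℝ ∞ J z := by
  let A : (Fin n → Fin n → ℝ) × ℝ → Matrix (Fin n) (Fin n) ℝ := fun z i j =>
    z.1 i j + if i = j then 1 else 0
  have h : ∀ z i j, ContDiffAt ℝ ∞ (fun y => A y i j) z := fun z i j => by
    simp only [A]; fun_prop
  have h0 : (A 0).det ≠ 0 := by
    rw [show A 0 = 1 by ext i j; simp [A, Matrix.one_apply]]; simp
  filter_upwards [(sdet (h 0)).continuousAt.eventually_ne h0] with z hz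
  exact ((contDiffAt_const.clm_comp ((ContDiffAt.sum fun i _ => ContDiffAt.sum fun j _ =>
    (sinv (h z) hz i j).smul contDiffAt_const).clm_comp contDiffAt_const)).add
      contDiffAt_const).prodMk (contDiffAt_snd.exp.mul ((sdet (h z)).sqrt hz))

theorem ub_tr {f : ι → E n → ℝ} {p : ι → E n} {σ : ι → ℝ} {r : ℝ} (r0 : 0 < r)
    (hσ : Tendsto σ l (𝓝 0)) (sm : ∀ i, Smooth (f i)) (hb : ∀ i (m : ℕ), m * σ i ≤ 1 →
      ∀ y ∈ ball (p i) r, ‖iteratedFDeriv ℝ m (f i) y‖ ≤ σ i) :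
    UB l 0 (fun i x => f i (p i + ini x)) ∧
      Tendsto (fun q : ι × E (n + 1) => f q.1 (p q.1 + ini q.2)) (l ×ˢ 𝓝 0) (𝓝 0) := by
  have t0 : Tendsto (fun q : ι × E (n + 1) => ini q.2) (l ×ˢ 𝓝 0) (𝓝 0) :=
    (sm_ini.continuous.tendsto 0).comp tendsto_snd
  have h : ∀ m : ℕ, ∀ᶠ q : ι × E n in l ×ˢ 𝓝 0,
      ‖iteratedFDeriv ℝ m (fun y => f q.1 (p q.1 + y)) q.2‖ ≤ σ q.1 := fun m => by
    filter_upwards [tendsto_fst.eventually ((hσ.const_mul (m : ℝ)).eventually
      (ge_mem_nhds (by simp : (m : ℝ) * 0 < 1))), tendsto_snd.eventually (ball_mem_nhds _ r0)]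
      with q a b
    rw [iteratedFDeriv_comp_add_left]
    exact hb _ m a _ (by simpa using b)
  refine ⟨UB.comp (a := fun i y => f i (p i + y)) ⟨.of_forall fun q =>
    (ContDiff.comp (sm q.1) (contDiff_const.add contDiff_id)).contDiffAt, fun m => ⟨1, ((h m).and
      (tendsto_fst.eventually (hσ.eventually (ge_mem_nhds one_pos)))).mono fun q a => a.1.trans a.2⟩⟩
    (ub_smooth (.of_forall fun _ => sm_ini.contDiffAt)) t0, squeeze_zero_norm' ?_
      (hσ.comp tendsto_fst)⟩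
  simpa only [norm_iteratedFDeriv_zero, Function.comp_def] using
    (tendsto_fst.prodMk t0).eventually (h 0)

theorem flat {S : Surf (m + 1)} {p e : E (m + 1)} {L : E m →ₗᵢ[ℝ] E (m + 1)} {r σ : ℝ}
    {w : E m → ℝ} (hS : S.Ok) (hF : Fr e L) (hG : Gr S p e L r w) (hw : Differentiable ℝ w)
    (σ0 : 0 < σ) (h1 : σ ≤ 1 / 2) (h2 : σ * (1 + r) < r / 2) (h0 : |w 0| ≤ σ)
    (hn : ∀ x ∈ ball p r, S.Φ x = 0 → ‖S.n x - e‖ ≤ σ) {y : E m} (hy : ‖y‖ < r / 2) :
    |w y| ≤ σ * (1 + r) := by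
  have r0 : 0 < r := by linarith [norm_nonneg y]
  have d : ∀ t : ℝ, HasDerivAt (fun t : ℝ => w (t • y)) (fderiv ℝ w (t • y) y) t := fun t => by
    have := (hw (t • y)).hasFDerivAt.comp_hasDerivAt t ((hasDerivAt_id t).smul_const y)
    rwa [one_smul] at this
  have d' : ∀ t : ℝ, HasDerivAt (fun t : ℝ => σ * (1 + t * r)) (σ * r) t := fun t => by
    have := (((hasDerivAt_id t).mul_const r).const_add 1).const_mul σ
    rwa [one_mul] at this
  have := image_norm_le_of_norm_deriv_right_lt_deriv_boundary (a := 0) (b := 1)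
    (fun t _ => (d t).continuousAt.continuousWithinAt) (fun t _ => (d t).hasDerivWithinAt)
    (by simpa using h0) d' (fun t ht h => ?_) ⟨zero_le_one, le_rfl⟩
  · simpa using this
  have a1 : ‖t • y‖ < r / 2 := by
    rw [norm_smul, Real.norm_of_nonneg ht.1]; nlinarith [norm_nonneg y, ht.2]
  have a2 : |w (t • y)| < r / 2 := h.trans_lt (by nlinarith [ht.2, mul_pos σ0 r0])
  have a4 := hF.mem_ball (p := p) a1 a2.le
  rw [mul_div_cancel₀ _ two_ne_zero] at a4
  have a3 := hF.tilt (hn _ a4 ((hG _ _ (by linarith) (by linarith)).2.2 rfl)) y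
    (fderiv ℝ w (t • y) y)
  rw [hG.tangent hS hF (hw _) (by linarith) (by linarith), zero_sub, abs_neg] at a3
  rw [Real.norm_eq_abs]
  nlinarith [abs_nonneg (fderiv ℝ w (t • y) y)]

end T3

open T3 in
/-- **TL3** -/
theorem tl3 : TL3 := fun k ϑ hϑ r r0 K j η η0 => by
  by_contra hc
  push Not at hc
  choose G φ u p ρ z δ c ε w h1 h2 h3 h4 h5 h6 h7 using fun n : ℕ => hc (1 / (n + 1)) (by positivity)
  let l : Filter ℕ := hyperfilter ℕ
  have tσ : Tendsto (fun n : ℕ => 1 / ((n : ℝ) + 1)) l (𝓝 0) :=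
    tendsto_one_div_add_atTop_nhds_zero_nat.mono_left Nat.hyperfilter_le_atTop
  have tz : ∀ {a : ℕ → ℝ}, (∀ n, |a n| ≤ 1 / (n + 1)) → Tendsto a l (𝓝 0) := fun h =>
    squeeze_zero_norm h tσ
  have ok := fun n => cs_ok (h2 n).met (h2 n).smφ (h2 n).smu
  have hF : Fr (e0 k) (Lh (Lz k)) := fr_Lh ⟨by rw [norm_neg, (fr_el k).one], fun y => by
    rw [inner_neg_left, (fr_el k).ort, neg_zero]⟩
  obtain ⟨S, dS⟩ : ∃ S : ℕ → Surf (k + 1 + 1), S = fun n =>
    (P366W.cs (G n) (φ n) (u n)).sc (snc (p n) (z n)) 1 := ⟨_, rfl⟩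
  have e1 : ∀ n x, ini (snc (p n) (z n) + x) = p n + ini x := fun n x => by
    rw [P366R.ini_add, ini_snc]
  have sΦ : ∀ n x, (S n).Φ x = (P366W.cs (G n) (φ n) (u n)).Φ (snc (p n) (z n) + x) :=
    fun n x => by rw [dS, sc_Φ, one_smul]
  have sn : ∀ n x, (S n).n x = (P366W.cs (G n) (φ n) (u n)).n (snc (p n) (z n) + x) :=
    fun n x => by rw [dS, sc_n (ok n) _ one_pos, one_smul]
  have sH : ∀ n x, (S n).H x = -hw (G n) (φ n) (u n) (p n + ini x) := fun n x => by
    rw [dS, ← e1, ← cs_H (h2 n).met (h2 n).smφ (h2 n).smu]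
    simpa [Surf.sc] using (aff _ _ (.refl ℝ _) (snc (p n) (z n)) 1 1 (ok n) one_pos one_pos).2.2.2.1 x
  have sJ : ∀ n x, J (fun i j => G n (p n + ini x) i j - if i = j then 1 else 0,
      φ n (p n + ini x)) = ((S n).B x, (S n).a x) := fun n x => by
    simp only [J, sub_add_cancel, dS, Surf.sc, Surf.aff, ← e1]
    simp [ContinuousLinearMap.adjoint_id]
    exact ⟨rfl, rfl⟩
  have u1 := fun i j => ub_tr r0 tσ (f := fun n y => G n y i j - if i = j then 1 else 0)
    (fun n => ContDiff.sub ((h2 n).met.sm i j) contDiff_const) fun n m a y hy =>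
      (h2 n).gs i j m a y (ball_subset_ball (h1 n) hy)
  have u2 := ub_tr r0 tσ (fun n => (h2 n).smφ) fun n m a y hy =>
    (h2 n).fs m a y (ball_subset_ball (h1 n) hy)
  have t1 := (tendsto_pi_nhds.2 fun i => tendsto_pi_nhds.2 fun j => (u1 i j).2).prodMk_nhds u2.2
  have u3 := (ub_smooth J_sm).comp ((ub_of_lh fun m => lh_pi fun i => lh_pi fun j =>
    (u1 i j).1.l1 m).prodMk u2.1) t1
  have t2 := J_sm.self_of_nhds.continuousAt.tendsto.comp t1
  simp only [Function.comp_def, sJ, J_zero] at u3 t2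
  have sG : ∀ n, Gr (S n) 0 (e0 k) (Lh (Lz k)) r (w n) := fun n y s a b => by
    simpa only [sΦ, zero_add, add_assoc] using h4 n y s a b
  have mb : ∀ n, ∀ x ∈ ball (0 : E (k + 1 + 1)) r, snc (p n) (z n) + x ∈ ball (snc (p n) (z n)) r :=
    fun n x a => by simpa using a
  have s1 : ∀ n, ∀ x ∈ ball (0 : E (k + 1 + 1)) r, (S n).Φ x = 0 →
      ‖(S n).n x - e0 k‖ ≤ 1 / (n + 1) := fun n x a b => sn n x ▸ (h6 n _ (mb n x a) (sΦ n x ▸ b)).1
  have so : ∀ n, (S n).Ok := fun n => dS ▸ sc_ok (ok n) _ one_pos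
  have tr := tσ.mul_const (1 + r)
  rw [zero_mul] at tr
  have uw : TendstoUniformlyOn w 0 l (ball 0 (r / 2)) := Metric.tendstoUniformlyOn_iff.2 fun a a0 => by
    filter_upwards [tr.eventually (gt_mem_nhds a0), tr.eventually (gt_mem_nhds (half_pos r0)),
      tσ.eventually (ge_mem_nhds one_half_pos)] with n b1 b2 b3 y hy
    rw [Pi.zero_apply, dist_zero_left]
    exact (flat (so n) hF (sG n) (ContDiff.differentiable (h3 n) (by simp)) (by positivity) b3 b2
      (h5 n) (s1 n) (mem_ball_zero_iff.1 hy)).trans_lt b1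
  obtain ⟨f₀, -, tf⟩ := (isCompact_Icc (a := (0 : ℝ)) (b := 1)).ultrafilter_le_nhds'
    ((hyperfilter ℕ).map fun n => Int.fract (p n (last k)))
    (mem_map.2 (univ_mem' fun n => ⟨Int.fract_nonneg _, (Int.fract_lt_one _).le⟩))
  have c1 : ContDiff ℝ ∞ fun x : E (k + 1 + 1) => ini x (last k) :=
    (EuclideanSpace.proj (last k) : E (k + 1) →L[ℝ] ℝ).contDiff.comp sm_ini
  have s2 : ∀ n : ℕ, 1 / ((n : ℝ) + 1) ≤ 1 := fun n =>
    (div_le_one (by positivity)).2 (le_add_of_nonneg_left n.cast_nonneg)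
  have u4 : UB l 0 fun n (x : E (k + 1 + 1)) =>
      δ n * ϑ (Int.fract (p n (last k)) + ini x (last k)) + ε n * x (last (k + 1)) :=
    ((ub_const (.of_forall fun n => (abs_of_nonneg (h2 n).δ0.1).trans_le
      ((h2 n).δ0.2.trans (s2 n)))).mul ((ub_smooth (.of_forall fun _ => hϑ.sm.contDiffAt)).comp
      ((ub_const (A := 1) (.of_forall fun n => Int.abs_fract.trans_le (Int.fract_lt_one _).le)).add
        (ub_smooth (.of_forall fun _ => c1.contDiffAt))) ((Tendsto.comp tf tendsto_fst).add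
          ((c1.continuous.tendsto 0).comp tendsto_snd)))).add
    ((ub_const (.of_forall fun n => (abs_of_nonneg (h2 n).ε0.1).trans_le
      ((h2 n).ε0.2.trans (s2 n)))).mul (ub_smooth (.of_forall fun _ =>
        (EuclideanSpace.proj (last (k + 1)) : E (k + 1 + 1) →L[ℝ] ℝ).contDiff.contDiffAt)))
  have mi : ∀ n, ∀ x ∈ ball (0 : E (k + 1 + 1)) (min r 1), p n + ini x ∈ ball (p n) (ρ n) :=
    fun n x a => by
      rw [mem_ball_iff_norm, add_sub_cancel_left, ← adj_Lz]
      exact ((fr_el _).norm_adj x).trans_lt ((mem_ball_zero_iff.1 a).trans_le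
        ((min_le_left _ _).trans (h1 n)))
  have hH : ∀ n, ∀ x ∈ ball (0 : E (k + 1 + 1)) (min r 1), (S n).Φ x = 0 → (S n).H x =
      -(δ n * ϑ (Int.fract (p n (last k)) + ini x (last k)) + ε n * x (last (k + 1)) +
        (δ n * ⌊p n (last k)⌋ + c n + ε n * z n)) := fun n x a b => by
    rw [sΦ, cs_Φ, e1, PiLp.add_apply, snc_last, sub_eq_zero] at b
    have b1 := hϑ.add (Int.fract (p n (last k)) + ini x (last k)) ⌊p n (last k)⌋
    rw [add_right_comm, Int.fract_add_floor] at b1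
    rw [sH, (h2 n).eq _ (mi n x a) (by
      rw [← b, add_sub_cancel_left]
      exact (PiLp.norm_apply_le x _).trans_lt ((mem_ball_zero_iff.1 a).trans_le (min_le_right _ _))),
      ← b, PiLp.add_apply, b1]
    ring
  have r1 : 0 < min r 1 := lt_min r0 one_pos
  obtain ⟨A, -, hA⟩ := L0.bd (u4.l1 0)
  have tX : Tendsto (fun n => 0 + Lh (Lz k) 0 + w n 0 • e0 k) l (𝓝 0) := by
    simpa using (tz h5).smul_const (e0 k)
  have u5 : UB l 0 fun n (_ : E (k + 1 + 1)) => δ n * ⌊p n (last k)⌋ + c n + ε n * z n := by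
    refine ub_const (A := A + 1) ?_
    filter_upwards [(tendsto_id.prodMk tX).eventually hA, tX.eventually (ball_mem_nhds _ r1),
      tσ.eventually (gt_mem_nhds r0)] with n b1 b2 b3
    have b4 := hH n _ b2 ((sG n 0 _ (by simpa using r0) ((h5 n).trans_lt b3)).2.2 rfl)
    have b5 := ((h2 n).hb _ (mi n _ b2)).trans (s2 n)
    rw [sH, neg_inj] at b4
    rw [b4, abs_le] at b5
    simp only [Real.norm_eq_abs, abs_le, id] at b1 ⊢
    constructor <;> linarith [b1.1, b1.2, b5.1, b5.2]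
  have u6 : UB l 0 w := sreg (K := K) (t₀ := 0) hF (.of_forall fun n => ⟨so n, sG n, fun _ _ =>
    (h3 n).contDiffAt⟩) (by simpa using r0) (by simpa using r0) (by simp)
    (uw.tendstoUniformlyOnFilter.mono_right (le_principal_iff.2 (ball_mem_nhds _ (half_pos r0)))
      |> tendsto_prod_filter_iff.2) (u3.lin (.fst ℝ _ _)) (u3.lin (.snd ℝ _ _)) (u4.add u5).neg
    ((continuous_fst.tendsto _).comp t2) (fun v hv => real_inner_self_pos.2 hv)
    ((continuous_snd.tendsto _).comp t2) one_ne_zero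
    ((tendsto_snd.eventually (ball_mem_nhds _ r1)).mono fun q a => hH _ _ a)
    (by
      filter_upwards [td1.snd.eventually (ball_mem_nhds _ r0), td2.snd.eventually
        (ball_mem_nhds _ r0)] with q a b a1 b1
      simpa only [sn, add_sub_add_left_eq_sub] using
        (h6 _ _ (mb _ _ a) (sΦ _ _ ▸ a1)).2 _ (mb _ _ b) (sΦ _ _ ▸ b1))
    (tendsto_iff_norm_sub_tendsto_zero.2 (squeeze_zero' (.of_forall fun _ => norm_nonneg _)
      (eventually_inf_principal.2 ((tendsto_snd.eventually (ball_mem_nhds _ r0)).mono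
        fun q a b => s1 _ _ a b)) ((tσ.comp tendsto_fst).mono_left inf_le_left)))
    (hF.ee.symm ▸ one_pos)
  have t3 := ((u6.cvg (f₀ := fun _ => 0) (.of_forall fun _ => contDiffAt_const) (ball_mem_nhds _ (half_pos r0)) uw
    j).comp (tendsto_id.prodMk tendsto_const_nhds)).norm
  exact η0.not_ge ((ge_of_tendsto' t3 fun n => (h7 n).le).trans_eq (by simp))

end Vale.Agent.P366C
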