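import Vale.Agent.P366C.Glb
import Vale.Agent.P366C.Good
import Vale.Agent.P366C.Loc
import Vale.Agent.P366C.Tl2
import Vale.Agent.P366C.Tl1
import Vale.Agent.P366C.Tl3
import Vale.Agent.P366C.Chs
import Vale.Agent.P366C.Exc
import Vale.Agent.P366C.Sml

/-!
# P366C: the limit is a flat graph
-/

namespace Vale.Agent.P366C

/-- **FLT** -/
theorem flt : P366M.An.FLT :=
  glb (loc_of tl1 (tl2_of tl1) tl3 chs) (good_of tl1 chs exc) exc sml

end Vale.Agent.P366C
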