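import Vale.Agent.P366C.Ana2
import Vale.Agent.P366R.Rgc1

/-!
# P366C: the rows of `FLT`
-/

open MeasureTheory Metric Filter Topology Set
open scoped ContDiff
open Vale.Agent.P366.Stmt Vale.Agent.P366Z Vale.Agent.P366W
open Vale.Agent.P366D (snc ini Uo Sml Nr pl)
open Vale.Agent.P366P (hw)
open Vale.Agent.P366Y.C (ww)
open Vale.Agent.P366R (Lh)
open Vale.Agent.P366M (Mf0 Fld At rep loc)
open Vale.Agent.P366M.An (Vt Fd)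
open Fin (last)

noncomputable section

namespace Vale.Agent.P366C

/-- almost Euclidean and minimal in the ball of radius `8`, with a small tilt excess -/
structure Fs {N : ℕ} (S : Surf N) (e : E N) (σ : ℝ) : Prop where
  ok : S.Ok
  bd : S.Bd 0 8 σ σ
  ex : ∫ x in ball 0 8, ‖S.n x - e‖ ^ 2 ∂S.μ ≤ σ

/-- the direction of the conormal -/
def e0 (k : ℕ) : E (k + 1 + 1) := -Lz (k + 1) (-el k)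

/-- an almost vertical capillary graph in a chart -/
structure Cg {k : ℕ} (ϑ : ℝ → ℝ) (G : P366.Stmt.Field (k + 1)) (φ u : E (k + 1) → ℝ)
    (p : E (k + 1)) (ρ z₀ σ δ c ε : ℝ) : Prop where
  met : Met G
  smφ : Smooth φ
  smu : Smooth u
  gs : ∀ i j (m : ℕ), m * σ ≤ 1 → ∀ y ∈ ball p ρ,
    ‖iteratedFDeriv ℝ m (fun y => G y i j - if i = j then 1 else 0) y‖ ≤ σ
  fs : ∀ m : ℕ, m * σ ≤ 1 → ∀ y ∈ ball p ρ, ‖iteratedFDeriv ℝ m φ y‖ ≤ σ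
  δ0 : 0 ≤ δ ∧ δ ≤ σ
  ε0 : 0 ≤ ε ∧ ε ≤ σ
  hb : ∀ y ∈ ball p ρ, |hw G φ u y| ≤ σ
  eq : ∀ y ∈ ball p ρ, |u y - z₀| < 1 → hw G φ u y = δ * ϑ (y (last k)) + c + ε * u y
  ex : ∫ y in {y | y ∈ ball p ρ ∧ |u y - z₀| < 1 / 2},
    ‖(P366W.cs G φ u).n (snc y (u y)) - e0 k‖ ^ 2 * (a0 G φ y * ww G 1 u y) ≤ σ

/-- **TL1**: a small tilt excess gives a small density ratio -/
def TL1 : Prop := ∀ m : ℕ, ∀ ε > (0 : ℝ), ∃ σ > (0 : ℝ), ∀ (S : Surf (m + 1)) (e : E (m + 1)),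
  ‖e‖ = 1 → Fs S e σ → ∀ s, 0 < s → s ≤ 1 → S.th 0 s ≤ 1 + ε

/-- **TL2**: a small tilt excess gives a small tilt -/
def TL2 : Prop := ∀ m : ℕ, ∀ δ > (0 : ℝ), ∃ σ > (0 : ℝ), ∀ (S : Surf (m + 1)) (e : E (m + 1)),
  ‖e‖ = 1 → Fs S e σ → S.Φ 0 = 0 → ‖S.n 0 - e‖ ≤ δ

/-- **TL3**: the derivatives of the graph are small -/
def TL3 : Prop := ∀ (k : ℕ) (ϑ : ℝ → ℝ), Vt ϑ → ∀ r > (0 : ℝ), ∀ (K : ℝ) (j : ℕ), ∀ η > (0 : ℝ),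
  ∃ σ > (0 : ℝ), ∀ (G : P366.Stmt.Field (k + 1)) (φ u : E (k + 1) → ℝ) (p : E (k + 1))
    (ρ z₀ δ c ε : ℝ) (w : E (k + 1) → ℝ), r ≤ ρ → Cg ϑ G φ u p ρ z₀ σ δ c ε → Smooth w →
    Gr (P366W.cs G φ u) (snc p z₀) (e0 k) (Lh (Lz k)) r w → |w 0| ≤ σ →
    (∀ x ∈ ball (snc p z₀) r, (P366W.cs G φ u).Φ x = 0 → ‖(P366W.cs G φ u).n x - e0 k‖ ≤ σ ∧
      ∀ x' ∈ ball (snc p z₀) r, (P366W.cs G φ u).Φ x' = 0 →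
        ‖(P366W.cs G φ u).n x - (P366W.cs G φ u).n x'‖ ≤ K * ‖x - x'‖) →
    ‖iteratedFDeriv ℝ j w 0‖ ≤ η

/-- **CHS**: the graph at the scale `l` -/
def CHS : Prop := ∀ (k : ℕ) (ϑ : ℝ → ℝ), Vt ϑ → ∀ l > (0 : ℝ), l ≤ 1 / 32 → ∀ η > (0 : ℝ),
  ∃ σ > (0 : ℝ), ∀ (G : P366.Stmt.Field (k + 1)) (φ u : E (k + 1) → ℝ) (p : E (k + 1))
    (ρ z₀ δ c ε : ℝ), 8 * l ≤ ρ → Cg ϑ G φ u p ρ z₀ σ δ c ε → Nm G φ η p ∧ ∀ z, |z - z₀| ≤ 1 / 4 →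
      (P366W.cs G φ u).Bd (snc p z) (8 * l) η η ∧ Fs ((P366W.cs G φ u).sc (snc p z) l) (e0 k) η

/-- **EXC**: the area bound gives a small tilt excess -/
def EXC : Prop := ∀ (k : ℕ) (ϑ : ℝ → ℝ), 1 ≤ k → Vt ϑ → ∀ ρ > (0 : ℝ), ρ ≤ 1 / 4 → ∀ σ > (0 : ℝ),
  ∃ ζ > (0 : ℝ), ∃ τ > (0 : ℝ), ∃ η₁ > (0 : ℝ), ∀ η, 0 < η → η ≤ η₁ → ∀ (X : Type)
    [Mf0 (k + 1) X] [CompactSpace X] (I : Type) (F : Fd X I) (g : Fld (k + 1) X) (f : X → ℝ)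
    (Y : E (k + 1) → X) (v₀ : ℝ), Nr g f Y η → F.Ok g f v₀ → F.Fl g f Y ϑ η ζ τ → ∃ δ c : ℝ,
      ∀ (m : ℤ) (z₀ : ℝ), |z₀| ≤ F.S + 1 → ∀ᶠ i in (F.𝒰 : Filter I), ∀ p, ini p ∈ Uo k (3 * ρ) →
        ∀ e ∈ At X, (∀ y ∈ ball p ρ, e.symm y = Y y) → Cg ϑ (rep e g) (loc e f)
          (fun y => loc e (F.v i) y - F.lam i * (ϑ (y (last k)) + m)) p ρ z₀ σ δ
          (δ * m + c + F.c i) (F.ε i)

/-- **SML**: the induced data are close to the flat ones -/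
def SML : Prop := ∀ k : ℕ, ∀ η' > (0 : ℝ), ∃ σ > (0 : ℝ), ∀ η, 0 < η → η ≤ σ → ∀ (X : Type)
  [Mf0 (k + 1) X] (g : Fld (k + 1) X) (f : X → ℝ) (Y : E (k + 1) → X) (w : E k → ℝ),
  Nr g f Y η → (∀ y ∈ Uo k η', ContDiffAt ℝ ∞ w y ∧
    ∀ j : ℕ, 1 ≤ j → j * σ ≤ 1 → ‖iteratedFDeriv ℝ j w y‖ ≤ σ) →
  (∀ i j, Sml η' fun y => pl (fun z => Y (snc z (w z))) g y i j - if i = j then 1 else 0) ∧
    Sml η' fun y => f (Y (snc y (w y)))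

end Vale.Agent.P366C
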