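import Vale.Agent.P366C.Flt0

/-!
# P366C: the last rows of `FLT`
-/

open MeasureTheory Metric Filter Topology Set
open scoped ContDiff
open Vale.Agent.P366.Stmt Vale.Agent.P366Z Vale.Agent.P366W
open Vale.Agent.P366D (snc ini Uo Nr)
open Vale.Agent.P366M (Mf0 Fld)
open Vale.Agent.P366M.An (Vt Fd)
open Fin (last)

noncomputable section

namespace Vale.Agent.P366C

/-- the limit of the zero sets -/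
def Zs {n : ℕ} {I : Type} (𝒰 : Ultrafilter I) (u : I → E n → ℝ) : Set (E n) :=
  {x | ∀ V ∈ 𝓝 x, ∀ r > (0 : ℝ), ∀ᶠ i in (𝒰 : Filter I), ∃ y ∈ V, |u i y| < r}

/-- **LOC**: near a point the limit of the zero sets is a smooth and almost horizontal graph -/
def LOC : Prop := ∀ (k : ℕ) (ϑ : ℝ → ℝ), Vt ϑ → ∀ ρ > (0 : ℝ), ∀ η > (0 : ℝ), ∃ σ > (0 : ℝ),
  ∀ (I : Type) (𝒰 : Ultrafilter I) (G : P366.Stmt.Field (k + 1)) (φ : E (k + 1) → ℝ)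
    (u : I → E (k + 1) → ℝ) (p : E (k + 1)) (δ c₀ : ℝ) (c ε : I → ℝ), Tendsto c 𝒰 (𝓝 c₀) →
    Tendsto ε 𝒰 (𝓝 0) →
    (∀ᶠ i in (𝒰 : Filter I), ∀ q ∈ ball p ρ, Cg ϑ G φ (u i) q ρ 0 σ δ (c i) (ε i)) → p ∈ Zs 𝒰 u →
    ∃ w : E k → ℝ, Smooth w ∧ w (ini p) = p (last k) ∧
      (∀ j : ℕ, 1 ≤ j → j * η ≤ 1 → ‖iteratedFDeriv ℝ j w (ini p)‖ ≤ η) ∧
      ∀ᶠ x in 𝓝 p, (x ∈ Zs 𝒰 u → x (last k) = w (ini x)) ∧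
        (x (last k) < w (ini x) → ∀ᶠ i in (𝒰 : Filter I), 0 < u i x) ∧
        (w (ini x) < x (last k) → ∀ᶠ i in (𝒰 : Filter I), u i x < 0)

/-- **GOOD**: there are no singular points in the flat part -/
def GOOD : Prop := ∀ (k : ℕ) (ϑ : ℝ → ℝ), 1 ≤ k → Vt ϑ → ∀ ε₀ > (0 : ℝ), ∀ ρ > (0 : ℝ),
  ∃ ζ > (0 : ℝ), ∃ τ > (0 : ℝ), ∃ η₁ > (0 : ℝ), ∀ η, 0 < η → η ≤ η₁ → ∀ (X : Type)
    [Mf0 (k + 1) X] [CompactSpace X] (I : Type) (F : Fd X I) (g : Fld (k + 1) X) (f : X → ℝ)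
    (Y : E (k + 1) → X) (v₀ : ℝ), Nr g f Y η → F.Ok g f v₀ → F.Fl g f Y ϑ η ζ τ →
      ∀ p, ini p ∈ Uo k ρ → Y p ∉ F.Sg g f ε₀

end Vale.Agent.P366C
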