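import Vale.Agent.P366C.Th

/-!
# P366C: integrals in the periodic chart
-/

open MeasureTheory Metric Filter Topology Set
open scoped ContDiff ENNReal
open Vale.Agent.P366 hiding E
open Vale.Agent.P366.Stmt Vale.Agent.P366Z
open Vale.Agent.P366D
open Fin (last)

noncomputable section

namespace Vale.Agent.P366M.An.Fm

variable {n : ℕ} {X : Type} [Mf0 n X] {g : Fld n X} {Y : E n → X} {η : ℝ}

/-- the integral over the injective image of a set in a periodic chart -/
theorem lint_eq (hg : Met g) (hY : Per Y η) {C : Set (E n)} (hC : IsCompact C) (sub : C ⊆ Uo n η)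
    (F : X → ℝ≥0∞) {A : Set (E n)} (hA : A ⊆ C) (mA : MeasurableSet A) (inj : InjOn Y A) :
    MeasurableSet (Y '' A) ∧ ∫⁻ x in Y '' A, F x ∂vol g =
      ∫⁻ y in A, ENNReal.ofReal (P366Z.dens (pl Y g) y) * F (Y y) := by
  obtain ⟨S, -, h1, h2⟩ : ∃ S, MeasurableSet S ∧ C ⊆ S ∧ ∀ A ⊆ S, MeasurableSet A → InjOn Y A →
      MeasurableSet (Y '' A) ∧ ∫⁻ x in Y '' A, F x ∂vol g =
        ∫⁻ y in A, ENNReal.ofReal (P366Z.dens (pl Y g) y) * F (Y y) := by
    refine hC.induction_on ⟨∅, .empty, Subset.rfl, fun A hA _ _ => by simp [subset_empty_iff.1 hA]⟩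
      (fun s t hs ⟨S, a, b, c⟩ => ⟨S, a, hs.trans b, c⟩)
      (fun s t ⟨S, a, b, c⟩ ⟨T, a', b', c'⟩ =>
        ⟨S ∪ T, a.union a', union_subset_union b b', fun A hA mA iA => ?_⟩) fun y hy => ?_
    · obtain ⟨m1, e1⟩ := c _ inter_subset_right (mA.inter a) (iA.mono inter_subset_left)
      obtain ⟨m2, e2⟩ := c' (A \ S) (fun z hz => (hA hz.1).resolve_left hz.2) (mA.diff a)
        (iA.mono diff_subset)
      have e : Y '' A = Y '' (A ∩ S) ∪ Y '' (A \ S) := by rw [← image_union, inter_union_sdiff]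
      rw [e, ← lintegral_inter_add_sdiff _ A a, lintegral_union m2
        (disjoint_image_image fun y (hy : y ∈ A ∩ S) z (hz : z ∈ A \ S) e =>
          hz.2 (iA hy.1 hz.1 e ▸ hy.2)), e1, e2]
      exact ⟨m1.union m2, rfl⟩
    · obtain ⟨e, he, k⟩ := hY.exists_chart (sub hy)
      obtain ⟨S, k1, k2, k3⟩ := _root_.eventually_nhds_iff.1 k.eventually_nhds
      refine ⟨S, mem_nhdsWithin_of_mem_nhds (k2.mem_nhds k3), S, k2.measurableSet, Subset.rfl,
        fun A hA mA _ => ?_⟩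
      rw [image_congr fun z hz => (k1 z (hA hz)).self_of_nhds, lintegral_image hg he mA]
      refine ⟨(measEmb_symm he).measurableSet_image.2 mA, setLIntegral_congr_fun mA fun z hz => ?_⟩
      simp only [P366Z.dens, Stmt.mat, rep_eq_pl, pl_congr (k1 z (hA hz)) rfl,
        (k1 z (hA hz)).self_of_nhds]
  exact h2 A (hA.trans h1) mA inj

/-- the half-open cell -/
def cell (a : E n) : Set (E n) := {y | ∀ i, y i ∈ Ico (a i) (a i + 1)}

theorem meas_cell (a : E n) : MeasurableSet (cell a) := by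
  rw [cell, ofPred_forall]
  exact .iInter fun i => measurableSet_Ico.preimage (by fun_prop)

theorem inj_cell (hY : Per Y η) (a : E n) : InjOn Y (cell a ∩ Uo n η) := fun y hy y' hy' e => by
  obtain ⟨z, rfl⟩ := hY.inj y hy.2 y' hy'.2 e
  ext i
  have h1 := hy.1 i
  have h2 := hy'.1 i
  rw [PiLp.add_apply, lat_apply] at h2 ⊢
  have : z i = 0 := Int.abs_lt_one_iff.1 (by
    have : |(z i : ℝ)| < 1 := abs_lt.2 ⟨by linarith [h1.2, h2.1], by linarith [h1.1, h2.2]⟩
    exact_mod_cast this)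
  simp [this]

end Vale.Agent.P366M.An.Fm
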