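import Vale.Agent.P366C.Vert
import Vale.Agent.P366N.Chn

/-!
# P366C: the limit is a global graph
-/

open MeasureTheory Metric Filter Topology Set
open scoped ContDiff
open Vale.Agent.P366.Stmt Vale.Agent.P366Z Vale.Agent.P366W
open Vale.Agent.P366D (snc ini Uo Nr lat Per isOpen_Uo Uo_mono snc_add_lat cd_snc cd_ini)
open Vale.Agent.P366P (ini_snc snc_last snc_ini)
open Vale.Agent.P366M (Mf0 Fld At rep loc map_symm)
open Vale.Agent.P366M.An (Vt Fd FLT ub ub_sub abs_ub_le snc_mem_Uo)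
open Fin (last)

noncomputable section

namespace Vale.Agent.P366C

namespace GlbH

variable {I : Type} {𝒰 : Ultrafilter I}

theorem nz {Y : Type} [TopologicalSpace Y] {x : Y} {u : I → Y → ℝ} :
    (¬∀ V ∈ 𝓝 x, ∀ r > (0 : ℝ), ∀ᶠ i in (𝒰 : Filter I), ∃ y ∈ V, |u i y| < r) ↔
      ∃ r > (0 : ℝ), ∀ᶠ q : I × Y in (𝒰 : Filter I) ×ˢ 𝓝 x, r ≤ |u q.1 q.2| := by
  constructor
  · intro h
    simp only [not_forall, ← Ultrafilter.eventually_not, not_exists, not_and, not_lt] at h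
    obtain ⟨V, hV, r, r0, h⟩ := h
    exact ⟨r, r0, eventually_prod_iff.2 ⟨_, h, _, hV, fun a _ b => a _ b⟩⟩
  · rintro ⟨r, r0, h⟩ h'
    obtain ⟨pa, ha, pb, hb, h⟩ := eventually_prod_iff.1 h
    obtain ⟨i, a, y, b, c⟩ := (ha.and (h' _ hb r r0)).exists
    exact (h a b).not_gt c

variable {n k : ℕ} {u u' : I → E n → ℝ} {x : E n}

theorem Zs_congr (h : ∀ᶠ y in 𝓝 x, ∀ i, u i y = u' i y) : x ∈ Zs 𝒰 u ↔ x ∈ Zs 𝒰 u' := by
  refine not_iff_not.1 (nz.trans (.trans (exists_congr fun r => and_congr_right fun _ => ?_)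
    nz.symm))
  exact eventually_congr ((tendsto_snd.eventually h).mono fun q hq => by rw [hq])

theorem Zs_add (a : E n) : x + a ∈ Zs 𝒰 u ↔ x ∈ Zs 𝒰 fun i y => u i (y + a) := by
  refine not_iff_not.1 (nz.trans (.trans (exists_congr fun r => and_congr_right fun _ => ?_)
    nz.symm))
  rw [← map_add_right_nhds, prod_map_right, eventually_map]
  rfl

theorem ini_le (x y : E (k + 1)) : ‖ini x - ini y‖ ≤ ‖x - y‖ := by
  rw [EuclideanSpace.norm_eq, EuclideanSpace.norm_eq, Fin.sum_univ_castSucc]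
  exact Real.sqrt_le_sqrt (le_add_of_le_of_nonneg (le_of_eq (by simp [ini])) (sq_nonneg _))

theorem ini_mem {p q : E (k + 1)} {a b : ℝ} (hp : ini p ∈ Uo k (a + b)) (h : q ∈ ball p b) :
    ini q ∈ Uo k a := fun z => by
  have h1 := norm_sub_le_norm_sub_add_norm_sub (ini p) (ini q) (lat z)
  have h2 := ini_le p q
  rw [mem_ball', dist_eq_norm] at h
  linarith [hp z]

variable {X : Type} [Mf0 (k + 1) X] {F : Fd X I} {g : Fld (k + 1) X} {f : X → ℝ}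
  {Y : E (k + 1) → X} {ϑ : ℝ → ℝ} {η ζ τ ζ' τ' v₀ : ℝ}

theorem fl_mono (h : F.Fl g f Y ϑ η ζ τ) (h1 : ζ ≤ ζ') (h2 : τ ≤ τ') : F.Fl g f Y ϑ η ζ' τ' :=
  ⟨h.th, h.hf.imp fun _ a => a.imp fun _ b => ⟨b.1, b.2.1.trans h2, b.2.2⟩,
    h.sm.mono fun _ a θ U b y c d => (a θ U b y c d).trans h2, fun ψ a b c e he =>
      (h.area ψ a b c e he).mono fun _ d => d.trans (by
        have : 0 ≤ ∫ t, ψ t := integral_nonneg b
        gcongr)⟩

/-- the branch in the periodic chart -/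
def Ub (F : Fd X I) (Y : E (k + 1) → X) (ϑ : ℝ → ℝ) (i : I) (y : E (k + 1)) : ℝ :=
  F.v i (Y y) - F.lam i * ϑ (y (last k))

theorem Ub_lat (hϑ : Vt ϑ) (hY : Per Y η) (i : I) (y : E (k + 1)) (z : Fin (k + 1) → ℤ) :
    Ub F Y ϑ i (y + lat z) = Ub F Y ϑ i y - F.lam i * z (last k) := by
  rw [Ub, Ub, hY.per, show (y + lat z) (last k) = y (last k) + z (last k) from rfl, hϑ.add]
  ring

theorem Ub_bd (hF : F.Ok g f v₀) : ∃ C : ℝ, ∀ᶠ i in (F.𝒰 : Filter I), 0 < F.lam i ∧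
    ∀ y, |Ub F Y ϑ i y / F.lam i + ϑ (y (last k))| ≤ C := by
  obtain ⟨C, hC⟩ := hF.bd
  refine ⟨C, ?_⟩
  filter_upwards [hC, hF.lam.eventually (eventually_gt_atTop 0)] with i a b
  refine ⟨b, fun y => ?_⟩
  rw [Ub, sub_div, mul_div_cancel_left₀ _ b.ne', sub_add_cancel, abs_div, abs_of_pos b,
    div_le_iff₀ b]
  exact a _

theorem memA (hϑ : Vt ϑ) (hY : Per Y η) (hF : F.Ok g f v₀) (hl : F.Fl g f Y ϑ η ζ τ)
    {x : E (k + 1)} (hx : x ∈ Uo (k + 1) η) :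
    Y x ∈ F.A ↔ ∃ m : ℤ, x ∈ Zs F.𝒰 fun i y => Ub F Y ϑ i y - F.lam i * m := by
  obtain ⟨e, he, h1⟩ := hY.exists_chart hx
  obtain ⟨C, hC⟩ := Ub_bd (Y := Y) (ϑ := ϑ) hF
  have e1 : 𝓝 (Y x) = map Y (𝓝 x) := by rw [map_congr h1, map_symm he, h1.self_of_nhds]
  have e2 : ∀ᶠ q : I × E (k + 1) in (F.𝒰 : Filter I) ×ˢ 𝓝 x, 0 < F.lam q.1 ∧
      F.u q.1 (Y q.2) = ub (F.lam q.1) (Ub F Y ϑ q.1 q.2) := by
    filter_upwards [tendsto_fst.eventually hC, tendsto_snd.eventually (isOpen_Uo.mem_nhds hx)]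
      with q a b
    obtain ⟨m, hm⟩ := hl.th _ b
    refine ⟨a.1, ?_⟩
    rw [Fd.u, Fd.br, hm, ← ub_sub a.1.ne' (Ub F Y ϑ q.1 q.2) m, Ub]
    congr 1; ring
  refine not_iff_not.1 (nz.trans (.trans ?_ not_exists.symm))
  rw [e1, prod_map_right]
  simp only [eventually_map, Prod.map_fst, Prod.map_snd, id]
  constructor
  · rintro ⟨r, r0, h⟩ m
    refine nz.2 ⟨r, r0, ?_⟩
    filter_upwards [h, e2] with q a b
    exact (b.2 ▸ a).trans (abs_ub_le b.1 _ m)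
  · intro h
    set N := ⌈C + |ϑ (x (last k))| + 2⌉
    have h2 : ∀ᶠ r in 𝓝[>] (0 : ℝ), ∀ m ∈ Icc (-N) N, ∀ᶠ q : I × E (k + 1) in
        (F.𝒰 : Filter I) ×ˢ 𝓝 x, r ≤ |Ub F Y ϑ q.1 q.2 - F.lam q.1 * m| :=
      (eventually_all_finite (finite_Icc _ _)).2 fun m _ => by
        obtain ⟨r, r0, h⟩ := nz.1 (h m)
        filter_upwards [Ioo_mem_nhdsGT r0] with s hs
        exact h.mono fun q a => hs.2.le.trans a
    obtain ⟨r, h3, r0⟩ := (h2.and self_mem_nhdsWithin).exists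
    have c : Continuous fun y : E (k + 1) => |ϑ (y (last k))| :=
      (hϑ.sm.continuous.comp (by fun_prop)).abs
    refine ⟨r, r0, ?_⟩
    filter_upwards [(eventually_all_finite (finite_Icc _ _)).2 h3, e2, tendsto_fst.eventually hC,
      tendsto_snd.eventually (c.continuousAt.eventually (gt_mem_nhds (lt_add_one _)))]
      with q a b d s
    rw [b.2]
    refine a _ (abs_le.1 (Int.cast_le (R := ℝ).1 ?_))
    have k1 := abs_le.1 (d.2 q.2)
    have k2 := abs_le.1 (abs_sub_round (Ub F Y ϑ q.1 q.2 / F.lam q.1))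
    have k3 := Int.le_ceil (C + |ϑ (x (last k))| + 2)
    rw [Int.cast_abs, abs_le]
    constructor <;> linarith [le_abs_self (ϑ (q.2 (last k))), neg_abs_le (ϑ (q.2 (last k)))]

end GlbH

open GlbH

/-- **FLT** -/
theorem glb (h₁ : LOC) (h₂ : GOOD) (h₃ : EXC) (h₄ : SML) : FLT := by
  intro k ϑ hk hϑ ε₀ ε0 η' η0
  obtain ⟨ρ, ρ0, r1, r2⟩ : ∃ ρ > (0 : ℝ), 5 * ρ ≤ η' ∧ ρ ≤ 1 / 8 :=
    ⟨min (η' / 5) (1 / 8), by positivity, by linarith [min_le_left (η' / 5) (1 / 8)],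
      min_le_right _ _⟩
  obtain ⟨σ, σ0, s1⟩ := h₄ k η' η0
  obtain ⟨σ', σ1, s2⟩ := h₁ k ϑ hϑ ρ ρ0 σ σ0
  obtain ⟨ζ₁, z1, τ₁, t1, η₁, e1, s3⟩ := h₃ k ϑ hk hϑ ρ ρ0 (by linarith) σ' σ1
  obtain ⟨ζ₂, z2, τ₂, t2, η₂, e2, s4⟩ := h₂ k ϑ hk hϑ ε₀ ε0 η' η0
  refine ⟨min ζ₁ ζ₂, by positivity, min τ₁ τ₂, by positivity, min (min η₁ η₂) (min ρ σ),
    by positivity, fun η a0 a1 X _ _ I F g f Y v₀ hN hF hl => ?_⟩
  simp only [le_min_iff] at a1
  obtain ⟨⟨a1, a2⟩, a3, a4⟩ := a1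
  obtain ⟨δ, c, s3⟩ := s3 η a0 a1 X I F g f Y v₀ hN hF
    (fl_mono hl (min_le_left _ _) (min_le_left _ _))
  have mem : ∀ p : E (k + 1), ini p ∈ Uo k ρ → p ∈ Uo (k + 1) η := fun p hp =>
    snc_ini p ▸ snc_mem_Uo a3 hp _
  have mo : Uo k (5 * ρ) ⊆ Uo k ρ := Uo_mono (by linarith)
  have V := vert (𝒰 := F.𝒰) (U := Ub F Y ϑ) (η := σ) (isOpen_Uo (η := 5 * ρ))
    (fun i y hy => continuous_iff_continuousAt.2 fun t => ?_) (fun y _ => ?_) fun p hp hZ => ?_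
  · set w := wz F.𝒰 (Ub F Y ϑ)
    have mo' : Uo k η' ⊆ Uo k (5 * ρ) := Uo_mono r1
    obtain ⟨k1, k2⟩ := s1 η a0 a4 X g f Y w hN fun y hy => (V y (mo' hy)).2
    refine ⟨w, fun y z => ?_, fun y hy => (V y (mo' hy)).2.1, fun y hy =>
      ⟨snc_mem_Uo a3 (mo (mo' hy)) _, s4 η a0 a2 X I F g f Y v₀ hN hF
        (fl_mono hl (min_le_right _ _) (min_le_right _ _)) _ (by rwa [ini_snc])⟩,
      fun y hy => ?_, k1, k2⟩
    · refine congrArg Classical.epsilon (funext fun t => propext ?_)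
      simp only [snc_add_lat, Zs_add, Ub_lat hϑ hN.per, Fin.snoc_last, Int.cast_zero, mul_zero,
        sub_zero]
    · have c1 : ContinuousAt ini (snc y (w y)) := (cd_ini (m := 0)).continuous.continuousAt
      have c2 : ContinuousAt (fun x : E (k + 1) => |w (ini x) - x (last k)|) (snc y (w y)) :=
        (((V y (mo' hy)).2.1.continuousAt.comp_of_eq c1 (ini_snc _ _)).sub (by fun_prop)).abs
      filter_upwards [c1.eventually (isOpen_Uo.mem_nhds (by rw [ini_snc]; exact mo' hy)),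
        c2.eventually (gt_mem_nhds (show _ < 1 by simp))] with x b1 b2
      have e3 : ∀ m : ℤ, (x ∈ Zs F.𝒰 fun i y => Ub F Y ϑ i y - F.lam i * m) ↔
          x (last k) + m = w (ini x) := fun m => by
        rw [← (V _ b1).1, show snc (ini x) (x (last k) + m) = x + lat (Pi.single (last k) m) by
          ext i; induction i using Fin.lastCases <;> simp [Fin.castSucc_ne_last], Zs_add]
        simp only [Ub_lat hϑ hN.per, Pi.single_eq_same]
      rw [memA hϑ hN.per hF hl (mem x (mo b1))]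
      simp only [e3]
      refine ⟨fun ⟨m, hm⟩ => ?_, fun h => ⟨0, ?_⟩⟩
      · rw [← hm, add_sub_cancel_left, ← Int.cast_abs, ← Int.cast_one, Int.cast_lt,
          Int.abs_lt_one_iff] at b2
        rw [← hm, b2, Int.cast_zero, add_zero, snc_ini]
      · rw [Int.cast_zero, add_zero]
        exact (congrArg (fun z : E (k + 1) => z (last k)) h).trans (snc_last _ _)
  · have c : ContinuousAt (snc y) t :=
      (cd_snc (m := 0) contDiffAt_const contDiffAt_id).continuousAt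
    refine ((hF.smv i).cont.continuousAt.comp (ContinuousAt.comp
      (hN.per.smP (snc_mem_Uo a3 (mo hy) t)).ct c)).sub (continuousAt_const.mul ?_)
    simpa only [snc_last] using hϑ.sm.continuous.continuousAt
  · obtain ⟨C, hC⟩ := Ub_bd (Y := Y) (ϑ := ϑ) hF
    have e4 : ∀ m : ℤ, ϑ m = m := fun m => by
      simpa [hϑ.zero 0 (by simp)] using hϑ.add 0 m
    have e5 := Int.le_ceil (|C| + 1)
    have e6 := le_abs_self C
    refine ⟨(-⌈|C| + 1⌉ : ℤ), (⌈|C| + 1⌉ : ℤ), by push_cast; linarith [abs_nonneg C],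
      hC.mono fun i a => ?_⟩
    have b1 := (abs_le.1 (a.2 (snc y (-⌈|C| + 1⌉ : ℤ)))).1
    have b2 := (abs_le.1 (a.2 (snc y (⌈|C| + 1⌉ : ℤ)))).2
    rw [snc_last, e4] at b1 b2
    exact ⟨(div_pos_iff_of_pos_right a.1).1 (by push_cast at b1 ⊢; linarith),
      neg_of_div_neg_left (by linarith) a.1.le⟩
  · obtain ⟨e, he, h5⟩ := hN.per.cht p (2 * ρ) (by linarith) fun q hq =>
      mem q (ini_mem (b := 2 * (2 * ρ)) (by rwa [show ρ + 2 * (2 * ρ) = 5 * ρ by ring]) hq)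
    have e7 : ∀ q ∈ ball p (2 * ρ), ∀ i,
        loc e (F.v i) q - F.lam i * (ϑ (q (last k)) + (0 : ℤ)) = Ub F Y ϑ i q := fun q hq i => by
      rw [loc, h5 q hq, Ub, Int.cast_zero, add_zero]
    have e8 := ball_mem_nhds p (show 0 < 2 * ρ by linarith)
    obtain ⟨w, b1, b2, b3, b4⟩ := s2 I F.𝒰 (rep e g) (loc e f) _ p δ _ _ F.ε
      (hF.c0.const_add (δ * (0 : ℤ) + c)) hF.ε0
      ((s3 0 0 (by rw [abs_zero]; linarith [hF.S0])).mono fun i a q hq => a q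
        (ini_mem (Uo_mono (by linarith) hp) hq) e he fun y hy => h5 y (by
          rw [mem_ball] at *; linarith [dist_triangle y q p]))
      ((Zs_congr (eventually_of_mem e8 e7)).2 hZ)
    refine ⟨w, b1, b2, b3, ?_⟩
    filter_upwards [b4, e8] with x d1 d2
    rw [Zs_congr (eventually_of_mem (isOpen_ball.mem_nhds d2) e7)] at d1
    simpa only [e7 x d2] using d1

end Vale.Agent.P366C
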