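import Vale.Agent.P366C.Ana2
import Vale.Agent.P366Q.C.Pt
import Vale.Agent.P366Q.C.Orth
import Vale.Agent.P366M.Max

/-!
# P366C: the gradient estimate for capillary graphs
-/

open MeasureTheory Metric Filter Topology Set
open scoped ContDiff
open Vale.Agent.P366 hiding E
open Vale.Agent.P366.Stmt Vale.Agent.P366Z
open Vale.Agent.P366M.Gr Vale.Agent.P366M.Y.C

noncomputable section

namespace Vale.Agent.P366M.An

variable {n : ℕ} {X : Type} [Mf0 n X] {Θ θ θ' : X → ℝ} {U U' : Set X} {x : X}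
  {g : Fld n X} {f u z R : X → ℝ} {l : ℝ}

/-- **the equation of Jacobi** -/
theorem jac_m (hg : Met g) (hf : Smooth f) (hu : Smooth u) (x : X) :
    lap (gb g 1 u) (fun y => Real.log (ww g 1 u y)) x +
        ip (gb g 1 u) f (fun y => Real.log (ww g 1 u y)) x =
      a2 g u x + (b2 g (ric g) u u x / ww g 1 u x ^ 2 - b2 g (hess g f) u u x / ww g 1 u x ^ 2) +
        dn g u (hw g f u) x +
        ip (gb g 1 u) (fun y => Real.log (ww g 1 u y)) (fun y => Real.log (ww g 1 u y)) x := by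
  have he := ch_mem x
  have h1 := P366P.jac_log (hg.loc' x) (hf _ he) (hu _ he) (pt x)
  have h3 : (fun y => Real.log (P366Y.C.ww (rep (ch x) g) 1 (loc (ch x) u) y)) =
      loc (ch x) fun y => Real.log (ww g 1 u y) := by rw [← loc_w he g hu]; rfl
  rw [h3, ← loc_hw hg he hf hu, dn_pt, a2_pt hg hu, P366P.rn_eq, ric_rep hg he,
    ← rep_hess hg he hf.two, b2_pt, b2_pt, ← loc_w he g hu, loc_pt, ← rep_g he g hu, ip_pt,
    ip_pt] at h1
  exact h1

theorem b2_le (hg : Met g) {T : Fld n X} (hT : ∀ i j, T x i j = T x j i) (u : X → ℝ) :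
    |b2 g T u u x / ww g 1 u x ^ 2| ≤ √(normSq g T x) := by
  obtain ⟨h0, -, -, h1, h2, -⟩ := orth n X g T u u x hg hT
  have h3 := hg.ip_nonneg u x
  have h4 := w_sq hg u x
  refine Real.abs_le_sqrt ?_
  rw [div_pow, div_le_iff₀ (by rw [h4]; positivity), h4]
  nlinarith [mul_le_mul_of_nonneg_right h1 h3, mul_nonneg h0 h3]

theorem exists_lift (h : Cir Θ) : ∃ (θ : X → X → ℝ) (U : X → Set X),
    ∀ x, Lft Θ (θ x) (U x) ∧ x ∈ U x := by
  choose θ U h using h
  exact ⟨θ, U, h⟩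

/-- the gradients of the lifts are bounded -/
theorem Cir.gn_le [CompactSpace X] (h : Cir Θ) (hg : Met g) :
    ∃ C, 0 ≤ C ∧ ∀ θ U, Lft Θ θ U → ∀ x ∈ U, gn g θ x ≤ C := by
  obtain ⟨θ, U, h⟩ := exists_lift h
  have e : ∀ θ' U', Lft Θ θ' U' → ∀ x ∈ U', gn g (θ x) x = gn g θ' x := fun θ' U' k x hx => by
    obtain ⟨m, hm⟩ := k.ev (h x).1 hx (h x).2
    rw [gn_congr hm]; simp only [gn, ip, pd_add_const]
  have c : Continuous fun x => gn g (θ x) x := continuous_iff_continuousAt.2 fun x =>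
    (hg.cont_gn (CD.of_le (h x).1.sm one_le_oo)).continuousAt.congr
      (((h x).1.opn.eventually_mem (h x).2).mono fun y hy => (e _ _ (h x).1 y hy).symm)
  obtain ⟨C, hC⟩ := isCompact_univ.bddAbove_image c.continuousOn
  exact ⟨max C 0, le_max_right _ _, fun θ' U' k x hx =>
    e θ' U' k x hx ▸ (hC ⟨x, trivial, rfl⟩).trans (le_max_left _ _)⟩

theorem grd : GRD := by
  intro n X _ _ g f Θ
  by_cases H : Met g ∧ Smooth f ∧ Cir Θ
  swap
  · exact ⟨0, fun a b s ε l B z h => (H ⟨h.met, h.smf, h.cir⟩).elim⟩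
  obtain ⟨hg, hf, hΘ⟩ := H
  obtain ⟨C₁, C1, h1⟩ := hΘ.gn_le hg
  obtain ⟨C₂, h2⟩ := isCompact_univ.bddAbove_image
    ((hg.sm_normSq hg.sm_ric).cont.sqrt.add (hg.sm_normSq (hg.sm_hess hf)).cont.sqrt).continuousOn
  have C2 : 0 ≤ C₂ := by
    obtain ⟨x⟩ : Nonempty X := inferInstance
    exact le_trans (add_nonneg (Real.sqrt_nonneg _) (Real.sqrt_nonneg _)) (h2 ⟨x, trivial, rfl⟩)
  refine ⟨4 + 2 * C₁ + 2 * C₂, fun a b s ε l B z h hz ha hb hc θ' U' k x hx => ?_⟩
  obtain ⟨θ, U, H⟩ := exists_lift hΘ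
  have e : ∀ θ' U', Lft Θ θ' U' → ∀ x ∈ U', ww g 1 (fun y => z y - l * θ x y) x =
      ww g 1 (fun y => z y - l * θ' y) x := fun θ' U' k x hx =>
    (k.ww_ev (H x).1 hx (H x).2 g z l).self_of_nhds
  have su : ∀ x, Smooth fun y => z y - l * θ x y := fun x => CD.sub hz (CD.mul cd_const (H x).1.sm)
  have e' : ∀ x, (fun y => ww g 1 (fun y' => z y' - l * θ y y') y) =ᶠ[𝓝 x]
      ww g 1 fun y => z y - l * θ x y := fun x =>
    ((H x).1.opn.eventually_mem (H x).2).mono fun y hy => e _ _ (H x).1 y hy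
  obtain ⟨p, -, hp⟩ := isCompact_univ.exists_isMaxOn univ_nonempty
    (continuous_iff_continuousAt.2 fun x => (sm_w hg (su x)).cont.continuousAt.congr
      (e' x).symm).continuousOn
  rw [← e θ' U' k x hx]
  refine (hp trivial).trans ?_
  set u : X → ℝ := fun y => z y - l * θ p y with hu
  have w0 := w_pos hg u
  have m1 : IsLocalMax (fun y => Real.log (ww g 1 u y)) p :=
    ((hp.isLocalMax univ_mem).congr (e' p)).mono fun y hy => Real.log_le_log (w0 y) hy
  have sl : Smooth fun y => Real.log (ww g 1 u y) := CD.log (sm_w hg (su p)) fun y => (w0 y).ne'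
  have j := jac_m hg hf (su p) p
  have j1 := (met_g hg (su p)).lap_nonpos (sl.c2 p) m1
  have j2 : ip (gb g 1 u) f (fun y => Real.log (ww g 1 u y)) p = 0 := by
    simp [ip, (ptm n X g 1 _ p hg sm_one (sl.c2 p) m1).1]
  have j3 := (met_g hg (su p)).ip_nonneg (fun y => Real.log (ww g 1 u y)) p
  have j4 := a2_nonneg hg (su p) p
  have j5 := b2_le hg ((RciH.sy_rc hg).sy p) u
  have j6 := b2_le hg (hg.hess_sy (hf.c2 p)) u
  have j7 : _ + _ ≤ C₂ := h2 ⟨p, trivial, rfl⟩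
  have ds := (h.sms.differentiable (by simp) (z p)).hasDerivAt
  have d1 : dn g u (hw g f u) p = (ε + a p * deriv s (z p)) * dn g u z p +
      s (z p) * dn g u a p + dn g u b p := by
    rw [dn_congr .rfl (((H p).1.opn.eventually_mem (H p).2).mono fun y hy => hc _ _ (H p).1 y hy)]
    have q1 : DAt (fun y => s (z y)) p := (h.sms.compM hz).differentiable (by simp) p
    have q2 : ∀ i, pd i (fun x => ε * z x + a x * s (z x) + b x) p =
        (ε + a p * deriv s (z p)) * pd i z p + s (z p) * pd i a p + pd i b p := fun i => by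
      rw [pd_add (((hz.diff p).const_mul ε).add ((h.sma.diff p).mul q1)) (h.smb.diff p),
        pd_add ((hz.diff p).const_mul ε) ((h.sma.diff p).mul q1), pd_const_mul,
        pd_mul (h.sma.diff p) q1, pd_comp ds (hz.diff p)]
      ring
    simp only [dn_eq hg, q2, add_mul, Finset.sum_add_distrib, Finset.mul_sum, mul_assoc]
  have d2 : dn g u z p = dn g u u p + l * dn g u (θ p) p := by
    rw [← one_mul (dn g u u p)]
    refine dn_lin fun i => ?_
    rw [hu, pd_sub (hz.diff p) (((H p).1.sm.diff p).const_mul l), pd_const_mul]; ring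
  have d3 : |l * dn g u (θ p) p| ≤ |l| * C₁ := by
    rw [abs_mul]
    exact mul_le_mul_of_nonneg_left ((abs_dn_le hg _ _ p).trans (h1 _ _ (H p).1 p (H p).2))
      (abs_nonneg l)
  have d4 : |s (z p) * dn g u a p| ≤ B := by
    rw [abs_mul]
    exact (mul_le_of_le_one_left (abs_nonneg _) (h.s1 _)).trans ((abs_dn_le hg _ _ p).trans (ha p))
  have d5 := (abs_dn_le hg u b p).trans (hb p)
  have B0 : 0 ≤ B := (gn_nonneg _ _ _).trans (ha p)
  have d6 : 0 ≤ a p * deriv s (z p) := mul_nonneg (h.a0 p) h.mono.deriv_nonneg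
  have d7 : (ww g 1 u p)⁻¹ ≤ 1 := inv_le_one_of_one_le₀ (GbH.one_le_ww hg 1 u p)
  have ε0 := h.ε0
  have q0 : 0 ≤ (1 + B) / ε := by positivity
  have l0 := abs_nonneg l
  rw [dn_self hg] at d2
  show ww g 1 u p ≤ _
  by_cases hW : ww g 1 u p ≤ 2 + 2 * (|l| * C₁)
  · nlinarith [mul_nonneg C1 q0, mul_nonneg C2 q0, mul_nonneg C2 l0]
  have d8 : ww g 1 u p / 2 ≤ dn g u z p := by linarith [neg_abs_le (l * dn g u (θ p) p)]
  have d9 : ε * (ww g 1 u p / 2) ≤ C₂ + 2 * B := by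
    have : ε * (ww g 1 u p / 2) ≤ (ε + a p * deriv s (z p)) * dn g u z p :=
      mul_le_mul (by linarith) d8 (by linarith [w0 p]) (by linarith)
    linarith [neg_abs_le (s (z p) * dn g u a p), neg_abs_le (dn g u b p),
      neg_abs_le (b2 g (ric g) u u p / ww g 1 u p ^ 2),
      le_abs_self (b2 g (hess g f) u u p / ww g 1 u p ^ 2)]
  have d10 : ww g 1 u p ≤ (4 + 2 * C₂) * ((1 + B) / ε) := by
    rw [← mul_div_assoc, le_div_iff₀ ε0]; nlinarith [mul_nonneg C2 B0]
  nlinarith [mul_nonneg C1 q0, mul_nonneg C2 l0, mul_nonneg C1 l0]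

end Vale.Agent.P366M.An
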