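import Vale.Agent.P272.K.LIN.Patch
import Vale.Agent.P272.K.LIN.DescIn

/-!
# P366C: second order operators on a compact manifold from their coefficients in charts
-/

open scoped NNReal Topology ContDiff
open Filter Set Metric
open Vale.Agent.P272.K Vale.Agent.P272.K.LIN

set_option maxSynthPendingDepth 3
set_option linter.unusedSectionVars false

noncomputable section

namespace Vale.Agent.P366C

theorem interp {α β C e : ℝ} (h0 : 0 < β) (h : β < α) (he : 0 < e) : ∃ d > (0 : ℝ), d ≤ e ∧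
    ∀ s u : ℝ, 0 ≤ s → u ≤ C * s ^ α → u ≤ 2 * d → u ≤ e * s ^ β := by
  have hc : ContinuousAt (fun t : ℝ => |C| * t ^ (α - β)) 0 :=
    continuousAt_const.mul (Real.continuousAt_rpow_const _ _ (.inr (by linarith)))
  have h1 : |C| * (0 : ℝ) ^ (α - β) < e := by rwa [Real.zero_rpow (by linarith), mul_zero]
  obtain ⟨t, t0, ht⟩ := Metric.eventually_nhds_iff.1 (hc.eventually (gt_mem_nhds h1))
  have p : 0 < (t / 2) ^ β := Real.rpow_pos_of_pos (half_pos t0) _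
  refine ⟨min e (e * (t / 2) ^ β / 2), by positivity, min_le_left _ _, fun s u s0 h2 h3 => ?_⟩
  have q : 0 ≤ s ^ β := Real.rpow_nonneg s0 _
  rcases lt_or_ge s t with k | k
  · have k1 := (ht (y := s) (by rwa [dist_zero_right, Real.norm_of_nonneg s0])).le
    have k2 : s ^ α = s ^ (α - β) * s ^ β := by
      rw [← Real.rpow_add' s0 (by linarith), sub_add_cancel]
    calc u ≤ |C| * s ^ α := h2.trans (mul_le_mul_of_nonneg_right (le_abs_self _)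
          (Real.rpow_nonneg s0 _))
      _ = |C| * s ^ (α - β) * s ^ β := by rw [k2, mul_assoc]
      _ ≤ _ := mul_le_mul_of_nonneg_right k1 q
  · have k1 : (t / 2) ^ β ≤ s ^ β := Real.rpow_le_rpow (half_pos t0).le (by linarith) h0.le
    have k2 := min_le_right e (e * (t / 2) ^ β / 2)
    nlinarith [mul_le_mul_of_nonneg_left k1 he.le]

variable {E : Type} [NormedAddCommGroup E] [NormedSpace ℝ E] [FiniteDimensional ℝ E]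
  {X : Type} [TopologicalSpace X] [ChartedSpace E X] [T2Space X] [CompactSpace X] [RSm E X]
  (𝒞 : Cov E X) {V : Type} [NormedAddCommGroup V] [NormedSpace ℝ V] {α β : ℝ}

/-- the balls of the cover -/
abbrev Bl (i : Fin 𝒞.N) : Set E := ball (𝒞.c i) (2 * 𝒞.r i)

/-- `x` lies in the ball of the chart `i` -/
def In (i : Fin 𝒞.N) (x : X) : Prop := x ∈ (𝒞.e i).source ∧ 𝒞.e i x ∈ Bl 𝒞 i

/-- bounded and Hölder on the balls -/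
def HBl (α S : ℝ) (A : Fin 𝒞.N → E → V) : Prop :=
  ∀ i, ∀ y ∈ Bl 𝒞 i, ‖A i y‖ ≤ S ∧ ∀ y' ∈ Bl 𝒞 i, ‖A i y - A i y'‖ ≤ S * ‖y - y'‖ ^ α

/-- a chart of the cover at `x` -/
def idx (x : X) : Fin 𝒞.N := (𝒞.cover x).choose

theorem in_idx (x : X) : In 𝒞 (idx 𝒞 x) x :=
  ⟨(𝒞.cover x).choose_spec.1, 𝒞.ball_sub (𝒞.cover x).choose_spec.2⟩

theorem in_symm {i : Fin 𝒞.N} {y : E} (hy : y ∈ Bl 𝒞 i) : In 𝒞 i ((𝒞.e i).symm y) :=
  ⟨(𝒞.η_symm hy).1, by rw [(𝒞.η_symm hy).2.1]; exact hy⟩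

variable {𝒞}

theorem HBl.mono {S S' : ℝ} {A : Fin 𝒞.N → E → V} (h : HBl 𝒞 α S A) (hS : S ≤ S') :
    HBl 𝒞 α S' A := fun i y hy => ⟨(h i y hy).1.trans hS, fun y' hy' =>
  ((h i y hy).2 y' hy').trans (mul_le_mul_of_nonneg_right hS (by positivity))⟩

theorem HBl.congr {S : ℝ} {A A' : Fin 𝒞.N → E → V} (h : HBl 𝒞 α S A)
    (e : ∀ i, ∀ y ∈ Bl 𝒞 i, A' i y = A i y) : HBl 𝒞 α S A' := fun i y hy =>
  ⟨e i y hy ▸ (h i y hy).1, fun y' hy' => by rw [e i y hy, e i y' hy']; exact (h i y hy).2 y' hy'⟩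

theorem HBl.apply {W : Type} [NormedAddCommGroup W] [NormedSpace ℝ W] {S T : ℝ}
    {A : Fin 𝒞.N → E → V →L[ℝ] W} {f : Fin 𝒞.N → E → V} (hA : HBl 𝒞 α S A) (hf : HBl 𝒞 α T f)
    (T0 : 0 ≤ T) : HBl 𝒞 α (2 * S * T) fun i y => A i y (f i y) := fun i y hy => by
  have S0 : 0 ≤ S := (norm_nonneg _).trans (hA i y hy).1
  refine ⟨((A i y).le_opNorm _).trans ((mul_le_mul (hA i y hy).1 (hf i y hy).1 (norm_nonneg _)
    S0).trans (by nlinarith [mul_nonneg S0 T0])), fun y' hy' => ?_⟩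
  have e : A i y (f i y) - A i y' (f i y') = A i y (f i y - f i y') + (A i y - A i y') (f i y') := by
    rw [map_sub, _root_.sub_apply]; abel
  have q : 0 ≤ ‖y - y'‖ ^ α := by positivity
  have k1 := ((A i y).le_opNorm (f i y - f i y')).trans
    (mul_le_mul (hA i y hy).1 ((hf i y hy).2 y' hy') (norm_nonneg _) S0)
  have k2 := ((A i y - A i y').le_opNorm (f i y')).trans
    (mul_le_mul ((hA i y hy).2 y' hy') (hf i y' hy').1 (norm_nonneg _) (mul_nonneg S0 q))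
  rw [e]
  exact (norm_add_le _ _).trans (by linarith)

/-- interpolation on the balls -/
theorem HBl.interp (h0 : 0 < β) (h : β < α) (S : ℝ) {e : ℝ} (he : 0 < e) : ∃ d > (0 : ℝ),
    ∀ A A' : Fin 𝒞.N → E → V, HBl 𝒞 α S A → HBl 𝒞 α S A' →
      (∀ i, ∀ y ∈ Bl 𝒞 i, ‖A i y - A' i y‖ ≤ d) → HBl 𝒞 β e (A - A') := by
  obtain ⟨d, d0, de, hd⟩ := P366C.interp (C := 2 * S) h0 h he
  refine ⟨d, d0, fun A A' hA hA' k i y hy => ⟨(k i y hy).trans de, fun y' hy' =>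
    hd _ _ (norm_nonneg _) ?_ ((norm_sub_le _ _).trans (by
      have := k i y hy
      have := k i y' hy'
      simp only [Pi.sub_apply]
      linarith))⟩⟩
  have e : (A - A') i y - (A - A') i y' = (A i y - A i y') - (A' i y - A' i y') := by
    simp only [Pi.sub_apply]; abel
  rw [e]
  exact (norm_sub_le _ _).trans (by linarith [(hA i y hy).2 y' hy', (hA' i y hy).2 y' hy'])

variable (𝒞)

theorem hol_of_charts (h0 : 0 < α) : ∃ C ≥ (0 : ℝ), ∀ (f : X → V) (S : ℝ),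
    HBl 𝒞 α S (fun i y => f ((𝒞.e i).symm y)) →
      (∀ x, ‖f x‖ ≤ S) ∧ ∀ x y, ‖f x - f y‖ ≤ C * S * 𝒞.w α x y := by
  obtain ⟨δ, δ0, hδ⟩ := 𝒞.exists_near
  have p : 0 < δ ^ α := Real.rpow_pos_of_pos δ0 _
  refine ⟨1 + 2 / δ ^ α, by positivity, fun f S h => ?_⟩
  have b : ∀ x, ‖f x‖ ≤ S := fun x => by
    have := (h _ _ (in_idx 𝒞 x).2).1
    simpa only [(𝒞.e _).left_inv (in_idx 𝒞 x).1] using this
  refine ⟨b, fun x y => ?_⟩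
  have S0 : 0 ≤ S := (norm_nonneg _).trans (b x)
  have q : 0 ≤ 𝒞.d x y ^ α := Real.rpow_nonneg (𝒞.d_nonneg _ _) _
  rw [𝒞.coe_w]
  rcases lt_or_ge (𝒞.d x y) δ with k | k
  · obtain ⟨i, hx, hy, hx', hy', k1⟩ := hδ x y k
    have k2 := (h i _ hx').2 _ hy'
    simp only [(𝒞.e i).left_inv hx, (𝒞.e i).left_inv hy] at k2
    have k3 := mul_le_mul_of_nonneg_left (Real.rpow_le_rpow (norm_nonneg _) k1 h0.le) S0
    have : 0 ≤ 2 / δ ^ α * S * 𝒞.d x y ^ α := by positivity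
    nlinarith
  · have k1 : 1 ≤ 𝒞.d x y ^ α / δ ^ α := (one_le_div p).2 (Real.rpow_le_rpow δ0.le k h0.le)
    have k2 := mul_le_mul_of_nonneg_left k1 (show 0 ≤ 2 * S by positivity)
    have k3 : (1 + 2 / δ ^ α) * S * 𝒞.d x y ^ α =
      S * 𝒞.d x y ^ α + 2 * S * (𝒞.d x y ^ α / δ ^ α) := by ring
    have := mul_nonneg S0 q
    linarith [norm_sub_le (f x) (f y), b x, b y]

theorem charts_of_hol (h0 : 0 < α) : ∃ C ≥ (1 : ℝ), ∀ (f : Fin 𝒞.N → X → V) (S : ℝ),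
    (∀ i x, ‖f i x‖ ≤ S) → (∀ i x y, ‖f i x - f i y‖ ≤ S * 𝒞.w α x y) →
    HBl 𝒞 α (C * S) fun i y => f i ((𝒞.e i).symm y) := by
  have h : ∀ i, ∃ C, 0 ≤ C ∧ ∀ y ∈ closedBall (𝒞.c i) (3 * 𝒞.r i),
      ∀ y' ∈ closedBall (𝒞.c i) (3 * 𝒞.r i),
      𝒞.d ((𝒞.e i).symm y) ((𝒞.e i).symm y') ≤ C * ‖y - y'‖ := fun i =>
    𝒞.symm_lip (𝒞.mem i) (isCompact_closedBall _ _) (𝒞.sub i)
  choose D D0 hD using h
  obtain ⟨C, C0, hC⟩ := Cov.exists_le_all D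
  have p : 0 ≤ C ^ α := Real.rpow_nonneg C0 _
  refine ⟨1 + C ^ α, by linarith, fun f S h1 h2 i y hy => ?_⟩
  have S0 : 0 ≤ S := (norm_nonneg _).trans (h1 i ((𝒞.e i).symm y))
  have sb : Bl 𝒞 i ⊆ closedBall (𝒞.c i) (3 * 𝒞.r i) :=
    ball_subset_closedBall.trans (closedBall_subset_closedBall (by linarith [𝒞.r_pos i]))
  refine ⟨(h1 i _).trans (by nlinarith), fun y' hy' => (h2 i _ _).trans ?_⟩
  have k := Real.rpow_le_rpow (𝒞.d_nonneg _ _) ((hD i y (sb hy) y' (sb hy')).trans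
    (mul_le_mul_of_nonneg_right (hC i) (norm_nonneg _))) h0.le
  rw [Real.mul_rpow C0 (norm_nonneg _)] at k
  rw [𝒞.coe_w]
  have q : 0 ≤ S * ‖y - y'‖ ^ α := by positivity
  nlinarith [mul_le_mul_of_nonneg_left k S0]

/-- the jet in the chart `i` -/
def jc (i : Fin 𝒞.N) (v : X → ℝ) : E → Jet E := jet fun z => v ((𝒞.e i).symm z)

theorem jc_bd (h0 : 0 < α) : ∃ C ≥ (0 : ℝ), ∀ v : 𝒞.C2 α,
    HBl 𝒞 α (C * ‖v‖) fun i => jc 𝒞 i (𝒞.fn v) := by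
  obtain ⟨C, C1, hC⟩ := charts_of_hol 𝒞 (V := Jet E) h0
  refine ⟨C, by linarith, fun v => (hC (fun i => 𝒞.J α i v) ‖v‖ (fun i x =>
    (Hol.norm_apply_le _ x).trans (𝒞.norm_J_le i v)) fun i x y => (Hol.norm_sub_le' _ x y).trans
      (mul_le_mul_of_nonneg_right (𝒞.norm_J_le i v) (NNReal.coe_nonneg _))).congr
    fun i y hy => ?_⟩
  rw [𝒞.J_apply, 𝒞.Jf_symm hy]
  rfl

/-- coefficients -/
abbrev Co := Fin 𝒞.N → E → Jet E →L[ℝ] ℝ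

/-- the coefficients in the charts are compatible -/
def Adm (A : Co 𝒞) : Prop := ∀ v : X → ℝ, CkFn E 2 v → ∀ i k x, In 𝒞 i x → In 𝒞 k x →
  A i (𝒞.e i x) (jc 𝒞 i v (𝒞.e i x)) = A k (𝒞.e k x) (jc 𝒞 k v (𝒞.e k x))

/-- compatible and Hölder -/
def Good (α : ℝ) (A : Co 𝒞) : Prop := Adm 𝒞 A ∧ ∃ S, HBl 𝒞 α S A

/-- the operator on functions -/
def opf (A : Co 𝒞) (v : X → ℝ) (x : X) : ℝ :=
  A (idx 𝒞 x) (𝒞.e (idx 𝒞 x) x) (jc 𝒞 (idx 𝒞 x) v (𝒞.e (idx 𝒞 x) x))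

theorem op_bd (h0 : 0 < α) : ∃ C ≥ (0 : ℝ), ∀ (A : Co 𝒞) (S : ℝ), Adm 𝒞 A → HBl 𝒞 α S A →
    ∀ v : 𝒞.C2 α, (∀ x, ‖opf 𝒞 A (𝒞.fn v) x‖ ≤ C * |S| * ‖v‖) ∧
      ∀ x y, ‖opf 𝒞 A (𝒞.fn v) x - opf 𝒞 A (𝒞.fn v) y‖ ≤ C * |S| * ‖v‖ * 𝒞.w α x y := by
  obtain ⟨C, C0, hC⟩ := jc_bd 𝒞 h0
  obtain ⟨D, D0, hD⟩ := hol_of_charts 𝒞 (V := ℝ) h0
  refine ⟨2 * C + D * (2 * C), by positivity, fun A S hA hS v => ?_⟩
  obtain ⟨k1, k2⟩ := hD (opf 𝒞 A (𝒞.fn v)) _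
    (((hS.mono (le_abs_self S)).apply (hC v) (by positivity)).congr fun i y hy => by
      rw [opf, hA _ (𝒞.fn_ck v) _ i _ (in_idx 𝒞 _) (in_symm 𝒞 hy), (𝒞.η_symm hy).2.1])
  have p : 0 ≤ C * |S| * ‖v‖ := by positivity
  have q := mul_nonneg D0 p
  exact ⟨fun x => (k1 x).trans (by nlinarith), fun x y => (k2 x y).trans
    (mul_le_mul_of_nonneg_right (by nlinarith) (NNReal.coe_nonneg _))⟩

theorem opf_add (A : Co 𝒞) (u v : 𝒞.C2 α) (x : X) :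
    opf 𝒞 A (𝒞.fn (u + v)) x = opf 𝒞 A (𝒞.fn u) x + opf 𝒞 A (𝒞.fn v) x := by
  rw [opf, opf, opf, ← map_add]
  exact congrArg _ (Cov.jet_add (𝒞.fn_ck u _ (𝒞.mem _) x (in_idx 𝒞 x).1)
    (𝒞.fn_ck v _ (𝒞.mem _) x (in_idx 𝒞 x).1))

theorem opf_smul (A : Co 𝒞) (c : ℝ) (v : 𝒞.C2 α) (x : X) :
    opf 𝒞 A (𝒞.fn (c • v)) x = c * opf 𝒞 A (𝒞.fn v) x := by
  rw [opf, opf, ← smul_eq_mul, ← map_smul]
  exact congrArg _ (Cov.jet_smul c)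

/-- the operator as a linear map -/
def opl (h0 : 0 < α) {A : Co 𝒞} (hA : Good 𝒞 α A) : 𝒞.C2 α →ₗ[ℝ] Hol (𝒞.w α) ℝ where
  toFun v := ⟨opf 𝒞 A (𝒞.fn v),
    ⟨_, ((op_bd 𝒞 h0).choose_spec.2 A _ hA.1 hA.2.choose_spec v).1⟩,
    ⟨_, ((op_bd 𝒞 h0).choose_spec.2 A _ hA.1 hA.2.choose_spec v).2⟩⟩
  map_add' u v := Hol.ext fun x => opf_add 𝒞 A u v x
  map_smul' c v := Hol.ext fun x => opf_smul 𝒞 A c v x

open Classical in
/-- the operator -/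
def Lop (h0 : 0 < α) (A : Co 𝒞) : 𝒞.C2 α →L[ℝ] Hol (𝒞.w α) ℝ :=
  if hA : Good 𝒞 α A then (opl 𝒞 h0 hA).mkContinuousOfExistsBound (by
    obtain ⟨C, C0, hC⟩ := op_bd 𝒞 h0
    obtain ⟨S, hS⟩ := hA.2
    refine ⟨C * |S| + C * |S|, fun v => ?_⟩
    rw [add_mul]
    exact Hol.norm_le_of (by positivity) (by positivity) (hC A S hA.1 hS v).1 (hC A S hA.1 hS v).2)
  else 0

theorem Lop_apply (h0 : 0 < α) {A : Co 𝒞} (hA : Good 𝒞 α A) (v : 𝒞.C2 α) {i : Fin 𝒞.N} {x : X}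
    (hx : In 𝒞 i x) : Lop 𝒞 h0 A v x = A i (𝒞.e i x) (jc 𝒞 i (𝒞.fn v) (𝒞.e i x)) := by
  rw [Lop, dif_pos hA]
  exact hA.1 _ (𝒞.fn_ck v) _ _ x (in_idx 𝒞 x) hx

theorem Lop_sub (h0 : 0 < α) : ∃ C ≥ (0 : ℝ), ∀ (A A' : Co 𝒞) (S : ℝ), Good 𝒞 α A → Good 𝒞 α A' →
    HBl 𝒞 α S (A - A') → ‖Lop 𝒞 h0 A - Lop 𝒞 h0 A'‖ ≤ C * |S| := by
  obtain ⟨C, C0, hC⟩ := op_bd 𝒞 h0
  refine ⟨2 * C, by positivity, fun A A' S hA hA' hS => ContinuousLinearMap.opNorm_le_bound _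
    (by positivity) fun v => ?_⟩
  obtain ⟨k1, k2⟩ := hC (A - A') S (fun v hv i k x hi hk => by
    simp only [Pi.sub_apply, _root_.sub_apply, hA.1 v hv i k x hi hk, hA'.1 v hv i k x hi hk]) hS v
  have e : ∀ x, (Lop 𝒞 h0 A - Lop 𝒞 h0 A') v x = opf 𝒞 (A - A') (𝒞.fn v) x := fun x => by
    show Lop 𝒞 h0 A v x - Lop 𝒞 h0 A' v x = _
    rw [Lop_apply 𝒞 h0 hA v (in_idx 𝒞 x), Lop_apply 𝒞 h0 hA' v (in_idx 𝒞 x)]
    rfl
  refine (Hol.norm_le_of (B := C * |S| * ‖v‖) (by positivity) (by positivity) (fun x => e x ▸ k1 x)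
    fun x y => by rw [e, e]; exact k2 x y).trans_eq (by ring)

/-- the second order part -/
def i2 (E : Type) [NormedAddCommGroup E] [NormedSpace ℝ E] :
    (E →L[ℝ] E →L[ℝ] ℝ) →L[ℝ] Jet E :=
  (ContinuousLinearMap.inr ℝ _ _).comp (ContinuousLinearMap.inr ℝ _ _)

/-- the first order part -/
def i1 (E : Type) [NormedAddCommGroup E] [NormedSpace ℝ E] : (E →L[ℝ] ℝ) →L[ℝ] Jet E :=
  (ContinuousLinearMap.inr ℝ _ _).comp (ContinuousLinearMap.inl ℝ _ _)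

/-- elliptic coefficients without a term of order zero -/
def Ell0 (A : Co 𝒞) : Prop := ∀ i, ∀ y ∈ Bl 𝒞 i, A i y (1, 0, 0) = 0 ∧
  ∀ ξ : E →L[ℝ] ℝ, ξ ≠ 0 → 0 < A i y (0, 0, ξ.smulRight ξ)

theorem Lop_bij (h0 : 0 < α) (h1 : α < 1) {A : Co 𝒞} (hA : Good 𝒞 α A) (hE : Ell0 𝒞 A) {l : ℝ}
    (hl : 0 < l) : Function.Bijective (l • 𝒞.incl α - Lop 𝒞 h0 A) := by
  obtain ⟨S, hS⟩ := hA.2
  have k : ∀ {W : Type} [NormedAddCommGroup W] [NormedSpace ℝ W] (T : W →L[ℝ] Jet E) (i),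
      ∃ K, ∀ y ∈ Bl 𝒞 i, ∀ y' ∈ Bl 𝒞 i, ‖(A i y).comp T - (A i y').comp T‖ ≤ K * ‖y - y'‖ ^ α :=
    fun T i => ⟨S * ‖T‖, fun y hy y' hy' => by
      rw [← ContinuousLinearMap.sub_comp, mul_right_comm]
      exact (ContinuousLinearMap.opNorm_comp_le _ _).trans
        (mul_le_mul_of_nonneg_right ((hS i y hy).2 y' hy') (norm_nonneg _))⟩
  have hL : 𝒞.Ell α (Lop 𝒞 h0 A) (fun i y => (A i y).comp (i2 E)) fun i y => (A i y).comp (i1 E) :=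
    ⟨k _, k _, fun i y hy ξ hξ => (hE i y hy).2 ξ hξ, fun v i x hx hx' => by
      rw [Lop_apply 𝒞 h0 hA v ⟨hx, hx'⟩]
      have e : jc 𝒞 i (𝒞.fn v) (𝒞.e i x) = (jc 𝒞 i (𝒞.fn v) (𝒞.e i x)).1 • (1, 0, 0) +
          (i2 E (jc 𝒞 i (𝒞.fn v) (𝒞.e i x)).2.2 + i1 E (jc 𝒞 i (𝒞.fn v) (𝒞.e i x)).2.1) := by
        refine Prod.ext ?_ (Prod.ext ?_ ?_) <;> simp [i1, i2]
      rw [e, map_add, map_smul, (hE i _ hx').1, smul_zero, zero_add, map_add]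
      rfl⟩
  obtain ⟨Λ, Λ1, hs⟩ := 𝒞.surj_large h0 h1 hL
  exact hL.bijective h0 h1 Λ (by linarith) (hs Λ le_rfl) l hl

end Vale.Agent.P366C
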