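import Vale.Agent.P366C.Op
import Vale.Agent.P366Y.T.Sfp

/-!
# P366C: the principle of Leray and Schauder on a compact manifold
-/

open scoped NNReal Topology ContDiff BoundedContinuousFunction
open Filter Set Metric
open Vale.Agent.P272.K Vale.Agent.P272.K.LIN

set_option maxSynthPendingDepth 3
set_option linter.unusedSectionVars false

noncomputable section

namespace Vale.Agent.P366C

variable {E : Type} [NormedAddCommGroup E] [NormedSpace ℝ E] [FiniteDimensional ℝ E]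
  {X : Type} [TopologicalSpace X] [ChartedSpace E X] [T2Space X] [CompactSpace X] [RSm E X]
  (𝒞 : Cov E X) {V : Type} [NormedAddCommGroup V] [NormedSpace ℝ V] {α β : ℝ}

theorem HBl.exp {S : ℝ} {A : Fin 𝒞.N → E → V} (h0 : 0 < β) (h : β ≤ α) (hA : HBl 𝒞 α S A) :
    HBl 𝒞 β (2 * |S|) A := fun i y hy => by
  have S0 : 0 ≤ S := (norm_nonneg _).trans (hA i y hy).1
  rw [abs_of_nonneg S0]
  refine ⟨(hA i y hy).1.trans (by linarith), fun y' hy' => ?_⟩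
  have q : 0 ≤ S * ‖y - y'‖ ^ β := by positivity
  rcases le_total ‖y - y'‖ 1 with k | k
  · have := mul_le_mul_of_nonneg_left
      (Real.rpow_le_rpow_of_exponent_ge' (norm_nonneg _) k h0.le h) S0
    linarith [(hA i y hy).2 y' hy']
  · have := mul_le_mul_of_nonneg_left (Real.one_le_rpow k h0.le) S0
    linarith [norm_sub_le (A i y) (A i y'), (hA i y hy).1, (hA i y' hy').1]

/-- the values of the jets of order one -/
abbrev Gj := ℝ × (Fin 𝒞.N → E →L[ℝ] ℝ)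

/-- the jets of order one -/
def j1f (v : X → ℝ) (x : X) : Gj 𝒞 := (v x, fun i => (𝒞.Jf i v x).2.1)

theorem j1f_ck {v : X → ℝ} (hv : CkFn E 2 v) : CkFn E 1 (j1f 𝒞 v) := fun e he x hx =>
  (hv.of_le (by norm_num) e he x hx).prodMk (contDiffAt_pi.2 fun i =>
    𝒞.η_smul_ck i (k := 1) (by simp) (g := fderiv ℝ fun y => v ((𝒞.e i).symm y))
      (fun y hy => (hv.at_target (𝒞.mem i) hy).fderiv_right (by norm_num)) e he x hx)

/-- the jets as a linear map -/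
def j1l (h0 : 0 < α) (h1 : α ≤ 1) (β : ℝ) : 𝒞.C2 β →ₗ[ℝ] Hol (𝒞.w α) (Gj 𝒞) where
  toFun v := 𝒞.ofCk h0 h1 (j1f 𝒞 (𝒞.fn v)) (j1f_ck 𝒞 (𝒞.fn_ck v))
  map_add' u v := Hol.ext fun x => Prod.ext rfl (funext fun i => by
    show (𝒞.Jf i (𝒞.fn (u + v)) x).2.1 = (𝒞.Jf i (𝒞.fn u) x).2.1 + (𝒞.Jf i (𝒞.fn v) x).2.1
    rw [← 𝒞.J_apply, ← 𝒞.J_apply, ← 𝒞.J_apply, map_add]
    rfl)
  map_smul' c v := Hol.ext fun x => Prod.ext rfl (funext fun i => by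
    show (𝒞.Jf i (𝒞.fn (c • v)) x).2.1 = c • (𝒞.Jf i (𝒞.fn v) x).2.1
    rw [← 𝒞.J_apply, ← 𝒞.J_apply, map_smul]
    rfl)

/-- the jets as a continuous linear map -/
def J1 (h0 : 0 < α) (h1 : α ≤ 1) (hβ : 0 < β) : 𝒞.C2 β →L[ℝ] Hol (𝒞.w α) (Gj 𝒞) :=
  ⟨j1l 𝒞 h0 h1 β, by
    have := 𝒞.completeSpace_C2 hβ
    refine (j1l 𝒞 h0 h1 β).continuous_of_seq_closed_graph fun u v y hu hy => Hol.ext fun x => ?_
    have c : Continuous fun v : 𝒞.C2 β => j1l 𝒞 h0 h1 β v x := by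
      refine ((Hol.continuous_eval x).comp (𝒞.incl β).continuous).prodMk (continuous_pi fun i => ?_)
      exact ((Hol.continuous_eval x).comp (𝒞.J β i).continuous).snd.fst.congr fun v => by
        simp only [Function.comp, 𝒞.J_apply]
    exact tendsto_nhds_unique (((Hol.continuous_eval x).tendsto y).comp hy) ((c.tendsto v).comp hu)⟩

theorem J1_apply (h0 : 0 < α) (h1 : α ≤ 1) (hβ : 0 < β) (v : 𝒞.C2 β) (x : X) :
    J1 𝒞 h0 h1 hβ v x = j1f 𝒞 (𝒞.fn v) x := rfl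

/-- Hölder functions as bounded continuous functions -/
def toB (h0 : 0 < α) : Hol (𝒞.w α) V →L[ℝ] X →ᵇ V :=
  LinearMap.mkContinuous
    { toFun f := BoundedContinuousFunction.mkOfCompact ⟨f, 𝒞.hol_continuous h0 f⟩
      map_add' _ _ := rfl
      map_smul' _ _ := rfl } 1 fun f => by
    rw [one_mul]
    exact (BoundedContinuousFunction.norm_le (norm_nonneg _)).2 f.norm_apply_le

theorem toB_apply (h0 : 0 < α) (f : Hol (𝒞.w α) V) (x : X) : toB 𝒞 h0 f x = f x := rfl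

theorem cpt_ball [FiniteDimensional ℝ V] (h0 : 0 < α) {M : ℝ} {s : Set (X →ᵇ V)}
    (hs : ∀ j ∈ s, (∀ x, ‖j x‖ ≤ M) ∧ ∀ x y, ‖j x - j y‖ ≤ M * 𝒞.w α x y) :
    IsCompact (closure s) := by
  have := FiniteDimensional.proper_real V
  refine BoundedContinuousFunction.arzela_ascoli _ (isCompact_closedBall (0 : V) M) s
    (fun j x hj => mem_closedBall_zero_iff.2 ((hs j hj).1 x)) fun x => ?_
  refine Metric.equicontinuousAt_of_continuity_modulus (fun y => M * 𝒞.w α x y) ?_ _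
    (Eventually.of_forall fun y j => by rw [dist_eq_norm]; exact (hs j j.2).2 x y)
  have c : Continuous fun y => M * (𝒞.w α x y : ℝ) := by
    simp only [𝒞.coe_w]
    exact continuous_const.mul ((𝒞.continuous_d.comp (continuous_const.prodMk
      continuous_id)).rpow_const fun _ => .inr h0.le)
  have := c.tendsto x
  rwa [𝒞.coe_w, 𝒞.d_self, Real.zero_rpow h0.ne', mul_zero] at this

/-- the arguments of the coefficients -/
abbrev Ar (E : Type) [NormedAddCommGroup E] [NormedSpace ℝ E] := ℝ × E × ℝ × (E →L[ℝ] ℝ)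

/-- the coefficients along `j` -/
def co (A : Fin 𝒞.N → Ar E → V) (σ : ℝ) (j : X → Gj 𝒞) : Fin 𝒞.N → E → V := fun i y =>
  A i (σ, y, (j ((𝒞.e i).symm y)).1, (j ((𝒞.e i).symm y)).2 i)

theorem co_bd (h0 : 0 < α) (h1 : α ≤ 1) {A : Fin 𝒞.N → Ar E → V} (hA : ∀ i, ContDiff ℝ 1 (A i))
    (M : ℝ) : ∃ S : ℝ, 0 ≤ S ∧ ∀ σ ∈ Icc (0 : ℝ) 1, ∀ j : X → Gj 𝒞, (∀ x, ‖j x‖ ≤ M) →
      ((∀ x y, ‖j x - j y‖ ≤ M * 𝒞.w α x y) → HBl 𝒞 α S (co 𝒞 A σ j)) ∧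
      ∀ σ' ∈ Icc (0 : ℝ) 1, ∀ j' : X → Gj 𝒞, (∀ x, ‖j' x‖ ≤ M) → ∀ t, |σ - σ'| ≤ t →
        (∀ x, ‖j x - j' x‖ ≤ t) → ∀ i, ∀ y ∈ Bl 𝒞 i, ‖co 𝒞 A σ j i y - co 𝒞 A σ' j' i y‖ ≤ S * t := by
  have := FiniteDimensional.proper_real E
  have := FiniteDimensional.proper_real (E →L[ℝ] ℝ)
  let Q : Fin 𝒞.N → Set (Ar E) := fun i => Icc 0 1 ×ˢ closedBall (𝒞.c i) (2 * 𝒞.r i) ×ˢ
    closedBall 0 M ×ˢ closedBall 0 M
  have cQ : ∀ i, IsCompact (Q i) := fun i => isCompact_Icc.prod ((isCompact_closedBall _ _).prod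
    ((isCompact_closedBall _ _).prod (isCompact_closedBall _ _)))
  choose L hL using fun i =>
    ((hA i).locallyLipschitz.locallyLipschitzOn (s := Q i)).exists_lipschitzOnWith_of_compact (cQ i)
  choose B hB using fun i => (cQ i).exists_bound_of_continuousOn (hA i).continuous.continuousOn
  obtain ⟨C, C1, hC⟩ := charts_of_hol 𝒞 (V := Gj 𝒞) h0
  obtain ⟨S, S0, hS⟩ := Cov.exists_le_all fun i =>
    |B i| + L i + L i * (1 + 4 * 𝒞.r i + C * |M|)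
  have mem : ∀ σ ∈ Icc (0 : ℝ) 1, ∀ j : X → Gj 𝒞, (∀ x, ‖j x‖ ≤ M) → ∀ i, ∀ y ∈ Bl 𝒞 i,
      (σ, y, (j ((𝒞.e i).symm y)).1, (j ((𝒞.e i).symm y)).2 i) ∈ Q i := fun σ hσ j hj i y hy =>
    ⟨hσ, ball_subset_closedBall hy, mem_closedBall_zero_iff.2 ((norm_fst_le (j _)).trans (hj _)),
      mem_closedBall_zero_iff.2 (((norm_le_pi_norm (j _).2 i).trans (norm_snd_le _)).trans (hj _))⟩
  have pos : ∀ i, 0 ≤ (L i : ℝ) ∧ 0 ≤ L i * (1 + 4 * 𝒞.r i + C * |M|) := fun i => by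
    have := 𝒞.r_pos i
    constructor <;> positivity
  refine ⟨S, S0, fun σ hσ j hj => ⟨fun hh i y hy => ⟨(hB i _ (mem σ hσ j hj i y hy)).trans (by
    linarith [hS i, le_abs_self (B i), (pos i).1, (pos i).2]), fun y' hy' => ?_⟩,
    fun σ' hσ' j' hj' t k1 k2 i y hy => ?_⟩⟩
  · have k := (hL i).dist_le_mul _ (mem σ hσ j hj i y hy) _ (mem σ hσ j hj i y' hy')
    have r0 := 𝒞.r_pos i
    have q : 0 ≤ ‖y - y'‖ ^ α := by positivity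
    have k1 := ((hC (fun _ => j) M (fun _ => hj) fun _ => hh).mono
      (mul_le_mul_of_nonneg_left (le_abs_self M) (by linarith)) i y hy).2 y' hy'
    have k2 : ‖y - y'‖ ≤ (1 + 4 * 𝒞.r i) * ‖y - y'‖ ^ α :=
      hol_of_lip h0 h1 zero_le_one (by positivity) (norm_nonneg _) (one_mul _).ge (by
        have := dist_triangle_right y y' (𝒞.c i)
        rw [dist_eq_norm] at this
        linarith [mem_ball.1 hy, mem_ball.1 hy'])
    have q1 : 0 ≤ (1 + 4 * 𝒞.r i) * ‖y - y'‖ ^ α := by positivity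
    have q2 : 0 ≤ C * |M| * ‖y - y'‖ ^ α := by positivity
    rw [dist_eq_norm, dist_eq_norm] at k
    refine k.trans ((mul_le_mul_of_nonneg_left (c := (1 + 4 * 𝒞.r i + C * |M|) * ‖y - y'‖ ^ α)
      ?_ (pos i).1).trans ?_)
    · refine norm_prod_le_iff.2 ⟨by simpa using by positivity, norm_prod_le_iff.2
        ⟨k2.trans (by linarith), norm_prod_le_iff.2 ⟨?_, ?_⟩⟩⟩
      · exact (norm_fst_le (j _ - j _)).trans (k1.trans (by linarith))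
      · exact ((norm_le_pi_norm (j _ - j _).2 i).trans (norm_snd_le _)).trans
          (k1.trans (by linarith))
    · rw [← mul_assoc]
      exact mul_le_mul_of_nonneg_right (by linarith [hS i, abs_nonneg (B i), (pos i).1]) q
  · have k := (hL i).dist_le_mul _ (mem σ hσ j hj i y hy) _ (mem σ' hσ' j' hj' i y hy)
    have t0 : 0 ≤ t := (abs_nonneg _).trans k1
    rw [dist_eq_norm, dist_eq_norm] at k
    refine k.trans (mul_le_mul (by linarith [hS i, abs_nonneg (B i), (pos i).2]) ?_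
      (norm_nonneg _) S0)
    exact norm_prod_le_iff.2 ⟨k1, norm_prod_le_iff.2 ⟨by simpa using t0, norm_prod_le_iff.2
      ⟨(norm_fst_le (j _ - j' _)).trans (k2 _),
        ((norm_le_pi_norm (j _ - j' _).2 i).trans (norm_snd_le _)).trans (k2 _)⟩⟩⟩

theorem cont_Lop (h0 : 0 < β) (h : β < α) (h1 : α ≤ 1) {A : Fin 𝒞.N → Ar E → Jet E →L[ℝ] ℝ}
    (hA : ∀ i, ContDiff ℝ 1 (A i)) {M : ℝ} {K : Set (X →ᵇ Gj 𝒞)}
    (hK : ∀ j ∈ K, (∀ x, ‖j x‖ ≤ M) ∧ (∀ x y, ‖j x - j y‖ ≤ M * 𝒞.w α x y) ∧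
      ∀ σ, Adm 𝒞 (co 𝒞 A σ j)) :
    (∀ p ∈ K ×ˢ Icc (0 : ℝ) 1, Good 𝒞 β (co 𝒞 A p.2 p.1)) ∧
    ContinuousOn (fun p : (X →ᵇ Gj 𝒞) × ℝ => Lop 𝒞 h0 (co 𝒞 A p.2 p.1)) (K ×ˢ Icc 0 1) := by
  obtain ⟨S, S0, hS⟩ := co_bd 𝒞 (h0.trans h) h1 hA M
  have hb : ∀ p ∈ K ×ˢ Icc (0 : ℝ) 1, HBl 𝒞 α S (co 𝒞 A p.2 p.1) := fun p hp =>
    (hS p.2 hp.2 p.1 (hK _ hp.1).1).1 (hK _ hp.1).2.1
  have gd : ∀ p ∈ K ×ˢ Icc (0 : ℝ) 1, Good 𝒞 β (co 𝒞 A p.2 p.1) := fun p hp =>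
    ⟨(hK _ hp.1).2.2 _, _, (hb p hp).exp 𝒞 h0 h.le⟩
  refine ⟨gd, Metric.continuousOn_iff.2 fun p hp e he => ?_⟩
  obtain ⟨C, C0, hC⟩ := Lop_sub 𝒞 h0
  obtain ⟨d, d0, hd⟩ := HBl.interp (𝒞 := 𝒞) (V := Jet E →L[ℝ] ℝ) h0 h S
    (e := e / (C + 1)) (by positivity)
  refine ⟨d / (S + 1), by positivity, fun q hq k => ?_⟩
  rw [dist_eq_norm]
  refine (hC _ _ _ (gd q hq) (gd p hp) (hd _ _ (hb q hq) (hb p hp) fun i y hy =>
    ((hS q.2 hq.2 q.1 (hK _ hq.1).1).2 p.2 hp.2 p.1 (hK _ hp.1).1 (d / (S + 1)) ?_ (fun x => ?_)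
      i y hy).trans ?_)).trans_lt ?_
  · exact ((le_max_right _ _).trans_lt k).le
  · rw [← dist_eq_norm]
    exact (BoundedContinuousFunction.dist_coe_le_dist x).trans ((le_max_left _ _).trans_lt k).le
  · rw [← mul_div_assoc, div_le_iff₀ (by positivity)]
    nlinarith
  · rw [abs_of_pos (by positivity), ← mul_div_assoc, div_lt_iff₀ (by positivity)]
    nlinarith

/-- the argument at a point -/
def ar (σ : ℝ) (v : X → ℝ) (i : Fin 𝒞.N) (y : E) : Ar E :=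
  (σ, y, v ((𝒞.e i).symm y), fderiv ℝ (fun z => v ((𝒞.e i).symm z)) y)

theorem co_j1f (A : Fin 𝒞.N → Ar E → V) (σ : ℝ) (v : X → ℝ) {i : Fin 𝒞.N} {y : E}
    (hy : y ∈ Bl 𝒞 i) : co 𝒞 A σ (j1f 𝒞 v) i y = A i (ar 𝒞 σ v i y) := by
  simp only [co, j1f, 𝒞.Jf_symm hy]
  rfl

/-- the equation -/
def Sol (A : Fin 𝒞.N → Ar E → Jet E →L[ℝ] ℝ) (R : Fin 𝒞.N → Ar E → ℝ) (l σ : ℝ) (v : X → ℝ) :
    Prop := ∀ i, ∀ y ∈ Bl 𝒞 i, A i (ar 𝒞 σ v i y) (jc 𝒞 i v y) - l * v ((𝒞.e i).symm y) =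
      σ * R i (ar 𝒞 σ v i y)

/-- the abstract principle -/
theorem ls {B W H : Type} [NormedAddCommGroup B] [NormedSpace ℝ B] [NormedAddCommGroup W]
    [NormedSpace ℝ W] [NormedAddCommGroup H] [NormedSpace ℝ H] (J : W →L[ℝ] H) (P : W →L[ℝ] B)
    {M : ℝ} (M0 : 0 < M) (hK : IsCompact (closure (P '' {v | ‖J v‖ ≤ 2 * M}))) {T : B × ℝ → W}
    (cT : ContinuousOn T (closure (P '' {v | ‖J v‖ ≤ 2 * M}) ×ˢ Icc 0 1))
    (T0 : ∀ j, T (j, 0) = 0) (ap : ∀ p ∈ closure (P '' {v | ‖J v‖ ≤ 2 * M}) ×ˢ Icc (0 : ℝ) 1,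
      P (T p) = p.1 → ‖J (T p)‖ < M) :
    ∃ j ∈ closure (P '' {v | ‖J v‖ ≤ 2 * M}), P (T (j, 1)) = j := by
  have cN := (J.continuous.comp_continuousOn cT).norm
  have p2 : ∀ t : ℝ, 0 < max (2 * M) t := fun t => lt_max_of_lt_left (by positivity)
  have cv : Convex ℝ {v | ‖J v‖ ≤ 2 * M} := by
    convert (convex_closedBall 0 (2 * M)).linear_preimage (J : W →ₗ[ℝ] H) using 1
    ext v
    simp
  obtain ⟨⟨j, σ⟩, hp, fx⟩ := P366Y.sfp _ _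
    (fun p => (P ((2 * M / max (2 * M) ‖J (T p)‖) • T p), max 0 (min 1 (p.2 + M - ‖J (T p)‖))))
    (hK.prod isCompact_Icc) ((cv.linear_image P.toLinearMap).closure.prod (convex_Icc 0 1))
    ⟨(_, 0), subset_closure ⟨0, by simpa using M0.le, rfl⟩, le_rfl, zero_le_one⟩
    ((P.continuous.comp_continuousOn ((continuousOn_const.div
      (continuousOn_const.sup cN) fun _ _ => (p2 _).ne').smul cT)).prodMk
      (continuousOn_const.sup (continuousOn_const.inf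
        ((continuousOn_snd.add continuousOn_const).sub cN))))
    fun p _ => ⟨subset_closure ⟨_, by
      rw [mem_ofPred_eq, map_smul, norm_smul,
        Real.norm_of_nonneg (by have := p2 ‖J (T p)‖; positivity),
        div_mul_eq_mul_div, div_le_iff₀ (p2 _)]
      exact mul_le_mul_of_nonneg_left (le_max_right _ _) (by positivity), rfl⟩,
      le_max_left _ _, max_le zero_le_one (min_le_left _ _)⟩
  obtain ⟨f1, f2⟩ := Prod.ext_iff.1 fx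
  simp only at f1 f2
  rcases le_or_gt ‖J (T (j, σ))‖ (2 * M) with k | k
  · rw [max_eq_left k, div_self (by positivity), one_smul] at f1
    have k1 := ap _ hp f1
    have e2 : σ = 1 := by
      rcases le_total 1 (σ + M - ‖J (T (j, σ))‖) with k2 | k2
      · rw [min_eq_left k2, max_eq_right zero_le_one] at f2
        exact f2.symm
      · rw [min_eq_right k2] at f2
        linarith [le_max_right 0 (σ + M - ‖J (T (j, σ))‖)]
    exact ⟨j, hp.1, e2 ▸ f1⟩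
  · have e2 : σ = 0 := by
      rcases le_total (min 1 (σ + M - ‖J (T (j, σ))‖)) 0 with k2 | k2
      · rw [max_eq_left k2] at f2
        exact f2.symm
      · rw [max_eq_right k2] at f2
        linarith [min_le_right 1 (σ + M - ‖J (T (j, σ))‖)]
    rw [e2, T0, map_zero, norm_zero] at k
    linarith

theorem qe0 (h0 : 0 < β) (h : β < α) (h1 : α ≤ 1) {A : Fin 𝒞.N → Ar E → Jet E →L[ℝ] ℝ}
    {R : Fin 𝒞.N → Ar E → ℝ} (hA : ∀ i, ContDiff ℝ 1 (A i)) (hR : ∀ i, ContDiff ℝ 1 (R i))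
    (ell : ∀ i q, A i q (1, 0, 0) = 0 ∧ ∀ ξ : E →L[ℝ] ℝ, ξ ≠ 0 → 0 < A i q (0, 0, ξ.smulRight ξ))
    (iA : ∀ σ w v, CkFn E 2 w → CkFn E 2 v → ∀ i k x, In 𝒞 i x → In 𝒞 k x →
      A i (ar 𝒞 σ w i (𝒞.e i x)) (jc 𝒞 i v (𝒞.e i x)) =
        A k (ar 𝒞 σ w k (𝒞.e k x)) (jc 𝒞 k v (𝒞.e k x)))
    (iR : ∀ σ w, CkFn E 2 w → ∀ i k x, In 𝒞 i x → In 𝒞 k x →
      R i (ar 𝒞 σ w i (𝒞.e i x)) = R k (ar 𝒞 σ w k (𝒞.e k x)))
    {l : ℝ} (hl : 0 < l) {M₀ : ℝ} (ap : ∀ σ ∈ Icc (0 : ℝ) 1, ∀ v : 𝒞.C2 β,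
      Sol 𝒞 A R l σ (𝒞.fn v) → ‖J1 𝒞 (h0.trans h) h1 h0 v‖ ≤ M₀) :
    ∃ v : 𝒞.C2 β, Sol 𝒞 A R l 1 (𝒞.fn v) := by
  have := 𝒞.completeSpace_C2 h0
  have hα := h0.trans h
  obtain ⟨M, M0, hM⟩ : ∃ M : ℝ, 0 < M ∧ M₀ < M := ⟨|M₀| + 1, by positivity,
    by linarith [le_abs_self M₀]⟩
  let A' : Fin 𝒞.N → Ar E → Jet E →L[ℝ] ℝ := fun i q => R i q • ContinuousLinearMap.fst ℝ _ _
  have hA' : ∀ i, ContDiff ℝ 1 (A' i) := fun i => (hR i).smul contDiff_const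
  let J := J1 𝒞 hα h1 h0
  let K₀ : Set (X →ᵇ Gj 𝒞) := ((toB 𝒞 hα).comp J) '' {v | ‖J v‖ ≤ 2 * M}
  have cl : ∀ B : Fin 𝒞.N → Ar E → Jet E →L[ℝ] ℝ, (∀ i, ContDiff ℝ 1 (B i)) →
      IsClosed {j : X →ᵇ Gj 𝒞 | (∀ x, ‖j x‖ ≤ 2 * M) ∧
        (∀ x y, ‖j x - j y‖ ≤ 2 * M * 𝒞.w α x y) ∧ ∀ σ, Adm 𝒞 (co 𝒞 B σ j)} := fun B hB => by
    have ce : ∀ x, Continuous fun j : X →ᵇ Gj 𝒞 => j x := fun x => continuous_eval_const x
    have cc : ∀ σ i y, Continuous fun j : X →ᵇ Gj 𝒞 => co 𝒞 B σ j i y := fun σ i y =>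
      (hB i).continuous.comp (continuous_const.prodMk (continuous_const.prodMk
        ((ce _).fst.prodMk ((continuous_apply i).comp (ce _).snd))))
    simp only [Adm, ofPred_and, ofPred_forall]
    refine (isClosed_iInter fun x => isClosed_le (ce x).norm continuous_const).inter
      ((isClosed_iInter fun x => isClosed_iInter fun y =>
        isClosed_le ((ce x).sub (ce y)).norm continuous_const).inter ?_)
    iterate 8 refine isClosed_iInter fun _ => ?_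
    exact isClosed_eq ((cc _ _ _).clm_apply continuous_const) ((cc _ _ _).clm_apply continuous_const)
  have b0 : ∀ j ∈ K₀, (∀ x, ‖j x‖ ≤ 2 * M) ∧ ∀ x y, ‖j x - j y‖ ≤ 2 * M * 𝒞.w α x y := by
    rintro _ ⟨v, hv, rfl⟩
    exact ⟨fun x => ((J v).norm_apply_le x).trans hv, fun x y => ((J v).norm_sub_le' x y).trans
      (mul_le_mul_of_nonneg_right hv (NNReal.coe_nonneg _))⟩
  have ej : ∀ w, (((toB 𝒞 hα).comp J) w : X → Gj 𝒞) = j1f 𝒞 (𝒞.fn w) := fun w => rfl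
  obtain ⟨gA, cA⟩ := cont_Lop 𝒞 h0 h h1 hA (M := 2 * M) (K := closure K₀)
    (closure_minimal (fun j hj => ⟨(b0 j hj).1, (b0 j hj).2, fun σ v hv i k x hi hk => by
      obtain ⟨w, -, rfl⟩ := hj
      rw [ej, co_j1f 𝒞 A σ _ hi.2, co_j1f 𝒞 A σ _ hk.2]
      exact iA σ _ v (𝒞.fn_ck w) hv i k x hi hk⟩) (cl A hA))
  obtain ⟨gR, cR⟩ := cont_Lop 𝒞 h0 h h1 hA' (M := 2 * M) (K := closure K₀)
    (closure_minimal (fun j hj => ⟨(b0 j hj).1, (b0 j hj).2, fun σ v hv i k x hi hk => by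
      obtain ⟨w, -, rfl⟩ := hj
      rw [ej, co_j1f 𝒞 A' σ _ hi.2, co_j1f 𝒞 A' σ _ hk.2]
      show R i _ * v ((𝒞.e i).symm _) = R k _ * v ((𝒞.e k).symm _)
      rw [iR σ _ (𝒞.fn_ck w) i k x hi hk, (𝒞.e i).left_inv hi.1, (𝒞.e k).left_inv hk.1]⟩) (cl A' hA'))
  let one : 𝒞.C2 β := 𝒞.ofSmooth h0 (h.le.trans h1) (fun _ => 1) (ckFn_const 1)
  let Lp := fun p : (X →ᵇ Gj 𝒞) × ℝ => l • 𝒞.incl β - Lop 𝒞 h0 (co 𝒞 A p.2 p.1)
  let T := fun p : (X →ᵇ Gj 𝒞) × ℝ =>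
    (Lp p).inverse (-p.2 • Lop 𝒞 h0 (co 𝒞 A' p.2 p.1) one)
  have eq : ∀ p ∈ closure K₀ ×ˢ Icc (0 : ℝ) 1, ∃ e : 𝒞.C2 β ≃L[ℝ] Hol (𝒞.w β) ℝ,
      (e : 𝒞.C2 β →L[ℝ] Hol (𝒞.w β) ℝ) = Lp p := fun p hp => by
    have b := Lop_bij 𝒞 h0 (h.trans_le h1) (gA p hp) (fun i y _ => ell i _) hl
    exact ⟨ContinuousLinearEquiv.ofBijective (Lp p) (LinearMap.ker_eq_bot.2 b.1)
      (LinearMap.range_eq_top.2 b.2), rfl⟩
  have cT : ContinuousOn T (closure K₀ ×ˢ Icc 0 1) := by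
    refine ContinuousOn.clm_apply (fun p hp => ?_)
      (continuousOn_snd.neg.smul (cR.clm_apply continuousOn_const))
    obtain ⟨e, he⟩ := eq p hp
    have c := (contDiffAt_map_inverse (n := 0) e).continuousAt
    rw [he] at c
    exact c.comp_continuousWithinAt (f := Lp) (continuousWithinAt_const.sub (cA p hp))
  have s : ∀ p ∈ closure K₀ ×ˢ Icc (0 : ℝ) 1, ((toB 𝒞 hα).comp J) (T p) = p.1 →
      Sol 𝒞 A R l p.2 (𝒞.fn (T p)) := fun p hp f1 i y hy => by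
    obtain ⟨e, he⟩ := eq _ hp
    have e2 : Lp p (T p) = -p.2 • Lop 𝒞 h0 (co 𝒞 A' p.2 p.1) one := by
      simp only [T, ← he, ContinuousLinearMap.inverse_equiv]
      exact e.apply_symm_apply _
    generalize T p = v at f1 e2 ⊢
    have e3 : l * 𝒞.fn v ((𝒞.e i).symm y) - Lop 𝒞 h0 (co 𝒞 A p.2 p.1) v ((𝒞.e i).symm y) =
        -p.2 * Lop 𝒞 h0 (co 𝒞 A' p.2 p.1) one ((𝒞.e i).symm y) :=
      congrArg (fun f : Hol (𝒞.w β) ℝ => f ((𝒞.e i).symm y)) e2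
    rw [Lop_apply 𝒞 h0 (gA _ hp) _ (in_symm 𝒞 hy), Lop_apply 𝒞 h0 (gR _ hp) _ (in_symm 𝒞 hy),
      (𝒞.η_symm hy).2.1, ← f1, ej, co_j1f 𝒞 A _ _ hy, co_j1f 𝒞 A' _ _ hy] at e3
    have e4 : A' i (ar 𝒞 p.2 (𝒞.fn v) i y) (jc 𝒞 i (𝒞.fn one) y) = R i (ar 𝒞 p.2 (𝒞.fn v) i y) :=
      mul_one _
    rw [e4] at e3
    linarith
  obtain ⟨j, hj, e⟩ := ls J ((toB 𝒞 hα).comp J) M0 (cpt_ball 𝒞 hα b0) cT
    (fun j => by simp only [T, neg_zero, zero_smul, map_zero])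
    fun p hp e => (ap _ hp.2 _ (s p hp e)).trans_lt hM
  exact ⟨_, s (j, 1) ⟨hj, zero_le_one, le_rfl⟩ e⟩

end Vale.Agent.P366C
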