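import Vale.Agent.P366C.Flt1

/-!
# P366C: the limit of the zero sets is a graph
-/

open MeasureTheory Metric Filter Topology Set
open scoped ContDiff
open Vale.Agent.P366.Stmt Vale.Agent.P366Z
open Vale.Agent.P366D (snc ini)
open Vale.Agent.P366P (ini_snc snc_last cont_snc)
open Fin (last)

noncomputable section

namespace Vale.Agent.P366C

variable {k : ℕ} {I : Type} {𝒰 : Ultrafilter I} {U : I → E (k + 1) → ℝ}

/-- the height of the limit of the zero sets -/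
def wz (𝒰 : Ultrafilter I) (U : I → E (k + 1) → ℝ) (y : E k) : ℝ :=
  Classical.epsilon fun t => snc y t ∈ Zs 𝒰 U

namespace VertH

theorem closed {n : ℕ} (u : I → E n → ℝ) : IsClosed (Zs 𝒰 u) :=
  isClosed_iff_nhds.2 fun x h V hV => by
    obtain ⟨z, h1, h2⟩ := h _ (interior_mem_nhds.2 hV)
    exact h2 V (mem_interior_iff_mem_nhds.1 h1)

theorem cts (y : E k) : Continuous fun t => snc y t :=
  cont_snc.comp (continuous_const.prodMk continuous_id)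

theorem cross {y : E k} {a b : ℝ} (hab : a ≤ b) (h1 : ∀ i, Continuous fun t => U i (snc y t))
    (h : ∀ᶠ i in (𝒰 : Filter I), U i (snc y a) * U i (snc y b) < 0) :
    ∃ t ∈ Icc a b, snc y t ∈ Zs 𝒰 U := by
  have k : ∀ i, ∃ t ∈ Icc a b, U i (snc y a) * U i (snc y b) < 0 → U i (snc y t) = 0 := fun i => by
    by_cases hi : U i (snc y a) * U i (snc y b) < 0
    · rcases mul_neg_iff.1 hi with e | e
      · obtain ⟨t, h2, h3⟩ := intermediate_value_Icc' hab (h1 i).continuousOn ⟨e.2.le, e.1.le⟩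
        exact ⟨t, h2, fun _ => h3⟩
      · obtain ⟨t, h2, h3⟩ := intermediate_value_Icc hab (h1 i).continuousOn ⟨e.1.le, e.2.le⟩
        exact ⟨t, h2, fun _ => h3⟩
    · exact ⟨a, left_mem_Icc.2 hab, fun e => absurd e hi⟩
  choose t t1 t2 using k
  obtain ⟨s, s1, s2⟩ := isCompact_Icc.ultrafilter_le_nhds (𝒰.map t)
    (le_principal_iff.2 (mem_map.2 (univ_mem' t1)))
  refine ⟨s, s1, fun V hV r r0 => ?_⟩
  filter_upwards [h, (((cts y).tendsto s).comp (show Tendsto t 𝒰 (𝓝 s) from s2)).eventually_mem hV]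
    with i h2 h3
  exact ⟨snc y (t i), h3, by rwa [t2 i h2, abs_zero]⟩

end VertH

open VertH

/-- the limit of the zero sets is the graph of `wz` -/
theorem vert {D : Set (E k)} {η : ℝ} (hD : IsOpen D)
    (h1 : ∀ i, ∀ y ∈ D, Continuous fun t => U i (snc y t))
    (h2 : ∀ y ∈ D, ∃ a b, a < b ∧
      ∀ᶠ i in (𝒰 : Filter I), 0 < U i (snc y a) ∧ U i (snc y b) < 0)
    (h3 : ∀ p, ini p ∈ D → p ∈ Zs 𝒰 U → ∃ w : E k → ℝ, Smooth w ∧ w (ini p) = p (last k) ∧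
      (∀ j : ℕ, 1 ≤ j → j * η ≤ 1 → ‖iteratedFDeriv ℝ j w (ini p)‖ ≤ η) ∧
      ∀ᶠ x in 𝓝 p, (x ∈ Zs 𝒰 U → x (last k) = w (ini x)) ∧
        (x (last k) < w (ini x) → ∀ᶠ i in (𝒰 : Filter I), 0 < U i x) ∧
        (w (ini x) < x (last k) → ∀ᶠ i in (𝒰 : Filter I), U i x < 0)) :
    ∀ y ∈ D, (∀ t, snc y t ∈ Zs 𝒰 U ↔ t = wz 𝒰 U y) ∧ ContDiffAt ℝ ∞ (wz 𝒰 U) y ∧
      ∀ j : ℕ, 1 ≤ j → j * η ≤ 1 → ‖iteratedFDeriv ℝ j (wz 𝒰 U) y‖ ≤ η := by
  have loc : ∀ y ∈ D, ∀ t, snc y t ∈ Zs 𝒰 U → ∀ᶠ s in 𝓝 t, (snc y s ∈ Zs 𝒰 U → s = t) ∧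
      (s < t → ∀ᶠ i in (𝒰 : Filter I), 0 < U i (snc y s)) ∧
      (t < s → ∀ᶠ i in (𝒰 : Filter I), U i (snc y s) < 0) := fun y hy t ht => by
    obtain ⟨w, -, e, -, h⟩ := h3 _ (by rwa [ini_snc]) ht
    rw [ini_snc, snc_last] at e
    simpa only [ini_snc, snc_last, e] using ((cts y).tendsto t).eventually h
  have lt : ∀ y ∈ D, ∀ t₁ t₂, snc y t₁ ∈ Zs 𝒰 U → snc y t₂ ∈ Zs 𝒰 U → ¬ t₁ < t₂ :=
    fun y hy t₁ t₂ z1 z2 h => by
    obtain ⟨d, d0, hd⟩ := Metric.eventually_nhds_iff.1 (loc y hy t₁ z1)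
    have hd' : ∀ s, t₁ < s → s ≤ t₁ + d / 2 → snc y s ∉ Zs 𝒰 U ∧
        ∀ᶠ i in (𝒰 : Filter I), U i (snc y s) < 0 := fun s s1 s2 => by
      have := hd (y := s) (by rw [Real.dist_eq, abs_lt]; constructor <;> linarith)
      exact ⟨fun z => s1.ne' (this.1 z), this.2.2 s1⟩
    have c : IsClosed (Ici (t₁ + d / 2) ∩ (fun s => snc y s) ⁻¹' Zs 𝒰 U) :=
      isClosed_Ici.inter ((closed U).preimage (cts y))
    have b : BddBelow (Ici (t₁ + d / 2) ∩ (fun s => snc y s) ⁻¹' Zs 𝒰 U) := ⟨_, fun s hs => hs.1⟩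
    have m := c.csInf_mem ⟨t₂, not_lt.1 fun e => (hd' t₂ h e.le).1 z2, z2⟩ b
    have m' : t₁ + d / 2 < _ := lt_of_le_of_ne m.1 fun e =>
      (hd' _ (by linarith) le_rfl).1 (e ▸ m.2)
    obtain ⟨s, s1, s2⟩ := (((loc y hy _ m.2).filter_mono nhdsWithin_le_nhds).and
      (Ioo_mem_nhdsLT m')).exists
    obtain ⟨t, t1, t2⟩ := cross s2.1.le (fun i => h1 i y hy) (((hd' _ (by linarith) le_rfl).2.and
      (s1.2.1 s2.2)).mono fun i e => mul_neg_of_neg_of_pos e.1 e.2)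
    linarith [csInf_le b ⟨t1.1, t2⟩, t1.2, s2.2]
  have sp : ∀ y ∈ D, snc y (wz 𝒰 U y) ∈ Zs 𝒰 U := fun y hy => by
    obtain ⟨a, b, hab, h⟩ := h2 y hy
    obtain ⟨t, -, ht⟩ := cross hab.le (fun i => h1 i y hy)
      (h.mono fun i e => mul_neg_of_pos_of_neg e.1 e.2)
    exact Classical.epsilon_spec (p := fun t => snc y t ∈ Zs 𝒰 U) ⟨t, ht⟩
  have un : ∀ y ∈ D, ∀ t, snc y t ∈ Zs 𝒰 U → t = wz 𝒰 U y := fun y hy t ht =>
    le_antisymm (not_lt.1 (lt y hy _ _ (sp y hy) ht)) (not_lt.1 (lt y hy _ _ ht (sp y hy)))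
  intro y hy
  obtain ⟨w, sw, e, hj, h⟩ := h3 _ (by rwa [ini_snc]) (sp y hy)
  rw [ini_snc] at hj
  rw [ini_snc, snc_last] at e
  have h' := (cont_snc.tendsto (y, wz 𝒰 U y)).eventually h
  rw [nhds_prod_eq] at h'
  obtain ⟨P, hP, Q, hQ, h'⟩ := eventually_prod_iff.1 h'
  obtain ⟨d, d0, hd⟩ := Metric.eventually_nhds_iff.1 hQ
  have ev : wz 𝒰 U =ᶠ[𝓝 y] w := by
    filter_upwards [hP, hD.mem_nhds hy, (sw.continuous.tendsto y).eventually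
      (Ioo_mem_nhds (show wz 𝒰 U y - d / 2 < w y by linarith)
        (show w y < wz 𝒰 U y + d / 2 by linarith))] with z z1 z2 z3
    have q : ∀ s ∈ Icc (wz 𝒰 U y - d / 2) (wz 𝒰 U y + d / 2), _ := fun s hs =>
      h' z1 (hd (y := s) (by rw [Real.dist_eq, abs_lt]; constructor <;> linarith [hs.1, hs.2]))
    simp only [ini_snc, snc_last] at q
    have l : wz 𝒰 U y - d / 2 ≤ wz 𝒰 U y + d / 2 := by linarith
    obtain ⟨t, t1, t2⟩ := cross l (fun i => h1 i z z2) ((((q _ (left_mem_Icc.2 l)).2.1 z3.1).and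
      ((q _ (right_mem_Icc.2 l)).2.2 z3.2)).mono fun i e => mul_neg_of_pos_of_neg e.1 e.2)
    rw [← un z z2 t t2, (q t t1).1 t2]
  refine ⟨fun t => ⟨un y hy t, fun e => e ▸ sp y hy⟩, sw.contDiffAt.congr_of_eventuallyEq ev,
    fun j j1 j2 => ?_⟩
  rw [(ev.iteratedFDeriv ℝ j).eq_of_nhds]
  exact hj j j1 j2

end Vale.Agent.P366C
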